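import Vale.Agent.P101.Defs

/-! The Jiang-Su algebra, by its defining properties (statement form). -/

namespace Vale.Agent.P101.ZDef
open scoped ComplexOrder

universe u

/-- `S` is a unital copy in `Z` of the algebra `T`. -/
def IsCopy {Z : Type u} [CStarAlgebra Z] {B : Type} [Ring B] [StarRing B] [Algebra ℂ B]
    [StarModule ℂ B] (T : StarSubalgebra ℂ B) (S : Set Z) : Prop :=
  ∃ ψ : T →⋆ₐ[ℂ] Z, Function.Injective ψ ∧ Set.range ψ = S

/-- A tracial state. -/
def IsTracialState {Z : Type u} [CStarAlgebra Z] (τ : Z →ₗ[ℂ] ℂ) : Prop :=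
  τ 1 = 1 ∧ (∀ x, 0 ≤ τ (star x * x)) ∧ ∀ x y, τ (x * y) = τ (y * x)

/-- The Jiang-Su algebra: an infinite dimensional simple inductive limit of prime dimension drop
algebras (the closure of an increasing union of unital copies of such algebras) with a unique
tracial state. -/
structure IsJiangSuAlgebra (Z : Type u) [CStarAlgebra Z] : Prop where
  limit : ∃ S : ℕ → Set Z,
    (∀ n, ∃ p q : ℕ, 0 < p ∧ 0 < q ∧ Nat.Coprime p q ∧ IsCopy (DimDrop p q) (S n)) ∧
    (∀ n, S n ⊆ S (n + 1)) ∧ Dense (⋃ n, S n)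
  infinite : ¬ FiniteDimensional ℂ Z
  simple : ∀ I : TwoSidedIdeal Z, IsClosed (I : Set Z) → I = ⊥ ∨ I = ⊤
  trace : ∃! τ : Z →ₗ[ℂ] ℂ, IsTracialState τ

end Vale.Agent.P101.ZDef
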