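import Vale.Agent.P101.JFinal
import Vale.Agent.P101.ZDefs

/-! The Jiang-Su algebra exists in every universe. -/

namespace Vale.Agent.P101.JS

universe u v

theorem IsJS.of_equiv {Z : Type u} {W : Type v} [CStarAlgebra Z] [CStarAlgebra W] (h : IsJS Z)
    (e : Z ≃⋆ₐ[ℂ] W) : IsJS W := by
  have hc : Continuous e := (StarAlgEquiv.isometry e).continuous
  refine ⟨?_, fun hW => h.infinite ?_, fun I hI => ?_, ?_⟩
  · obtain ⟨p, q, ψ, h1, h2, h3, h4⟩ := h.limit
    refine ⟨p, q, fun n => (e : Z →⋆ₐ[ℂ] W).comp (ψ n), h1, fun n => e.injective.comp (h2 n),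
      fun n => ?_, ?_⟩
    · rintro _ ⟨f, rfl⟩
      obtain ⟨g, hg⟩ := h3 n ⟨f, rfl⟩
      exact ⟨g, congrArg e hg⟩
    · refine (e.surjective.denseRange.dense_image hc h4).mono ?_
      rintro _ ⟨z, hz, rfl⟩
      obtain ⟨n, f, rfl⟩ := Set.mem_iUnion.1 hz
      exact Set.mem_iUnion.2 ⟨n, f, rfl⟩
  · exact Module.Finite.equiv (AlgEquivClass.toAlgEquiv e.symm).toLinearEquiv
  · have hcl : IsClosed ((I.comap (e : Z →+* W) : TwoSidedIdeal Z) : Set Z) := by
      convert hI.preimage hc using 1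
      ext z
      exact TwoSidedIdeal.mem_comap _
    rcases h.simple (I.comap (e : Z →+* W)) hcl with h0 | h0
    · left
      refine eq_bot_iff.2 fun w hw => ?_
      have : e.symm w ∈ I.comap (e : Z →+* W) := by
        rw [TwoSidedIdeal.mem_comap]
        simpa using hw
      rw [h0, TwoSidedIdeal.mem_bot] at this
      simpa using this
    · right
      refine eq_top_iff.2 fun w _ => ?_
      have : e.symm w ∈ I.comap (e : Z →+* W) := by
        rw [h0]
        trivial
      rw [TwoSidedIdeal.mem_comap] at this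
      simpa using this
  · obtain ⟨τ, hτ, hu⟩ := h.trace
    refine ⟨τ.comp (AlgEquivClass.toAlgEquiv e.symm).toLinearMap, ⟨?_, fun x => ?_, fun x y => ?_⟩,
      fun σ hσ => ?_⟩
    · simpa using hτ.1
    · have := hτ.2.1 (e.symm x)
      rw [← map_star, ← map_mul] at this
      exact this
    · have := hτ.2.2 (e.symm x) (e.symm y)
      rw [← map_mul, ← map_mul] at this
      exact this
    · have := hu (σ.comp (AlgEquivClass.toAlgEquiv e).toLinearMap) ⟨by simpa using hσ.1, fun x => ?_,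
        fun x y => ?_⟩
      · ext w
        rw [← this]
        simp
      · have := hσ.2.1 (e x)
        rw [← map_star, ← map_mul] at this
        exact this
      · have := hσ.2.2 (e x) (e y)
        rw [← map_mul, ← map_mul] at this
        exact this

/-- functions on a point -/
noncomputable def pointEquiv (Z : Type) [CStarAlgebra Z] : Z ≃⋆ₐ[ℂ] C(PUnit.{u + 1}, Z) where
  toFun z := ContinuousMap.const _ z
  invFun f := f PUnit.unit
  left_inv _ := rfl
  right_inv _ := rfl
  map_mul' _ _ := rfl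
  map_add' _ _ := rfl
  map_star' _ := rfl
  map_smul' _ _ := rfl

theorem exists_isJS_univ : ∃ (Z : Type u) (_ : CStarAlgebra Z), IsJS Z :=
  have ⟨Z, _, h⟩ := exists_isJS
  ⟨C(PUnit.{u + 1}, Z), inferInstance, h.of_equiv (pointEquiv Z)⟩

theorem isJS_iff {Z : Type u} [CStarAlgebra Z] : ZDef.IsJiangSuAlgebra Z ↔ IsJS Z := by
  refine ⟨fun h => ⟨?_, h.infinite, h.simple, h.trace⟩,
    fun h => ⟨?_, h.infinite, h.simple, h.trace⟩⟩
  · obtain ⟨S, h1, h2, h3⟩ := h.limit
    choose p q hp hq hpq ψ hψ hS using h1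
    obtain rfl : S = fun n => Set.range (ψ n) := funext fun n => (hS n).symm
    exact ⟨p, q, ψ, fun n => ⟨hp n, hq n, hpq n⟩, hψ, h2, h3⟩
  · obtain ⟨p, q, ψ, h1, h2, h3, h4⟩ := h.limit
    exact ⟨fun n => Set.range (ψ n),
      fun n => ⟨p n, q n, (h1 n).1, (h1 n).2.1, (h1 n).2.2, ψ n, h2 n, rfl⟩, h3, h4⟩

end Vale.Agent.P101.JS
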