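import Vale.Agent.P101.Tools

/-! One-sided Elliott intertwining (Rordam's book, Prop. 2.3.5). -/

namespace Vale.Agent.P101
open Filter Topology TopologicalSpace

universe u

theorem norm_conj_unit {C : Type u} [CStarAlgebra C] (u : unitary C) (x : C) :
    ‖(u : C) * x * star (u : C)‖ = ‖x‖ := by
  rw [← Unitary.coe_star, CStarRing.norm_mul_coe_unitary, CStarRing.norm_coe_unitary_mul]

theorem elliott_seq {A C : Type u} [CStarAlgebra A] [CStarAlgebra C] (φ : A →⋆ₐ[ℂ] C)
    (h : ∀ (s : Finset A) (t : Finset C) (ε : ℝ), 0 < ε → ∃ z : unitary C,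
      (∀ a ∈ s, ‖(z : C) * φ a - φ a * z‖ ≤ ε) ∧
      ∀ c ∈ t, ∃ a, ‖star (z : C) * c * z - φ a‖ ≤ ε) (a : ℕ → A) (c : ℕ → C) :
    ∃ (u : ℕ → unitary C) (s : ℕ → Finset A), Monotone s ∧ (∀ n, a n ∈ s (n + 1)) ∧
      (∀ n, ∀ x ∈ s n, ‖(u (n + 1) : C) * φ x * star (u (n + 1) : C) -
        (u n : C) * φ x * star (u n : C)‖ ≤ (1 / 2) ^ n) ∧
      ∀ n j, j ≤ n → ∃ b ∈ s (n + 1),
        ‖(u (n + 1) : C) * φ b * star (u (n + 1) : C) - c j‖ ≤ (1 / 2) ^ n := by
  classical
  have h' : ∀ (s : Finset A) (t : Finset C) (n : ℕ), ∃ (z : unitary C) (B : C → A),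
      (∀ a ∈ s, ‖(z : C) * φ a - φ a * z‖ ≤ (1 / 2) ^ n) ∧
      ∀ c ∈ t, ‖star (z : C) * c * z - φ (B c)‖ ≤ (1 / 2) ^ n := by
    intro s t n
    obtain ⟨z, h1, h2⟩ := h s t ((1 / 2) ^ n) (by positivity)
    choose! B hB using h2
    exact ⟨z, B, h1, hB⟩
  choose Z B hZ hB using h'
  let T : ℕ → unitary C → Finset C := fun n u =>
    (Finset.range (n + 1)).image fun j => star (u : C) * c j * u
  let st : ℕ → unitary C × Finset A := fun n => Nat.rec (1, ∅)
    (fun n p => (p.1 * Z p.2 (T n p.1) n,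
      insert (a n) (p.2 ∪ (T n p.1).image (B p.2 (T n p.1) n)))) n
  have e1 : ∀ n, (st (n + 1)).1 = (st n).1 * Z (st n).2 (T n (st n).1) n := fun n => rfl
  have e2 : ∀ n, (st (n + 1)).2 = insert (a n)
      ((st n).2 ∪ (T n (st n).1).image (B (st n).2 (T n (st n).1) n)) := fun n => rfl
  refine ⟨fun n => (st n).1, fun n => (st n).2, monotone_nat_of_le_succ fun n => ?_,
    fun n => ?_, fun n x hx => ?_, fun n j hj => ?_⟩
  · rw [e2]
    exact Finset.subset_union_left.trans (Finset.subset_insert _ _)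
  · beta_reduce; rw [e2]; exact Finset.mem_insert_self _ _
  · have h1 := hZ (st n).2 (T n (st n).1) n x hx
    beta_reduce
    rw [e1]
    set z := Z (st n).2 (T n (st n).1) n
    set u := (st n).1
    have : ((u * z : unitary C) : C) * φ x * star ((u * z : unitary C) : C) -
        (u : C) * φ x * star (u : C) =
        (u : C) * (((z : C) * φ x - φ x * z) * star (z : C)) * star (u : C) := by
      have hz : (z : C) * star (z : C) = 1 := Unitary.coe_mul_star_self z
      rw [sub_mul, mul_assoc (φ x), hz, mul_one, Submonoid.coe_mul, star_mul]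
      noncomm_ring
    rw [this, norm_conj_unit, ← Unitary.coe_star, CStarRing.norm_mul_coe_unitary]
    exact h1
  · have hm : star ((st n).1 : C) * c j * (st n).1 ∈ T n (st n).1 :=
      Finset.mem_image_of_mem _ (Finset.mem_range.2 (by omega))
    have h1 := hB (st n).2 (T n (st n).1) n _ hm
    beta_reduce
    refine ⟨B (st n).2 (T n (st n).1) n (star ((st n).1 : C) * c j * (st n).1), ?_, ?_⟩
    · rw [e2]
      exact Finset.mem_insert_of_mem (Finset.mem_union_right _ (Finset.mem_image_of_mem _ hm))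
    · set b := B (st n).2 (T n (st n).1) n (star ((st n).1 : C) * c j * (st n).1)
      have e3 : star (Z (st n).2 (T n (st n).1) n : C) * (star ((st n).1 : C) * c j * (st n).1) *
          (Z (st n).2 (T n (st n).1) n : C) =
          star ((st (n + 1)).1 : C) * c j * (st (n + 1)).1 := by
        rw [e1, Submonoid.coe_mul, star_mul]; noncomm_ring
      rw [e3] at h1
      set w := (st (n + 1)).1
      have hw : (w : C) * star (w : C) = 1 := Unitary.coe_mul_star_self w
      have : (w : C) * φ b * star (w : C) - c j =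
          -((w : C) * (star (w : C) * c j * w - φ b) * star (w : C)) := by
        have : (w : C) * (star (w : C) * c j * w) * star (w : C) = c j := by
          rw [← mul_assoc, ← mul_assoc, hw, one_mul, mul_assoc, hw, mul_one]
        rw [mul_sub, sub_mul, this]; abel
      rw [this, norm_neg, norm_conj_unit]
      exact h1

theorem elliott {A C : Type u} [CStarAlgebra A] [CStarAlgebra C] [SeparableSpace A]
    [SeparableSpace C] (φ : A →⋆ₐ[ℂ] C) (hφ : Function.Injective φ)
    (h : ∀ (s : Finset A) (t : Finset C) (ε : ℝ), 0 < ε → ∃ z : unitary C,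
      (∀ a ∈ s, ‖(z : C) * φ a - φ a * z‖ ≤ ε) ∧
      ∀ c ∈ t, ∃ a, ‖star (z : C) * c * z - φ a‖ ≤ ε) : Nonempty (A ≃⋆ₐ[ℂ] C) := by
  obtain ⟨u, s, hs, ha, hψ, hc⟩ := elliott_seq φ h (denseSeq A) (denseSeq C)
  let ψ : ℕ → A → C := fun n x => (u n : C) * φ x * star (u n : C)
  have hiso : ∀ n x, ‖ψ n x‖ = ‖x‖ := fun n x => by
    rw [norm_conj_unit, NonUnitalStarAlgHom.norm_map φ hφ]
  have hsub : ∀ n x y, ψ n (x - y) = ψ n x - ψ n y := fun n x y => by
    simp only [ψ, map_sub, mul_sub, sub_mul]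
  have hd : ∀ n x y, dist (ψ n x) (ψ n y) = dist x y := fun n x y => by
    rw [dist_eq_norm, dist_eq_norm, ← hsub, hiso]
  have hstep : ∀ n, ∀ x ∈ s n, ∀ k, dist (ψ (k + n) x) (ψ (k + 1 + n) x) ≤
      (1 / 2) ^ n * (1 / 2) ^ k := fun n x hx k => by
    rw [dist_comm, dist_eq_norm, ← pow_add, add_comm n k, add_right_comm]
    exact hψ (k + n) x (hs (Nat.le_add_left n k) hx)
  have hC0 : ∀ n, ∀ x ∈ s n, CauchySeq fun k => ψ k x := fun n x hx =>
    (cauchySeq_shift n).1 (cauchySeq_of_le_geometric (1 / 2) _ (by norm_num) (hstep n x hx))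
  have hC : ∀ x, CauchySeq fun k => ψ k x := fun x => by
    refine Metric.cauchySeq_iff.2 fun ε hε => ?_
    obtain ⟨n, hn⟩ := (denseRange_denseSeq A).exists_dist_lt x (show 0 < ε / 3 by positivity)
    obtain ⟨N, hN⟩ := Metric.cauchySeq_iff.1 (hC0 _ _ (ha n)) (ε / 3) (by positivity)
    refine ⟨N, fun k hk l hl => ?_⟩
    have h1 := dist_triangle4 (ψ k x) (ψ k (denseSeq A n)) (ψ l (denseSeq A n)) (ψ l x)
    rw [hd, hd, dist_comm (denseSeq A n)] at h1
    linarith [hN k hk l hl]
  choose Ψ hΨ using fun x => cauchySeq_tendsto_of_complete (hC x)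
  have hu1 : ∀ n, (u n : C) * star (u n : C) = 1 := fun n => Unitary.coe_mul_star_self _
  have hu2 : ∀ n, star (u n : C) * (u n : C) = 1 := fun n => Unitary.coe_star_mul_self _
  let Φ : A →⋆ₐ[ℂ] C :=
    { toFun := Ψ
      map_one' := tendsto_nhds_unique (hΨ 1) (by
        simpa only [ψ, map_one, mul_one, hu1] using tendsto_const_nhds)
      map_mul' := fun x y => tendsto_nhds_unique (hΨ (x * y)) (((hΨ x).mul (hΨ y)).congr fun n => by
        simp only [ψ, map_mul, mul_assoc]
        rw [← mul_assoc (star (u n : C)), hu2, one_mul])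
      map_zero' := tendsto_nhds_unique (hΨ 0) (by
        simpa only [ψ, map_zero, mul_zero, zero_mul] using tendsto_const_nhds)
      map_add' := fun x y => tendsto_nhds_unique (hΨ (x + y)) (((hΨ x).add (hΨ y)).congr fun n => by
        simp only [ψ, map_add, mul_add, add_mul])
      commutes' := fun r => tendsto_nhds_unique (hΨ _) (by
        simpa only [ψ, Algebra.algebraMap_eq_smul_one, map_smul, map_one, mul_smul_comm,
          smul_mul_assoc, mul_one, hu1] using tendsto_const_nhds)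
      map_star' := fun x => tendsto_nhds_unique (hΨ (star x)) ((hΨ x).star.congr fun n => by
        simp only [ψ, map_star, star_mul, star_star, mul_assoc]) }
  have hI : Isometry Φ := Isometry.of_dist_eq fun x y =>
    tendsto_nhds_unique ((hΨ x).dist (hΨ y)) (by simpa only [hd] using tendsto_const_nhds)
  have hD : DenseRange Φ := by
    refine Metric.denseRange_iff.2 fun y ε hε => ?_
    obtain ⟨j, hj⟩ := (denseRange_denseSeq C).exists_dist_lt y (show 0 < ε / 2 by positivity)
    obtain ⟨m, hm⟩ := exists_pow_lt_of_lt_one (show 0 < ε / 8 by positivity)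
      (show (1 / 2 : ℝ) < 1 by norm_num)
    obtain ⟨b, hb, hb'⟩ := hc (j + m) j (Nat.le_add_right _ _)
    refine ⟨b, ?_⟩
    have h1 := dist_le_of_le_geometric_of_tendsto₀ (1 / 2) _ (by norm_num) (hstep _ b hb)
      ((hΨ b).comp (tendsto_add_atTop_nat (j + m + 1)))
    rw [zero_add] at h1
    rw [← dist_eq_norm, dist_comm] at hb'
    have h2 := dist_triangle4 y (denseSeq C j) (ψ (j + m + 1) b) (Ψ b)
    have h3 : (1 / 2 : ℝ) ^ (j + m) ≤ (1 / 2) ^ m :=
      pow_le_pow_of_le_one (by norm_num) (by norm_num) (Nat.le_add_left _ _)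
    have h4 : (1 / 2 : ℝ) ^ (j + m + 1) / (1 - 1 / 2) = (1 / 2) ^ (j + m) := by
      rw [pow_succ]; ring
    change dist y (Ψ b) < ε
    change dist _ (ψ (j + m + 1) b) ≤ _ at hb'
    linarith
  refine ⟨StarAlgEquiv.ofBijective Φ ⟨hI.injective, ?_⟩⟩
  rw [← Set.range_eq_univ, ← hI.isClosedEmbedding.isClosed_range.closure_eq]
  exact hD.closure_range

end Vale.Agent.P101
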