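import Vale.Agent.P101.Tools

/-! An approximately inner half-flip gives the universal property of the minimal tensor square. -/

namespace Vale.Agent.P101
open Filter Topology

universe u v

namespace NucAux
open UniformSpace
open scoped TensorProduct InnerProductSpace

theorem ext_tmul {H K : Type u} [NormedAddCommGroup H] [InnerProductSpace ℂ H]
    [NormedAddCommGroup K] [InnerProductSpace ℂ K]
    {S T : Completion (H ⊗[ℂ] K) →L[ℂ] Completion (H ⊗[ℂ] K)}
    (h : ∀ x y, S ((x ⊗ₜ[ℂ] y : H ⊗[ℂ] K) : Completion (H ⊗[ℂ] K)) =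
      T ((x ⊗ₜ[ℂ] y : H ⊗[ℂ] K) : Completion (H ⊗[ℂ] K))) : S = T := by
  ext w
  induction w using Completion.induction_on with
  | hp => exact isClosed_eq S.continuous T.continuous
  | ih w =>
    induction w with
    | zero => rw [Completion.coe_zero, map_zero, map_zero]
    | tmul x y => exact h x y
    | add x y hx hy => rw [Completion.coe_add, map_add, map_add, hx, hy]

theorem nontriv {A H : Type u} [CStarAlgebra A] [Nontrivial A] [NormedAddCommGroup H]
    [InnerProductSpace ℂ H] [CompleteSpace H] {π : A →⋆ₐ[ℂ] (H →L[ℂ] H)}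
    (hπ : Function.Injective π) : ∃ x : H, ‖x‖ = 1 := by
  rcases subsingleton_or_nontrivial H with h | h
  · exact absurd (hπ (Subsingleton.elim _ _)) (zero_ne_one (α := A))
  · exact exists_norm_eq H zero_le_one

theorem nonneg_of_map {A B : Type*} [NonUnitalCStarAlgebra A] [NonUnitalCStarAlgebra B]
    [PartialOrder A] [StarOrderedRing A] [PartialOrder B] [StarOrderedRing B]
    (φ : A →⋆ₙₐ[ℂ] B) (hφ : Function.Injective φ) {a : A} (h : 0 ≤ φ a) :
    ∃ b, a = star b * b := by
  have ha : IsSelfAdjoint a := hφ (by rw [map_star, h.isSelfAdjoint.star_eq])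
  rw [← CStarAlgebra.nonneg_iff_eq_star_mul_self, ← CFC.negPart_eq_zero_iff a ha]
  refine hφ ?_
  rw [map_zero, ← (CFC.negPart_eq_zero_iff _ h.isSelfAdjoint).2 h, CFC.negPart_def, CFC.negPart_def]
  exact NonUnitalStarAlgHomClass.map_cfcₙ (S := ℂ) φ _ a
    (hφ := (NonUnitalStarAlgHom.isometry φ hφ).continuous)

variable {D C B : Type u} {E : Type v} [CStarAlgebra D] [CStarAlgebra C] [CStarAlgebra E]
  [CStarAlgebra B]

theorem pos_sum [PartialOrder E] [StarOrderedRing E] {τ : D →⋆ₙₐ[ℂ] B}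
    (hτ : Function.Injective τ) {n : ℕ} (m : Fin n → Fin n → D) (x : Fin n → B)
    (h : ∀ k l, τ (m k l) = star (x k) * x l) (β : D →⋆ₐ[ℂ] E) (e : Fin n → E) :
    0 ≤ ∑ k, ∑ l, e k * β (m k l) * star (e l) := by
  let := CStarAlgebra.spectralOrder D
  have := CStarAlgebra.spectralOrderedRing D
  let := CStarAlgebra.spectralOrder B
  have := CStarAlgebra.spectralOrderedRing B
  rcases n with _ | n
  · simp
  have h1 : ∃ y : CStarMatrix _ _ D, CStarMatrix.ofMatrix m = star y * y := by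
    refine nonneg_of_map (CStarMatrix.mapₙₐ τ) (CStarMatrix.map_injective hτ) ?_
    have : CStarMatrix.mapₙₐ τ (CStarMatrix.ofMatrix m) =
        star (CStarMatrix.ofMatrix fun r l => if r = 0 then x l else 0) *
          CStarMatrix.ofMatrix fun r l => if r = 0 then x l else 0 := by
      ext k l
      change τ (m k l) = ∑ r : Fin (n + 1),
        star (if r = 0 then x k else 0) * if r = 0 then x l else 0
      simp [h]
    rw [this]
    exact star_mul_self_nonneg _
  obtain ⟨y, hy⟩ := h1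
  have h2 : ∀ k l, m k l = ∑ r, star (y r k) * y r l := fun k l => congrFun (congrFun hy k) l
  have h3 : ∑ k, ∑ l, e k * β (m k l) * star (e l) =
      ∑ r, star (∑ l, β (y r l) * star (e l)) * ∑ l, β (y r l) * star (e l) := by
    simp only [h2, map_sum, map_mul, map_star, star_sum, star_mul, star_star, Finset.sum_mul,
      Finset.mul_sum, mul_assoc]
    refine (Finset.sum_congr rfl fun k _ => Finset.sum_comm).trans (Finset.sum_comm.trans ?_)
    exact Finset.sum_congr rfl fun r _ => Finset.sum_comm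
  rw [h3]
  exact Finset.sum_nonneg fun r _ => star_mul_self_nonneg _

theorem exists_R {i j : D →⋆ₐ[ℂ] C}
    (hd : Dense (Submodule.span ℂ {c | ∃ a b, c = i a * j b} : Set C)) (σ : C →⋆ₐ[ℂ] B)
    {τ : D →⋆ₙₐ[ℂ] B} (hτ : Function.Injective τ)
    (h3 : ∀ a b, ∃ d, τ d = τ 1 * σ (i a * j b) * τ 1) :
    ∃ R : C →L[ℂ] D, ∀ c, τ (R c) = τ 1 * σ c * τ 1 := by
  have h4 : ∀ c, ∃ d, τ d = τ 1 * σ c * τ 1 := fun c => by
    refine closure_minimal (t := (fun c => τ 1 * σ c * τ 1) ⁻¹' Set.range τ) (fun c hc => ?_)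
      ((NonUnitalStarAlgHom.isometry τ hτ).isClosedEmbedding.isClosed_range.preimage
        (((hom_cont σ).const_mul _).mul_const _)) (hd c)
    induction hc using Submodule.span_induction with
    | mem c hc => obtain ⟨a, b, rfl⟩ := hc; exact h3 a b
    | zero => exact ⟨0, by simp⟩
    | add x y _ _ hx hy =>
      obtain ⟨d, hx⟩ := hx
      obtain ⟨d', hy⟩ := hy
      exact ⟨d + d', by simp only [map_add, hx, hy, mul_add, add_mul]⟩
    | smul c x _ hx =>
      obtain ⟨d, hx⟩ := hx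
      exact ⟨c • d, by simp only [map_smul, hx, mul_smul_comm, smul_mul_assoc]⟩
  choose R hR using h4
  let R' : C →ₗ[ℂ] D :=
    { toFun := R
      map_add' := fun x y => hτ (by simp only [hR, map_add, mul_add, add_mul])
      map_smul' := fun c x => hτ (by
        simp only [hR, map_smul, mul_smul_comm, smul_mul_assoc, RingHom.id_apply]) }
  refine ⟨R'.mkContinuous (‖τ 1‖ * ‖τ 1‖) fun c => ?_, hR⟩
  rw [← NonUnitalStarAlgHom.norm_map τ hτ, mul_right_comm]
  exact (congrArg _ (hR c)).trans_le (norm_mul_le_of_le (norm_mul_le_of_le le_rfl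
    (NonUnitalStarAlgHom.norm_apply_le σ c)) le_rfl)

theorem norm_pos_le [PartialOrder C] [StarOrderedRing C] [PartialOrder E] [StarOrderedRing E]
    (Θ : C →ₚ[ℂ] E) (c : C) : ‖Θ c‖ ≤ 4 * ‖Θ 1‖ * ‖c‖ := by
  obtain ⟨y, y0, y1, hy⟩ := CStarAlgebra.exists_sum_four_nonneg c
  conv_lhs => rw [hy]
  simp only [map_sum, map_smul]
  refine (norm_sum_le _ _).trans ((Finset.sum_le_sum (g := fun _ => ‖Θ 1‖ * ‖c‖)
    fun k _ => ?_).trans (by simp [mul_assoc]))
  simp only [norm_smul, norm_pow, Complex.norm_I, one_pow, one_mul]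
  exact (Θ.norm_apply_le_of_nonneg _ (y0 k)).trans
    (mul_le_mul_of_nonneg_left (y1 k) (norm_nonneg _))

theorem tendsto_conj {v : ℕ → unitary C} {w : ℕ → C} {a b : C}
    (h2 : Tendsto (fun n => w n - v n) atTop (𝓝 0))
    (hv : Tendsto (fun n => (v n : C) * a * star (v n : C)) atTop (𝓝 b)) :
    Tendsto (fun n => w n * a * star (w n)) atTop (𝓝 b) := by
  have h4 : IsBoundedUnder (· ≤ ·) atTop (norm ∘ fun n => (v n : C) * a) :=
    isBoundedUnder_of ⟨_, fun n => (CStarRing.norm_coe_unitary_mul _ _).le⟩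
  have h5 : IsBoundedUnder (· ≤ ·) atTop (norm ∘ fun n => a * star (v n : C)) :=
    isBoundedUnder_of ⟨_, fun n => (CStarRing.norm_mul_coe_unitary _ (star (v n))).le⟩
  have h6 := ((hv.add (isBoundedUnder_le_mul_tendsto_zero h4
    (by simpa only [star_zero] using h2.star))).add
    (h2.zero_mul_isBoundedUnder_le h5)).add ((h2.mul_const a).mul h2.star)
  simp only [zero_mul, add_zero] at h6
  refine h6.congr fun n => ?_
  simp only [star_sub]
  noncomm_ring

theorem slice [Nontrivial D] {i j : D →⋆ₐ[ℂ] C} (h : IsMinTensor i j) :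
    ∃ (R : C →L[ℂ] D) (ψ : D → ℂ), ψ 1 = 1 ∧ (∀ a b, R (i a * j b) = ψ a • b) ∧
      ∃ (B : Type u) (_ : CStarAlgebra B) (σ : C →⋆ₐ[ℂ] B) (τ : D →⋆ₙₐ[ℂ] B),
        Function.Injective τ ∧ ∀ c, τ (R c) = τ 1 * σ c * τ 1 := by
  obtain ⟨hd, H, K, _, _, _, _, _, _, π, ρ, σ, hπ, hρ, -, hs⟩ := h
  obtain ⟨ξ, hξ⟩ := nontriv hπ
  let V : K →L[ℂ] Completion (H ⊗[ℂ] K) := Completion.toComplL.comp (TensorProduct.mkL ℂ H K ξ)
  have hV : ∀ k, V k = ((ξ ⊗ₜ[ℂ] k : H ⊗[ℂ] K) : Completion (H ⊗[ℂ] K)) := fun _ => rfl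
  have h1 : ∀ a b k, V.adjoint (σ (i a * j b) (V k)) = ⟪ξ, π a ξ⟫_ℂ • ρ b k := fun a b k => by
    refine ext_inner_left ℂ fun k' => ?_
    rw [V.adjoint_inner_right, hV, hV, hs, Completion.inner_coe, TensorProduct.inner_tmul,
      inner_smul_right]
  have h0 : ⟪ξ, π 1 ξ⟫_ℂ = 1 := by simp [inner_self_eq_norm_sq_to_K, hξ]
  have h2 : ∀ k, V.adjoint (V k) = k := fun k => by
    have := h1 1 1 k
    rw [h0] at this
    simpa using this
  let τ : D →⋆ₙₐ[ℂ] (Completion (H ⊗[ℂ] K) →L[ℂ] Completion (H ⊗[ℂ] K)) :=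
    { toFun := fun d => V.comp ((ρ d).comp V.adjoint)
      map_smul' := fun c d => by ext; simp
      map_zero' := by ext; simp
      map_add' := fun c d => by ext; simp
      map_mul' := fun c d => by ext; simp [h2]
      map_star' := fun d => by
        simp [ContinuousLinearMap.star_eq_adjoint, ContinuousLinearMap.adjoint_comp, map_star,
          ContinuousLinearMap.comp_assoc] }
  have hτ' : ∀ d w, τ d w = V (ρ d (V.adjoint w)) := fun _ _ => rfl
  have hτ : Function.Injective τ := fun c d hcd => hρ (by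
    ext k
    simpa [hτ', h2] using congrArg (fun T => V.adjoint (T (V k))) hcd)
  have h3 : ∀ a b, τ (⟪ξ, π a ξ⟫_ℂ • b) = τ 1 * σ (i a * j b) * τ 1 := fun a b => by
    ext w
    simp [hτ', h1, -map_mul]
  have h4 := exists_R (B := Completion (H ⊗[ℂ] K) →L[ℂ] Completion (H ⊗[ℂ] K)) hd σ (τ := τ) hτ
  obtain ⟨R, hR⟩ := h4 fun a b => ⟨_, h3 a b⟩
  exact ⟨R, fun a => ⟪ξ, π a ξ⟫_ℂ, h0, fun a b => hτ ((hR _).trans (h3 a b).symm),
    Completion (H ⊗[ℂ] K) →L[ℂ] Completion (H ⊗[ℂ] K), inferInstance, σ, τ, hτ, hR⟩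

end NucAux

open NucAux
open scoped TensorProduct

theorem IsMinTensor.commute {A B C : Type u} [CStarAlgebra A] [CStarAlgebra B] [CStarAlgebra C]
    {i : A →⋆ₐ[ℂ] C} {j : B →⋆ₐ[ℂ] C} (h : IsMinTensor i j) (a : A) (b : B) :
    Commute (i a) (j b) := by
  obtain ⟨-, H, K, _, _, _, _, _, _, π, ρ, σ, -, -, hσ, hs⟩ := h
  refine hσ (ext_tmul fun x y => ?_)
  have h1 := hs a 1 x y
  have h2 := hs 1 b (π a x) y
  simp only [map_one, mul_one, one_mul, one_apply_eq_self] at h1 h2
  rw [hs, map_mul, mul_apply_eq_comp, h1, h2]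

theorem IsMinTensor.injective_left {A B C : Type u} [CStarAlgebra A] [CStarAlgebra B]
    [CStarAlgebra C] [Nontrivial B] {i : A →⋆ₐ[ℂ] C} {j : B →⋆ₐ[ℂ] C} (h : IsMinTensor i j) :
    Function.Injective i := by
  obtain ⟨-, H, K, _, _, _, _, _, _, π, ρ, σ, hπ, hρ, -, hs⟩ := h
  obtain ⟨k, hk⟩ := nontriv hρ
  refine (injective_iff_map_eq_zero i).2 fun a ha => hπ ?_
  ext x
  simpa [ha, hk] using (congrArg norm (hs a 1 x k)).symm

theorem nuc {D C : Type u} {E : Type v} [CStarAlgebra D] [CStarAlgebra C] [CStarAlgebra E]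
    [Nontrivial D] {i j : D →⋆ₐ[ℂ] C} (h : IsMinTensor i j) (v : ℕ → unitary C)
    (hv : ∀ d, Tendsto (fun n => (v n : C) * i d * star (v n : C)) atTop (𝓝 (j d)))
    (α β : D →⋆ₐ[ℂ] E) (hc : ∀ x y, Commute (α x) (β y)) :
    ∃ θ : C →⋆ₐ[ℂ] E, ∀ x y, θ (i x * j y) = α x * β y := by
  let := CStarAlgebra.spectralOrder C
  have := CStarAlgebra.spectralOrderedRing C
  let := CStarAlgebra.spectralOrder E
  have := CStarAlgebra.spectralOrderedRing E
  obtain ⟨R, ψ, h1, hR, B, _, σ, τ, hτ, hτR⟩ := slice h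
  let f : D ⊗[ℂ] D →ₐ[ℂ] C := Algebra.TensorProduct.lift (i : D →ₐ[ℂ] C) j h.commute
  let g : D ⊗[ℂ] D →ₐ[ℂ] E := Algebra.TensorProduct.lift (α : D →ₐ[ℂ] E) β hc
  have hf : ∀ a b, f (a ⊗ₜ b) = i a * j b := fun _ _ => rfl
  have hg : ∀ a b, g (a ⊗ₜ b) = α a * β b := fun _ _ => rfl
  have hd : DenseRange f := h.dense.mono fun c hc => by
    refine (Submodule.span_le (p := LinearMap.range f.toLinearMap)).2 ?_ hc
    rintro _ ⟨a, b, rfl⟩
    exact ⟨a ⊗ₜ b, rfl⟩
  have key : ∀ z, ∃ Θ : C →ₚ[ℂ] E, ∀ a b,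
      Θ (i a * j b) = α (R (f z * i a * star (f z))) * β b := fun z => by
    obtain ⟨n, x, y, rfl⟩ := TensorProduct.exists_sum_tmul_eq z
    refine ⟨.mk₀
      { toFun := fun c => ∑ k, ∑ l, α (y k) * β (R (i (x k) * c * star (i (x l)))) * star (α (y l))
        map_add' := fun c c' => by simp [mul_add, add_mul, Finset.sum_add_distrib]
        map_smul' := fun c c' => by simp [Finset.smul_sum] } fun c hc => ?_, fun a b => ?_⟩
    · obtain ⟨s, rfl⟩ := CStarAlgebra.nonneg_iff_eq_star_mul_self.1 hc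
      refine pos_sum hτ _ (fun l => σ s * star (σ (i (x l))) * τ 1) (fun k l => ?_) β _
      simp only [hτR, map_mul, map_star, star_mul, star_star, ← map_star τ, star_one, mul_assoc]
    · change ∑ k, ∑ l, α (y k) * β (R (i (x k) * (i a * j b) * star (i (x l)))) * star (α (y l)) = _
      simp only [map_sum, hf, star_sum, Finset.sum_mul, Finset.mul_sum]
      rw [Finset.sum_comm]
      refine Finset.sum_congr rfl fun l _ => Finset.sum_congr rfl fun k _ => ?_
      have e1 : i (x k) * (i a * j b) * star (i (x l)) = i (x k * a * star (x l)) * j b := by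
        rw [← map_star, mul_assoc, mul_assoc, ← (h.commute _ _).eq, map_mul, map_mul]
        simp only [mul_assoc]
      have e2 : i (x k) * j (y k) * i a * star (i (x l) * j (y l)) =
          i (x k * a * star (x l)) * j (y k * star (y l)) := by
        rw [(h.commute (x l) _).eq, star_mul, ← map_star, ← map_star, mul_assoc (i _),
          ← (h.commute _ _).eq, mul_assoc, mul_assoc, mul_assoc, ← mul_assoc (j _),
          ← (h.commute _ _).eq]
        simp only [map_mul, mul_assoc]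
      rw [e1, e2, hR, hR, ← map_star]
      simp only [map_smul, map_mul, mul_smul_comm, smul_mul_assoc, mul_assoc, ← (hc _ _).eq]
  have hz : ∀ n : ℕ, ∃ z, dist (v n : C) (f z) < 1 / ((n : ℝ) + 1) := fun n =>
    hd.exists_dist_lt _ Nat.one_div_pos_of_nat
  choose z hz using hz
  choose Θ hΘ using fun n => key (z n)
  have h2 : Tendsto (fun n => f (z n) - v n) atTop (𝓝 0) :=
    squeeze_zero_norm (fun n => by rw [← dist_eq_norm']; exact (hz n).le)
      tendsto_one_div_add_atTop_nhds_zero_nat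
  have h3 : ∀ a, Tendsto (fun n => α (R (f (z n) * i a * star (f (z n))))) atTop (𝓝 (α a)) := by
    intro a
    have e : a = R (j a) := by simpa [h1] using (hR 1 a).symm
    have := (R.continuous.tendsto _).comp (tendsto_conj h2 (hv a))
    rw [← e] at this
    exact ((hom_cont α).tendsto _).comp this
  have h4 : ∀ w, Tendsto (fun n => Θ n (f w)) atTop (𝓝 (g w)) := by
    intro w
    induction w with
    | zero => simp
    | tmul a b => simpa only [hf, hg, hΘ] using (h3 a).mul_const (β b)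
    | add x y hx hy => simpa only [map_add] using hx.add hy
  have h5 : ∀ w, ‖g w‖ ≤ 4 * ‖g 1‖ * ‖f w‖ := fun w =>
    le_of_tendsto_of_tendsto' (h4 w).norm (((h4 1).norm.const_mul 4).mul_const _) fun n => by
      rw [map_one]; exact norm_pos_le _ _
  let θ : C →L[ℂ] E := g.toLinearMap.extendOfNorm f.toLinearMap
  have hθ : ∀ w, θ (f w) = g w := LinearMap.extendOfNorm_eq hd ⟨_, h5⟩
  have hs : ∀ w, ∃ w', f w' = star (f w) ∧ g w' = star (g w) := by
    intro w
    induction w with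
    | zero => exact ⟨0, by simp⟩
    | tmul a b =>
      exact ⟨star a ⊗ₜ star b, by rw [hf, hf, (h.commute a b).eq, star_mul, map_star, map_star],
        by rw [hg, hg, (hc a b).eq, star_mul, map_star, map_star]⟩
    | add x y hx hy =>
      obtain ⟨x', a1, a2⟩ := hx
      obtain ⟨y', b1, b2⟩ := hy
      exact ⟨x' + y', by simp only [map_add, star_add, a1, b1],
        by simp only [map_add, star_add, a2, b2]⟩
  refine ⟨{ AlgHom.ofLinearMap θ.toLinearMap (by simpa using hθ 1) fun x y => ?_ with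
    map_star' := fun x => ?_ }, fun x y => hθ (x ⊗ₜ y)⟩
  · refine hd.induction_on₂ (p := fun x y => θ (x * y) = θ x * θ y)
      (isClosed_eq (by fun_prop) (by fun_prop)) (fun a b => ?_) x y
    rw [← map_mul, hθ, hθ, hθ, map_mul]
  · refine hd.induction_on (p := fun x => θ (star x) = star (θ x)) x
      (isClosed_eq (by fun_prop) (by fun_prop)) fun a => ?_
    obtain ⟨w, a1, a2⟩ := hs a
    rw [← a1, hθ, hθ, a2]

end Vale.Agent.P101
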