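import Vale.Agent.P101.Ultra
import Vale.Agent.P101.Elliott
import Vale.Agent.P101.Nuc

/-! Absorption: a unital map of `D` into the central sequence algebra gives `A ≅ A ⊗ D`. -/

namespace Vale.Agent.P101
open Filter Topology TopologicalSpace
open scoped BoundedContinuousFunction

universe u

theorem near_unitary {C : Type u} [CStarAlgebra C] (z : C) (h1 : ‖star z * z - 1‖ ≤ 1 / 2)
    (h2 : ‖z * star z - 1‖ ≤ 1 / 2) : ∃ u : unitary C, ‖(u : C) - z‖ ≤ ‖star z * z - 1‖ := by
  set h := star z * z with hh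
  have hs : IsSelfAdjoint h := IsSelfAdjoint.star_mul_self z
  let g : ℝ → ℝ := fun t => √(max t (1 / 2))
  have g0 : ∀ t, 0 < g t := fun t => Real.sqrt_pos.2 (lt_max_of_lt_right (by norm_num))
  have hg : Continuous g := by fun_prop
  let f : ℝ → ℝ := fun t => (g t)⁻¹
  have hf : Continuous f := hg.inv₀ fun t => (g0 t).ne'
  have e0 : cfc (fun t : ℝ => t - 1) h = h - 1 := by
    rw [cfc_sub _ _ h (by fun_prop) (by fun_prop), cfc_id' ℝ h, cfc_const_one ℝ h]
  have hsp : ∀ t ∈ spectrum ℝ h, |t - 1| ≤ ‖h - 1‖ := fun t ht => by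
    have := norm_apply_le_norm_cfc (fun t : ℝ => t - 1) h ht (by fun_prop) hs
    rwa [e0] at this
  have hsq : ∀ t ∈ spectrum ℝ h, g t * g t = t := fun t ht => by
    have := abs_le.1 ((hsp t ht).trans h1)
    simp only [g]
    rw [max_eq_left (by linarith), Real.mul_self_sqrt (by linarith)]
  have e1 : star (z * cfc f h) * (z * cfc f h) = 1 := by
    have : star (z * cfc f h) * (z * cfc f h) = cfc f h * cfc (fun t : ℝ => t) h * cfc f h := by
      rw [star_mul, (cfc_sa f h).star_eq, cfc_id' ℝ h, hh]; simp only [mul_assoc]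
    rw [this, cfc_mul' hf (by fun_prop), cfc_mul' (by fun_prop) hf, ← cfc_const_one ℝ h]
    refine cfc_congr fun t ht => ?_
    have := (g0 t).ne'
    simp only [f]
    nth_rewrite 2 [← hsq t ht]
    field_simp
  have e2 : z * cfc f h * cfc g h = z := by
    rw [mul_assoc, cfc_mul' hf hg, show (fun t => f t * g t) = fun _ => (1 : ℝ) from
      funext fun t => inv_mul_cancel₀ (g0 t).ne', cfc_const_one ℝ h, mul_one]
  set w := z * cfc f h
  have e3 : w * star w = 1 := by
    have a1 : (1 - w * star w) * z = 0 := by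
      rw [← e2, ← mul_assoc, sub_mul, one_mul, mul_assoc w, e1, mul_one, sub_self, zero_mul]
    have a2 : 1 - w * star w = -((1 - w * star w) * (z * star z - 1)) := by
      rw [mul_sub, ← mul_assoc, a1, zero_mul, mul_one, zero_sub, neg_neg]
    have a3 : ‖1 - w * star w‖ ≤ ‖1 - w * star w‖ * (1 / 2) := by
      conv_lhs => rw [a2, norm_neg]
      exact norm_mul_le_of_le le_rfl h2
    have a4 : ‖1 - w * star w‖ = 0 := by linarith [norm_nonneg (1 - w * star w)]
    exact (sub_eq_zero.1 (norm_eq_zero.1 a4)).symm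
  refine ⟨⟨w, e1, e3⟩, ?_⟩
  have e4 : w - z = w * cfc (fun t => 1 - g t) h := by
    rw [cfc_sub _ _ h (by fun_prop) (by fun_prop), cfc_const_one ℝ h, mul_sub, mul_one, e2]
  change ‖w - z‖ ≤ _
  rw [e4, show w = ((⟨w, e1, e3⟩ : unitary C) : C) from rfl, CStarRing.norm_coe_unitary_mul]
  refine norm_cfc_le (norm_nonneg _) fun t ht => le_trans ?_ (hsp t ht)
  have : t - 1 = (1 - g t) * (-(1 + g t)) := by linear_combination (-1 : ℝ) * hsq t ht
  rw [this, abs_mul, Real.norm_eq_abs, abs_neg, abs_of_pos (a := 1 + g t) (by linarith [g0 t])]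
  nlinarith [abs_nonneg (1 - g t), g0 t]

theorem lift_unitary {C : Type u} [CStarAlgebra C] {ω : Ultrafilter ℕ} {w : UltraPower ω C}
    (hw : w ∈ unitary (UltraPower ω C)) :
    ∃ x : ℕ →ᵇ C, (∀ n, x n ∈ unitary C) ∧ cls ω C x = w := by
  obtain ⟨z, rfl⟩ := cls_surj w
  have h1 : Tendsto (fun n => ‖star (z n) * z n - 1‖) ω (𝓝 0) :=
    (cls_eq (x := star z * z) (y := 1)).1 (by rw [map_mul, map_star, map_one]; exact hw.1)
  have h2 : Tendsto (fun n => ‖z n * star (z n) - 1‖) ω (𝓝 0) :=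
    (cls_eq (x := z * star z) (y := 1)).1 (by rw [map_mul, map_star, map_one]; exact hw.2)
  have : ∀ n, ∃ u : unitary C, ‖star (z n) * z n - 1‖ ≤ 1 / 2 → ‖z n * star (z n) - 1‖ ≤ 1 / 2 →
      ‖(u : C) - z n‖ ≤ ‖star (z n) * z n - 1‖ := fun n => by
    by_cases h : ‖star (z n) * z n - 1‖ ≤ 1 / 2 ∧ ‖z n * star (z n) - 1‖ ≤ 1 / 2
    · obtain ⟨u, hu⟩ := near_unitary _ h.1 h.2
      exact ⟨u, fun _ _ => hu⟩
    · exact ⟨1, fun a b => (h ⟨a, b⟩).elim⟩
  choose u hu using this
  refine ⟨BoundedContinuousFunction.ofNormedAddCommGroupDiscrete (fun n => (u n : C)) ‖(1 : C)‖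
    fun n => ?_, fun n => (u n).2, cls_eq.2 (squeeze_zero' (.of_forall fun _ => norm_nonneg _) ?_ h1)⟩
  · rw [← CStarRing.norm_coe_unitary_mul (u n) 1, mul_one]
  · filter_upwards [h1.eventually (ge_mem_nhds (show (0 : ℝ) < 1 / 2 by norm_num)),
      h2.eventually (ge_mem_nhds (show (0 : ℝ) < 1 / 2 by norm_num))] with n a b
    exact hu n a b

/-- composition of bounded sequences with a homomorphism -/
noncomputable def compB {A C : Type u} [CStarAlgebra A] [CStarAlgebra C] (i : A →⋆ₐ[ℂ] C) :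
    (ℕ →ᵇ A) →⋆ₐ[ℂ] (ℕ →ᵇ C) where
  toFun x := BoundedContinuousFunction.ofNormedAddCommGroupDiscrete (fun n => i (x n)) ‖x‖
    fun n => (NonUnitalStarAlgHom.norm_apply_le i _).trans (x.norm_coe_le_norm n)
  map_one' := by ext n; exact map_one i
  map_mul' x y := by ext n; exact map_mul i _ _
  map_zero' := by ext n; exact map_zero i
  map_add' x y := by ext n; exact map_add i _ _
  commutes' c := by
    ext n
    simp only [Algebra.algebraMap_eq_smul_one]
    exact (map_smul i c 1).trans (by rw [map_one]; rfl)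
  map_star' x := by ext n; exact map_star i _

theorem exists_ultraMap {A C : Type u} [CStarAlgebra A] [CStarAlgebra C] (ω : Ultrafilter ℕ)
    (i : A →⋆ₐ[ℂ] C) : ∃ F : UltraPower ω A →⋆ₐ[ℂ] UltraPower ω C,
      ∀ x, F (cls ω A x) = cls ω C (compB i x) := by
  let G := (cls ω C).comp (compB i)
  have hG : ∀ x ∈ nullIdeal ω A, (G : (ℕ →ᵇ A) →ₐ[ℂ] UltraPower ω C) x = 0 := fun x hx =>
    Ideal.Quotient.eq_zero_iff_mem.2 (squeeze_zero (fun _ => norm_nonneg _)
      (fun n => NonUnitalStarAlgHom.norm_apply_le i (x n)) hx)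
  exact ⟨{ Ideal.Quotient.liftₐ (nullIdeal ω A) (G : (ℕ →ᵇ A) →ₐ[ℂ] UltraPower ω C) hG with
    map_star' := by rintro ⟨x⟩; exact map_star G x }, fun x => rfl⟩

theorem absorb {A D C₀ C : Type u} [CStarAlgebra A] [CStarAlgebra D] [CStarAlgebra C₀]
    [CStarAlgebra C] [SeparableSpace A] [SeparableSpace D] [Nontrivial D] (ω : Ultrafilter ℕ)
    (φ : D →⋆ₐ[ℂ] CentralSeq ω A) {i₀ j₀ : D →⋆ₐ[ℂ] C₀} (h₀ : IsMinTensor i₀ j₀)
    (v : ℕ → unitary C₀)
    (hv : ∀ d, Tendsto (fun n => (v n : C₀) * i₀ d * star (v n : C₀)) atTop (𝓝 (j₀ d)))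
    {i : A →⋆ₐ[ℂ] C} {j : D →⋆ₐ[ℂ] C} (h : IsMinTensor i j) : Nonempty (A ≃⋆ₐ[ℂ] C) := by
  have hi := hom_cont i
  have hj := hom_cont j
  have hsep : SeparableSpace C := by
    have h1 : IsSeparable {c | ∃ a b, c = i a * j b} :=
      (isSeparable_range (f := fun p : A × D => i p.1 * j p.2) (by fun_prop)).mono
        (by rintro _ ⟨a, b, rfl⟩; exact ⟨(a, b), rfl⟩)
    have h2 := (h1.span (R := ℂ)).closure
    rw [h.dense.closure_eq] at h2
    exact isSeparable_univ_iff.1 h2
  obtain ⟨F, hF⟩ := exists_ultraMap ω i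
  have hFc : ∀ a, F (constHom ω A a) = constHom ω C (i a) := fun a => hF _
  let α : D →⋆ₐ[ℂ] UltraPower ω C := F.comp ((CentralSeq ω A).subtype.comp φ)
  let β : D →⋆ₐ[ℂ] UltraPower ω C := (constHom ω C).comp j
  have hc : ∀ x y, Commute (α x) (β y) := fun x y => by
    obtain ⟨b, hb⟩ := cls_surj (φ x : UltraPower ω A)
    change Commute (F (φ x : UltraPower ω A)) (cls ω C (BoundedContinuousFunction.const ℕ (j y)))
    rw [← hb, hF]
    refine Commute.map ?_ (cls ω C)
    ext n
    exact (h.commute (b n) y).eq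
  obtain ⟨θ, hθ⟩ := nuc h₀ v hv α β hc
  have hθc := hom_cont θ
  have hcomm : ∀ a c, Commute (constHom ω C (i a)) (θ c) := fun a c => by
    refine h₀.dense.induction (P := fun c => Commute (constHom ω C (i a)) (θ c)) (fun c hc => ?_)
      (isClosed_eq (by fun_prop) (by fun_prop)) c
    induction hc using Submodule.span_induction with
    | mem c hc =>
      obtain ⟨x, y, rfl⟩ := hc
      rw [hθ]
      refine Commute.mul_right ?_ ((h.commute a y).map (constHom ω C))
      rw [← hFc]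
      exact (mem_central.1 (φ x).2 a).map F
    | zero => rw [map_zero]; exact Commute.zero_right _
    | add x y _ _ hx hy => rw [map_add]; exact hx.add_right hy
    | smul r x _ hx => rw [map_smul]; exact hx.smul_right r
  have hWu : ∀ n, θ (v n) ∈ unitary (UltraPower ω C) := fun n => Unitary.map_mem θ (v n).2
  have hWn : ∀ n x, ‖star (θ (v n)) * x * θ (v n)‖ = ‖x‖ := fun n x => by
    simpa using norm_conj_unit (star ⟨θ (v n), hWu n⟩) x
  have key : ∀ c : C, ∀ ε > 0, ∀ᶠ n in atTop, ∃ y,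
      ‖star (θ (v n)) * constHom ω C c * θ (v n) - F y‖ ≤ ε := by
    have k0 : ∀ c ∈ Submodule.span ℂ {c | ∃ a b, c = i a * j b}, ∃ y, Tendsto
        (fun n => star (θ (v n)) * constHom ω C c * θ (v n)) atTop (𝓝 (F y)) := by
      intro c hc
      induction hc using Submodule.span_induction with
      | mem c hc =>
        obtain ⟨a, d, rfl⟩ := hc
        refine ⟨constHom ω A a * φ d, ?_⟩
        have t1 : Tendsto (fun n => star (v n : C₀) * j₀ d * v n) atTop (𝓝 (i₀ d)) := by
          rw [tendsto_iff_norm_sub_tendsto_zero]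
          refine (tendsto_iff_norm_sub_tendsto_zero.1 (hv d)).congr fun n => ?_
          rw [← norm_conj_unit (v n) (star (v n : C₀) * j₀ d * v n - i₀ d), norm_sub_rev]
          congr 1
          have hw : (v n : C₀) * star (v n : C₀) = 1 := Unitary.coe_mul_star_self _
          rw [mul_sub, sub_mul, ← mul_assoc, ← mul_assoc, hw, one_mul, mul_assoc (j₀ d), hw, mul_one]
        have t2 := ((hθc.tendsto _).comp t1).const_mul (constHom ω C (i a))
        have a1 : θ (i₀ d) = F (φ d) := by simpa using! hθ d 1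
        have a2 : θ (j₀ d) = constHom ω C (j d) := by simpa using! hθ 1 d
        rw [map_mul F, hFc, ← a1]
        refine t2.congr fun n => ?_
        simp only [Function.comp, map_mul, a2, ← mul_assoc]
        rw [(hcomm a _).eq, map_star]
      | zero => exact ⟨0, by simp⟩
      | add x y _ _ hx hy =>
        obtain ⟨x', hx⟩ := hx
        obtain ⟨y', hy⟩ := hy
        exact ⟨x' + y', by simpa only [map_add, mul_add, add_mul] using hx.add hy⟩
      | smul r x _ hx =>
        obtain ⟨x', hx⟩ := hx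
        exact ⟨r • x', by
          simpa only [map_smul, mul_smul_comm, smul_mul_assoc] using hx.const_smul r⟩
    intro c ε hε
    obtain ⟨c', hc', hd⟩ := h.dense.exists_dist_lt c (half_pos hε)
    obtain ⟨y, hy⟩ := k0 c' hc'
    filter_upwards [(tendsto_iff_norm_sub_tendsto_zero.1 hy).eventually
      (ge_mem_nhds (half_pos hε))] with n hn
    refine ⟨y, ?_⟩
    have b1 : ‖star (θ (v n)) * constHom ω C (c - c') * θ (v n)‖ ≤ ε / 2 := by
      rw [hWn]
      exact (NonUnitalStarAlgHom.norm_apply_le _ _).trans (by rw [← dist_eq_norm]; exact hd.le)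
    rw [map_sub, mul_sub, sub_mul] at b1
    linarith [norm_sub_le_norm_sub_add_norm_sub (star (θ (v n)) * constHom ω C c * θ (v n))
      (star (θ (v n)) * constHom ω C c' * θ (v n)) (F y)]
  refine elliott i h.injective_left fun s t ε hε => ?_
  obtain ⟨n, hn⟩ := ((t.eventually_all).2 fun c _ => key c _ (half_pos hε)).exists
  obtain ⟨x, hx, hxw⟩ := lift_unitary (hWu n)
  have q1 : ∀ a ∈ s, ∀ᶠ m in ω, ‖x m * i a - i a * x m‖ ≤ ε := fun a _ => by
    have := ev_norm_le (ω := ω) (x * BoundedContinuousFunction.const ℕ (i a) -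
      BoundedContinuousFunction.const ℕ (i a) * x) hε
    rw [map_sub, map_mul, map_mul, hxw] at this
    have e : θ (v n) * cls ω C (BoundedContinuousFunction.const ℕ (i a)) -
      cls ω C (BoundedContinuousFunction.const ℕ (i a)) * θ (v n) = 0 :=
        sub_eq_zero.2 (hcomm a _).eq.symm
    rw [e, norm_zero, zero_add] at this
    exact this
  have q2 : ∀ c ∈ t, ∀ᶠ m in ω, ∃ a, ‖star (x m) * c * x m - i a‖ ≤ ε := fun c hc => by
    obtain ⟨y, hy⟩ := hn c hc
    obtain ⟨b, rfl⟩ := cls_surj y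
    have := ev_norm_le (ω := ω) (star x * BoundedContinuousFunction.const ℕ c * x - compB i b)
      (half_pos hε)
    rw [map_sub, map_mul, map_mul, map_star, hxw, ← hF] at this
    filter_upwards [this] with m hm
    exact ⟨b m, hm.trans ((add_le_add hy le_rfl).trans (add_halves ε).le)⟩
  obtain ⟨m, m1, m2⟩ := (((s.eventually_all).2 q1).and ((t.eventually_all).2 q2)).exists
  exact ⟨⟨x m, hx m⟩, m1, m2⟩

end Vale.Agent.P101
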