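import Vale.Agent.P101.Tools
import Vale.Agent.P083.State

/-! Existence of the minimal tensor product. -/

namespace Vale.Agent.P101
open TopologicalSpace UniformSpace
open scoped ComplexOrder InnerProductSpace TensorProduct

universe u

theorem state_pos {B : Type u} [CStarAlgebra B] [Nontrivial B] [PartialOrder B]
    [StarOrderedRing B] (φ : B →L[ℂ] ℂ) (h : ‖φ‖ = 1) (h1 : φ 1 = 1) {a : B} (ha : 0 ≤ a) :
    0 ≤ φ a := by
  have h2 := P083.state_real φ h h1 (IsSelfAdjoint.of_nonneg ha)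
  have h3 : ‖algebraMap ℝ B ‖a‖ - a‖ ≤ ‖a‖ := by
    rw [CStarAlgebra.norm_le_iff_le_algebraMap _ (norm_nonneg a)
      (sub_nonneg.2 (IsSelfAdjoint.of_nonneg ha).le_algebraMap_norm_self)]
    exact sub_le_self _ ha
  have h4 := φ.le_opNorm (algebraMap ℝ B ‖a‖ - a)
  rw [h, one_mul, map_sub, Algebra.algebraMap_eq_smul_one, ← Complex.coe_smul, map_smul, h1,
    smul_eq_mul, mul_one, Complex.coe_smul, ← Algebra.algebraMap_eq_smul_one] at h4
  have h5 := (Complex.re_le_norm _).trans (h4.trans h3)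
  rw [Complex.sub_re, Complex.ofReal_re] at h5
  exact ⟨by simpa using h5, by simp [h2]⟩

theorem exists_norming {B : Type u} [CStarAlgebra B] [Nontrivial B] [PartialOrder B]
    [StarOrderedRing B] {a : B} (ha : 0 ≤ a) :
    ∃ φ : B →L[ℂ] ℂ, ‖φ‖ = 1 ∧ (∀ x, 0 ≤ x → 0 ≤ φ x) ∧ ‖a‖ ≤ (φ a).re := by
  have hs := IsSelfAdjoint.of_nonneg ha
  have e : 1 + ‖a‖ ≤ ‖1 + a‖ := by
    have := norm_apply_le_norm_cfc (fun t : ℝ => 1 + t) a
      (CStarAlgebra.norm_mem_spectrum_of_nonneg ha) (by fun_prop) hs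
    rw [cfc_add a _ _ (by fun_prop) (by fun_prop), cfc_id' ℝ a, cfc_const_one ℝ a] at this
    exact (le_abs_self _).trans this
  obtain ⟨φ, h, h1⟩ := exists_dual_vector ℂ (1 + a)
    (ne_of_gt (by linarith [norm_nonneg a]))
  have h2 : (φ 1).re + (φ a).re = ‖1 + a‖ := by
    rw [← Complex.add_re, ← map_add, h1]; rfl
  have h3 := φ.le_opNorm 1
  have h4 := φ.le_opNorm a
  rw [h, one_mul] at h3 h4
  rw [norm_one] at h3
  have h5 := Complex.re_le_norm (φ 1)
  have h6 := Complex.re_le_norm (φ a)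
  have h7 : φ 1 = 1 := by
    have h8 : (φ 1).re = 1 := by linarith
    have h9 := Complex.sq_norm (φ 1)
    rw [Complex.normSq_apply, h8, show ‖φ 1‖ = 1 by linarith] at h9
    exact Complex.ext h8 (by simpa using mul_self_eq_zero.1 (by linarith))
  exact ⟨φ, h, fun x hx => state_pos φ h h7 hx, by linarith⟩

theorem exists_faithful_pos (A : Type u) [CStarAlgebra A] [SeparableSpace A] [PartialOrder A]
    [StarOrderedRing A] : ∃ f : A →ₚ[ℂ] ℂ, ∀ a, (f (star a * a)).re ≤ 0 → a = 0 := by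
  rcases subsingleton_or_nontrivial A with hA | hA
  · exact ⟨PositiveLinearMap.mk₀ 0 fun _ _ => le_rfl, fun a _ => Subsingleton.elim _ _⟩
  choose φ h1 h2 h3 using fun n => exists_norming (star_mul_self_nonneg (denseSeq A n))
  let r : ℕ → ℝ := fun n => (1 / 2) ^ n
  have r0 : ∀ n, 0 < r n := fun n => by positivity
  have hs : Summable fun n => (r n : ℂ) • φ n := by
    refine Summable.of_norm (summable_geometric_two.congr fun n => ?_)
    rw [norm_smul, h1, mul_one, Complex.norm_real, Real.norm_of_nonneg (r0 n).le]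
  obtain ⟨g, hg⟩ := hs
  have hs' : ∀ x, HasSum (fun n => (r n : ℂ) * φ n x) (g x) := fun x => by
    have := (ContinuousLinearMap.apply ℂ ℂ x).hasSum hg
    simpa only [ContinuousLinearMap.apply_apply, smul_apply, smul_eq_mul] using this
  have hp : ∀ x : A, 0 ≤ x → ∀ n, 0 ≤ (r n : ℂ) * φ n x := fun x hx n =>
    mul_nonneg (Complex.zero_le_real.2 (r0 n).le) (h2 n x hx)
  refine ⟨PositiveLinearMap.mk₀ g.toLinearMap fun x hx => (hs' x).nonneg (hp x hx), fun a ha => ?_⟩
  by_contra hne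
  have h0 : 0 < ‖star a * a‖ := norm_pos_iff.2 fun h => hne (eq_zero_of_star_mul h)
  have hc : Continuous fun x : A => ‖star x * x - star a * a‖ := by fun_prop
  obtain ⟨n, hn⟩ := (denseRange_denseSeq A).exists_mem_open
    (isOpen_lt hc (continuous_const (y := ‖star a * a‖ / 2))) ⟨a, by simpa using h0⟩
  have h4 := (Complex.le_def.1
    (le_hasSum (hs' (star a * a)) n fun m _ => hp _ (star_mul_self_nonneg a) m)).1
  have h5 : ((r n : ℂ) * φ n (star a * a)).re ≤ 0 := h4.trans ha
  rw [Complex.re_ofReal_mul] at h5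
  have h6 : (φ n (star a * a)).re ≤ 0 := nonpos_of_mul_nonpos_right h5 (r0 n)
  have h7 := (Complex.re_le_norm _).trans
    ((φ n).le_opNorm (star (denseSeq A n) * denseSeq A n - star a * a))
  rw [h1, one_mul, map_sub, Complex.sub_re] at h7
  have h8 := norm_sub_norm_le (star a * a) (star (denseSeq A n) * denseSeq A n)
  rw [norm_sub_rev] at h8
  have h9 : ‖star (denseSeq A n) * denseSeq A n - star a * a‖ < ‖star a * a‖ / 2 := hn
  linarith [h3 n]

theorem exists_faithful (A : Type u) [CStarAlgebra A] [SeparableSpace A] :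
    ∃ (H : Type u) (_ : NormedAddCommGroup H) (_ : InnerProductSpace ℂ H) (_ : CompleteSpace H)
      (π : A →⋆ₐ[ℂ] (H →L[ℂ] H)), Function.Injective π := by
  let _ := CStarAlgebra.spectralOrder A
  have := CStarAlgebra.spectralOrderedRing A
  obtain ⟨f, hf⟩ := exists_faithful_pos A
  refine ⟨f.GNS, inferInstance, inferInstance, inferInstance, f.gnsStarAlgHom,
    (injective_iff_map_eq_zero _).2 fun a ha => hf a ?_⟩
  have h1 : f.gnsNonUnitalStarAlgHom a ((f.toPreGNS 1 : f.PreGNS) : f.GNS) = 0 := by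
    rw [show f.gnsNonUnitalStarAlgHom a = 0 from ha]; rfl
  rw [f.gnsNonUnitalStarAlgHom_apply_coe, ← norm_eq_zero, Completion.norm_coe,
    f.preGNS_norm_def, Real.sqrt_eq_zero'] at h1
  simpa using h1

/-- a representation on an inner product space extends to the completion -/
noncomputable def complHom {A V : Type u} [CStarAlgebra A] [NormedAddCommGroup V]
    [InnerProductSpace ℂ V] (ψ : A →ₐ[ℂ] (V →L[ℂ] V))
    (hψ : ∀ a x y, ⟪ψ (star a) x, y⟫_ℂ = ⟪x, ψ a y⟫_ℂ) :
    A →⋆ₐ[ℂ] (Completion V →L[ℂ] Completion V) where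
  toFun a := (ψ a).completion
  map_one' := by
    ext c
    induction c using Completion.induction_on with
    | hp => apply isClosed_eq <;> fun_prop
    | ih c => simp
  map_mul' _ _ := by
    ext c
    induction c using Completion.induction_on with
    | hp => apply isClosed_eq <;> fun_prop
    | ih c => simp
  map_zero' := by
    ext c
    induction c using Completion.induction_on with
    | hp => apply isClosed_eq <;> fun_prop
    | ih c => simp
  map_add' _ _ := by
    ext c
    induction c using Completion.induction_on with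
    | hp => apply isClosed_eq <;> fun_prop
    | ih c => simp [Completion.coe_add]
  commutes' r := by
    ext c
    induction c using Completion.induction_on with
    | hp => apply isClosed_eq <;> fun_prop
    | ih c => simp [Algebra.algebraMap_eq_smul_one, Completion.coe_smul]
  map_star' a := by
    refine (ContinuousLinearMap.eq_adjoint_iff (ψ (star a)).completion (ψ a).completion).mpr ?_
    intro x y
    induction x, y using Completion.induction_on₂ with
    | hp => apply isClosed_eq <;> fun_prop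
    | ih x y => simp [hψ]

theorem complHom_coe {A V : Type u} [CStarAlgebra A] [NormedAddCommGroup V]
    [InnerProductSpace ℂ V] (ψ : A →ₐ[ℂ] (V →L[ℂ] V))
    (hψ : ∀ a x y, ⟪ψ (star a) x, y⟫_ℂ = ⟪x, ψ a y⟫_ℂ) (a : A) (x : V) :
    complHom ψ hψ a (x : Completion V) = (ψ a x : V) :=
  ContinuousLinearMap.completion_apply_coe _ _

theorem inner_ext_tensor {H K : Type u} [NormedAddCommGroup H] [InnerProductSpace ℂ H]
    [NormedAddCommGroup K] [InnerProductSpace ℂ K] (S T : H ⊗[ℂ] K →L[ℂ] H ⊗[ℂ] K)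
    (h : ∀ x y x' y', ⟪S (x ⊗ₜ y), x' ⊗ₜ y'⟫_ℂ = ⟪x ⊗ₜ y, T (x' ⊗ₜ y')⟫_ℂ) (v w : H ⊗[ℂ] K) :
    ⟪S v, w⟫_ℂ = ⟪v, T w⟫_ℂ := by
  induction v using TensorProduct.induction_on with
  | zero => simp
  | add a b ha hb => rw [map_add, inner_add_left, inner_add_left, ha, hb]
  | tmul x y =>
    induction w using TensorProduct.induction_on with
    | zero => simp
    | add a b ha hb => rw [map_add, inner_add_right, inner_add_right, ha, hb]
    | tmul x' y' => exact h x y x' y'

theorem exists_pair {A B H K : Type u} [CStarAlgebra A] [CStarAlgebra B] [NormedAddCommGroup H]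
    [InnerProductSpace ℂ H] [CompleteSpace H] [NormedAddCommGroup K] [InnerProductSpace ℂ K]
    [CompleteSpace K] (π : A →⋆ₐ[ℂ] (H →L[ℂ] H)) (ρ : B →⋆ₐ[ℂ] (K →L[ℂ] K)) :
    ∃ (I : A →⋆ₐ[ℂ] (Completion (H ⊗[ℂ] K) →L[ℂ] Completion (H ⊗[ℂ] K)))
      (J : B →⋆ₐ[ℂ] (Completion (H ⊗[ℂ] K) →L[ℂ] Completion (H ⊗[ℂ] K))),
      (∀ a b, J b * I a = I a * J b) ∧ ∀ a b h k,
        (I a * J b) ((h ⊗ₜ[ℂ] k : H ⊗[ℂ] K) : Completion (H ⊗[ℂ] K)) =
          ((π a h ⊗ₜ[ℂ] ρ b k : H ⊗[ℂ] K) : Completion (H ⊗[ℂ] K)) := by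
  let ψ₁ : A →ₐ[ℂ] (H ⊗[ℂ] K →L[ℂ] H ⊗[ℂ] K) :=
    { toFun := fun a => (π a).rTensor K
      map_one' := by simp
      map_mul' := fun a b => by rw [map_mul, ContinuousLinearMap.rTensor_mul]
      map_zero' := by simp
      map_add' := by simp
      commutes' := fun r => by simp [Algebra.algebraMap_eq_smul_one] }
  let ψ₂ : B →ₐ[ℂ] (H ⊗[ℂ] K →L[ℂ] H ⊗[ℂ] K) :=
    { toFun := fun a => (ρ a).lTensor H
      map_one' := by simp
      map_mul' := fun a b => by rw [map_mul, ContinuousLinearMap.lTensor_mul]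
      map_zero' := by simp
      map_add' := by simp
      commutes' := fun r => by simp [Algebra.algebraMap_eq_smul_one] }
  have e₁ : ∀ a x y, ψ₁ a (x ⊗ₜ y) = π a x ⊗ₜ y := fun _ _ _ => rfl
  have e₂ : ∀ a x y, ψ₂ a (x ⊗ₜ y) = x ⊗ₜ ρ a y := fun _ _ _ => rfl
  have h₁ : ∀ a x y, ⟪ψ₁ (star a) x, y⟫_ℂ = ⟪x, ψ₁ a y⟫_ℂ := fun a =>
    inner_ext_tensor _ _ fun x y x' y' => by
      rw [e₁, e₁, TensorProduct.inner_tmul, TensorProduct.inner_tmul, map_star,
        ContinuousLinearMap.star_eq_adjoint, ContinuousLinearMap.adjoint_inner_left]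
  have h₂ : ∀ a x y, ⟪ψ₂ (star a) x, y⟫_ℂ = ⟪x, ψ₂ a y⟫_ℂ := fun a =>
    inner_ext_tensor _ _ fun x y x' y' => by
      rw [e₂, e₂, TensorProduct.inner_tmul, TensorProduct.inner_tmul, map_star,
        ContinuousLinearMap.star_eq_adjoint, ContinuousLinearMap.adjoint_inner_left]
  refine ⟨complHom ψ₁ h₁, complHom ψ₂ h₂, fun a b => ?_, fun a b h k => ?_⟩
  · ext c
    induction c using Completion.induction_on with
    | hp => apply isClosed_eq <;> fun_prop
    | ih c =>
      simp only [mul_apply_eq_comp, complHom_coe]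
      congr 1
      induction c using TensorProduct.induction_on with
      | zero => simp
      | add x y hx hy => simp only [map_add, hx, hy]
      | tmul x y => rfl
  · simp only [mul_apply_eq_comp, complHom_coe, e₁, e₂]

theorem exists_generated {A B E : Type u} [CStarAlgebra A] [CStarAlgebra B] [CStarAlgebra E]
    (I : A →⋆ₐ[ℂ] E) (J : B →⋆ₐ[ℂ] E) (hIJ : ∀ a b, J b * I a = I a * J b) :
    ∃ (C : Type u) (_ : CStarAlgebra C) (i : A →⋆ₐ[ℂ] C) (j : B →⋆ₐ[ℂ] C) (σ : C →⋆ₐ[ℂ] E),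
      Dense (Submodule.span ℂ {c | ∃ a b, c = i a * j b} : Set C) ∧ Function.Injective σ ∧
      ∀ a b, σ (i a * j b) = I a * J b := by
  let P : Submonoid E :=
    { carrier := {c | ∃ a b, c = I a * J b}
      one_mem' := ⟨1, 1, by simp⟩
      mul_mem' := by
        rintro _ _ ⟨a, b, rfl⟩ ⟨a', b', rfl⟩
        exact ⟨a * a', b * b', by
          rw [map_mul, map_mul, mul_assoc, ← mul_assoc (J b), hIJ]; simp only [mul_assoc]⟩ }
  have hS : ∀ x, x ∈ Algebra.adjoin ℂ (P : Set E) ↔ x ∈ Submodule.span ℂ (P : Set E) := fun x => by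
    change x ∈ Subalgebra.toSubmodule (Algebra.adjoin ℂ (P : Set E)) ↔ _
    rw [Algebra.adjoin_eq_span, Submonoid.closure_eq]
  let S : StarSubalgebra ℂ E :=
    { Algebra.adjoin ℂ (P : Set E) with
      star_mem' := fun {x} hx => (hS _).2 (by
        have hx' := (hS x).1 hx
        clear hx
        induction hx' using Submodule.span_induction with
        | mem x hx =>
          obtain ⟨a, b, rfl⟩ := hx
          exact Submodule.subset_span
            ⟨star a, star b, by rw [star_mul, ← map_star, ← map_star, hIJ]⟩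
        | zero => rw [star_zero]; exact zero_mem _
        | add x y hx hy h1 h2 => rw [star_add]; exact add_mem h1 h2
        | smul r x hx h1 => rw [star_smul]; exact Submodule.smul_mem _ _ h1) }
  have hcl : IsClosed (S.topologicalClosure : Set E) := S.isClosed_topologicalClosure
  let i : A →⋆ₐ[ℂ] S.topologicalClosure := I.codRestrict _ fun a =>
    S.le_topologicalClosure ((hS _).2 (Submodule.subset_span ⟨a, 1, by simp⟩))
  let j : B →⋆ₐ[ℂ] S.topologicalClosure := J.codRestrict _ fun a =>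
    S.le_topologicalClosure ((hS _).2 (Submodule.subset_span ⟨1, a, by simp⟩))
  refine ⟨S.topologicalClosure, StarSubalgebra.cstarAlgebra _, i, j,
    S.topologicalClosure.subtype, ?_, Subtype.val_injective, fun a b => rfl⟩
  refine Subtype.dense_iff.2 (closure_mono fun x hx => ?_)
  have h2 : x ∈ Submodule.map (S.topologicalClosure.subtype.toAlgHom.toLinearMap)
      (Submodule.span ℂ {c | ∃ a b, c = i a * j b}) := by
    rw [Submodule.map_span]
    refine Submodule.span_mono ?_ ((hS x).1 hx)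
    rintro _ ⟨a, b, rfl⟩
    exact ⟨i a * j b, ⟨a, b, rfl⟩, rfl⟩
  exact h2

theorem exists_minTensor (A B : Type u) [CStarAlgebra A] [CStarAlgebra B] [SeparableSpace A]
    [SeparableSpace B] : ∃ (C : Type u) (_ : CStarAlgebra C) (i : A →⋆ₐ[ℂ] C) (j : B →⋆ₐ[ℂ] C),
      IsMinTensor i j := by
  obtain ⟨H, _, _, _, π, hπ⟩ := exists_faithful A
  obtain ⟨K, _, _, _, ρ, hρ⟩ := exists_faithful B
  obtain ⟨I, J, hIJ, hk⟩ := exists_pair π ρ
  obtain ⟨C, _, i, j, σ, h1, h2, h3⟩ := exists_generated (A := A) (B := B)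
    (E := Completion (H ⊗[ℂ] K) →L[ℂ] Completion (H ⊗[ℂ] K)) I J hIJ
  exact ⟨C, _, i, j, h1, H, K, _, _, ‹_›, _, _, ‹_›, π, ρ, σ, hπ, hρ, h2, fun a b h k => by
    rw [h3, hk]⟩

end Vale.Agent.P101
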