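import Vale.Agent.P101.Drop
import Vale.Agent.P101.Absorb
import Vale.Agent.P101.Exist

/-! Assembly. -/

namespace Vale.Agent.P101
open Filter TopologicalSpace

universe u

theorem dimDrop_central {A : Type u} [CStarAlgebra A] [SeparableSpace A] {ω : Ultrafilter ℕ}
    (hω : (ω : Filter ℕ) ≤ cofinite) (h : NoCharacter (CentralSeq ω A)) {p q : ℕ}
    (hp : 0 < p) (hq : 0 < q) (hpq : p.Coprime q) : DropMapsTo p q (CentralSeq ω A) :=
  dimDrop_hom (rich_central (Nat.cofinite_eq_atTop ▸ hω)) h hp hq hpq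

theorem absorb_of_noChar {A : Type u} [CStarAlgebra A] [SeparableSpace A] {ω : Ultrafilter ℕ}
    (hω : (ω : Filter ℕ) ≤ cofinite) (h : NoCharacter (CentralSeq ω A))
    {Z : Type u} [CStarAlgebra Z] (hZ : IsJiangSu Z) : Absorbs A Z := by
  obtain ⟨_, _, ⟨φ⟩⟩ := hZ.sep_hom (A := A) (Nat.cofinite_eq_atTop ▸ hω)
    fun p q hp hq hpq => dimDrop_central hω h hp hq hpq
  obtain ⟨C₀, _, i₀, j₀, h₀, v, hv⟩ := hZ.halfFlip
  exact ⟨exists_minTensor A Z, fun C _ i j hij => absorb ω φ h₀ v hv hij⟩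

end Vale.Agent.P101
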