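import Vale.Agent.P101.JBasic

/-! Matrix valued functions on the square. -/

namespace Vale.Agent.P101.JS
open scoped TensorProduct Kronecker Matrix.Norms.L2Operator

/-- Matrices with four legs. -/
abbrev Mat2 (p q : ℕ) : Type :=
  Matrix ((Fin p × Fin q) × (Fin p × Fin q)) ((Fin p × Fin q) × (Fin p × Fin q)) ℂ

/-- The tensor product of the fibres at `s` and `t`. -/
noncomputable def fib2 (p q : ℕ) (s t : unitInterval) : Submodule ℂ (Mat2 p q) :=
  Submodule.span ℂ {z | ∃ f g : DimDrop p q, z = f.1 s ⊗ₖ g.1 t}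

/-- `x ↦ x ⊗ 1`. -/
noncomputable def kronL (m n : Type) [Fintype m] [DecidableEq m] [Fintype n] [DecidableEq n] :
    Matrix m m ℂ →⋆ₐ[ℂ] Matrix (m × n) (m × n) ℂ where
  toFun x := x ⊗ₖ (1 : Matrix n n ℂ)
  map_one' := Matrix.one_kronecker_one
  map_mul' x y := by simp [← Matrix.mul_kronecker_mul]
  map_zero' := Matrix.zero_kronecker _
  map_add' x y := Matrix.add_kronecker _ _ _
  commutes' c := by simp [Algebra.algebraMap_eq_smul_one, Matrix.smul_kronecker]
  map_star' x := by simp [Matrix.star_eq_conjTranspose, Matrix.conjTranspose_kronecker]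

/-- `y ↦ 1 ⊗ y`. -/
noncomputable def kronR (m n : Type) [Fintype m] [DecidableEq m] [Fintype n] [DecidableEq n] :
    Matrix n n ℂ →⋆ₐ[ℂ] Matrix (m × n) (m × n) ℂ where
  toFun y := (1 : Matrix m m ℂ) ⊗ₖ y
  map_one' := Matrix.one_kronecker_one
  map_mul' x y := by simp [← Matrix.mul_kronecker_mul]
  map_zero' := Matrix.kronecker_zero _
  map_add' x y := Matrix.kronecker_add _ _ _
  commutes' c := by simp [Algebra.algebraMap_eq_smul_one, Matrix.kronecker_smul]
  map_star' x := by simp [Matrix.star_eq_conjTranspose, Matrix.conjTranspose_kronecker]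

@[simp] lemma kronL_apply {m n : Type} [Fintype m] [DecidableEq m] [Fintype n] [DecidableEq n]
    (x : Matrix m m ℂ) : kronL m n x = x ⊗ₖ (1 : Matrix n n ℂ) := rfl

@[simp] lemma kronR_apply {m n : Type} [Fintype m] [DecidableEq m] [Fintype n] [DecidableEq n]
    (y : Matrix n n ℂ) : kronR m n y = (1 : Matrix m m ℂ) ⊗ₖ y := rfl

lemma continuous_matHom {m n : Type} [Fintype m] [DecidableEq m] [Fintype n] [DecidableEq n]
    (f : Matrix m m ℂ →⋆ₐ[ℂ] Matrix n n ℂ) : Continuous f :=
  f.toAlgHom.toLinearMap.continuous_of_finiteDimensional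

/-- The first factor, as functions on the square. -/
noncomputable def sq1 (p q : ℕ) :
    DimDrop p q →⋆ₐ[ℂ] C(unitInterval × unitInterval, Mat2 p q) where
  toFun f := ⟨fun z => kronL _ _ (f.1 z.1),
    (continuous_matHom (kronL _ _)).comp (f.1.continuous.comp continuous_fst)⟩
  map_one' := ContinuousMap.ext fun _ => map_one (kronL _ _)
  map_mul' _ _ := ContinuousMap.ext fun _ => map_mul (kronL _ _) _ _
  map_zero' := ContinuousMap.ext fun _ => map_zero (kronL _ _)
  map_add' _ _ := ContinuousMap.ext fun _ => map_add (kronL _ _) _ _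
  commutes' c := ContinuousMap.ext fun _ => by
    simp [Algebra.algebraMap_eq_smul_one]
  map_star' _ := ContinuousMap.ext fun _ => map_star (kronL _ _) _

/-- The second factor, as functions on the square. -/
noncomputable def sq2 (p q : ℕ) :
    DimDrop p q →⋆ₐ[ℂ] C(unitInterval × unitInterval, Mat2 p q) where
  toFun f := ⟨fun z => kronR _ _ (f.1 z.2),
    (continuous_matHom (kronR _ _)).comp (f.1.continuous.comp continuous_snd)⟩
  map_one' := ContinuousMap.ext fun _ => map_one (kronR _ _)
  map_mul' _ _ := ContinuousMap.ext fun _ => map_mul (kronR _ _) _ _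
  map_zero' := ContinuousMap.ext fun _ => map_zero (kronR _ _)
  map_add' _ _ := ContinuousMap.ext fun _ => map_add (kronR _ _) _ _
  commutes' c := ContinuousMap.ext fun _ => by
    simp [Algebra.algebraMap_eq_smul_one]
  map_star' _ := ContinuousMap.ext fun _ => map_star (kronR _ _) _

@[simp] lemma sq1_apply {p q : ℕ} (f : DimDrop p q) (z : unitInterval × unitInterval) :
    sq1 p q f z = f.1 z.1 ⊗ₖ (1 : Mat p q) := rfl

@[simp] lemma sq2_apply {p q : ℕ} (f : DimDrop p q) (z : unitInterval × unitInterval) :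
    sq2 p q f z = (1 : Mat p q) ⊗ₖ f.1 z.2 := rfl

lemma sq_commute {p q : ℕ} (f g : DimDrop p q) : Commute (sq1 p q f) (sq2 p q g) :=
  ContinuousMap.ext fun z => by simp [← Matrix.mul_kronecker_mul]

/-- The algebraic tensor product, as functions on the square. -/
noncomputable def sqHom (p q : ℕ) :
    DimDrop p q ⊗[ℂ] DimDrop p q →⋆ₐ[ℂ] C(unitInterval × unitInterval, Mat2 p q) :=
  starLift (sq1 p q) (sq2 p q) sq_commute

lemma sqHom_tmul {p q : ℕ} (f g : DimDrop p q) (z : unitInterval × unitInterval) :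
    sqHom p q (f ⊗ₜ g) z = f.1 z.1 ⊗ₖ g.1 z.2 := by
  simp [sqHom, ← Matrix.mul_kronecker_mul]

end Vale.Agent.P101.JS
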