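import Vale.Agent.P101.Ultra

/-! Reindexing: commuting copies and limits inside the central sequence algebra. -/

namespace Vale.Agent.P101
open Filter Topology TopologicalSpace
open scoped BoundedContinuousFunction

universe u v
variable {ω : Ultrafilter ℕ} {A : Type u} [CStarAlgebra A] {D : Type v} [CStarAlgebra D]

/-- approximately multiplicative, approximately central maps -/
def Apx (D : Type v) [CStarAlgebra D] (A : Type u) [CStarAlgebra A] : Prop :=
  ∀ (s : Finset D) (t : Finset A) (u : Finset ℂ) (ε : ℝ), 0 < ε → ∃ f : D → A, ∀ x ∈ s,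
    (∀ y ∈ s, ∀ z ∈ s, ‖f x + f y - f z‖ ≤ ‖x + y - z‖ + ε) ∧
    (∀ y ∈ s, ∀ z ∈ s, ‖f x * f y - f z‖ ≤ ‖x * y - z‖ + ε) ∧
    (∀ y ∈ s, ‖star (f x) - f y‖ ≤ ‖star x - y‖ + ε) ∧
    (∀ c ∈ u, ‖f x - algebraMap ℂ A c‖ ≤ ‖x - algebraMap ℂ D c‖ + ε) ∧
    ∀ a ∈ t, ‖f x * a - a * f x‖ ≤ ε

theorem apx_of_hom (φ : D →⋆ₐ[ℂ] CentralSeq ω A) : Apx D A := by
  intro s t u ε hε
  let ψ : D →⋆ₐ[ℂ] UltraPower ω A := (CentralSeq ω A).subtype.comp φ
  choose l hl using fun x => cls_surj (ψ x)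
  have key : ∀ (X : ℕ →ᵇ A) (d : D), cls ω A X = ψ d → ∀ᶠ n in ω, ‖X n‖ ≤ ‖d‖ + ε :=
    fun X d h => (ev_norm_le X hε).mono fun n hn => by
      rw [h] at hn
      linarith [NonUnitalStarAlgHom.norm_apply_le ψ d]
  have : ∀ᶠ n in ω, ∀ x ∈ s,
      (∀ y ∈ s, ∀ z ∈ s, ‖l x n + l y n - l z n‖ ≤ ‖x + y - z‖ + ε) ∧
      (∀ y ∈ s, ∀ z ∈ s, ‖l x n * l y n - l z n‖ ≤ ‖x * y - z‖ + ε) ∧
      (∀ y ∈ s, ‖star (l x n) - l y n‖ ≤ ‖star x - y‖ + ε) ∧
      (∀ c ∈ u, ‖l x n - algebraMap ℂ A c‖ ≤ ‖x - algebraMap ℂ D c‖ + ε) ∧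
      ∀ a ∈ t, ‖l x n * a - a * l x n‖ ≤ ε := by
    simp only [eventually_all_finset, eventually_and]
    refine fun x _ => ⟨fun y _ z _ => key (l x + l y - l z) _ (by simp [hl]),
      fun y _ z _ => key (l x * l y - l z) _ (by simp [hl]),
      fun y _ => key (star (l x) - l y) _ (by simp [hl, map_star]), fun c _ => ?_, fun a _ => ?_⟩
    · have := key (l x - algebraMap ℂ _ c) (x - algebraMap ℂ D c) (by
        rw [map_sub, map_sub, hl, AlgHomClass.commutes, AlgHomClass.commutes])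
      simpa [Algebra.algebraMap_eq_smul_one] using this
    · have := key (l x * .const ℕ a - .const ℕ a * l x) 0 (by
        rw [map_sub, map_mul, map_mul, hl, map_zero, sub_eq_zero]
        exact (mem_central.1 (φ x).2 a).eq.symm)
      simpa using this
  obtain ⟨n, hn⟩ := this.exists
  exact ⟨fun x => l x n, hn⟩

theorem exists_net (X : Type*) [NormedAddCommGroup X] [SeparableSpace X] :
    ∃ (s : ℕ → Finset X) (r : ℕ → X → X), (∀ n d, r n d ∈ s n) ∧
      ∀ d, Tendsto (fun n => r n d) atTop (𝓝 d) := by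
  classical
  choose j hj h using fun (n : ℕ) (d : X) => Finset.exists_min_image (Finset.range (n + 1))
    (fun j => dist (denseSeq X j) d) ⟨0, by simp⟩
  refine ⟨fun n => (Finset.range (n + 1)).image (denseSeq X), fun n d => denseSeq X (j n d),
    fun n d => Finset.mem_image_of_mem _ (hj n d), fun d => Metric.tendsto_atTop.2 fun ε hε => ?_⟩
  obtain ⟨k, hk⟩ := (denseRange_denseSeq X).exists_dist_lt d hε
  exact ⟨k, fun n hn => (h n d k (by simpa [Nat.lt_succ_iff] using hn)).trans_lt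
    (by rwa [dist_comm])⟩

theorem hom_of_apx [SeparableSpace D] (hω : (ω : Filter ℕ) ≤ atTop) (h : Apx D A)
    (x : ℕ → ℕ →ᵇ A) : ∃ φ : D →⋆ₐ[ℂ] UltraPower ω A, ∀ d k, Commute (φ d) (cls ω A (x k)) := by
  classical
  obtain ⟨s, r, hr, hs⟩ := exists_net D
  obtain ⟨u, q, hq, hu⟩ := exists_net ℂ
  choose f hf using fun n : ℕ => h (s n) ((Finset.range (n + 1)).image fun k => x k n)
    (insert 0 (u n)) (1 / ((n : ℝ) + 1)) Nat.one_div_pos_of_nat
  have bd : ∀ d, ∃ C, ∀ n, ‖f n (r n d)‖ ≤ C := fun d => by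
    obtain ⟨C, hC⟩ := (hs d).norm.bddAbove_range
    refine ⟨C + 1, fun n => ?_⟩
    have h1 := (hf n _ (hr n d)).2.2.2.1 0 (Finset.mem_insert_self _ _)
    have h2 := hC ⟨n, rfl⟩
    have h3 : 1 / ((n : ℝ) + 1) ≤ 1 := by
      rw [div_le_one (by positivity)]; linarith [Nat.cast_nonneg (α := ℝ) n]
    simp only [map_zero, sub_zero] at h1 h2
    linarith
  choose C hC using bd
  let l : D → ℕ →ᵇ A := fun d =>
    BoundedContinuousFunction.ofNormedAddCommGroupDiscrete (fun n => f n (r n d)) (C d) (hC d)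
  have key : ∀ (X Y : ℕ →ᵇ A) (g : ℕ → ℝ), Tendsto g atTop (𝓝 0) →
      (∀ᶠ n in atTop, ‖X n - Y n‖ ≤ g n + 1 / ((n : ℝ) + 1)) → cls ω A X = cls ω A Y :=
    fun X Y g hg h => cls_eq.2 ((squeeze_zero' (.of_forall fun _ => norm_nonneg _) h
      (by simpa using hg.add tendsto_one_div_add_atTop_nhds_zero_nat)).mono_left hω)
  have halg : ∀ c, cls ω A (l (algebraMap ℂ D c)) = algebraMap ℂ _ c := fun c => by
    rw [← (cls ω A).commutes c]
    have t1 : Tendsto (fun n => algebraMap ℂ D (q n c)) atTop (𝓝 (algebraMap ℂ D c)) :=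
      ((continuous_algebraMap ℂ D).tendsto c).comp (hu c)
    have t2 : Tendsto (fun n => algebraMap ℂ A (q n c)) atTop (𝓝 (algebraMap ℂ A c)) :=
      ((continuous_algebraMap ℂ A).tendsto c).comp (hu c)
    refine key _ _ (fun n => ‖r n (algebraMap ℂ D c) - algebraMap ℂ D (q n c)‖ +
      ‖algebraMap ℂ A (q n c) - algebraMap ℂ A c‖) (by
        simpa using ((hs (algebraMap ℂ D c)).sub t1).norm.add
          (t2.sub_const (algebraMap ℂ A c)).norm) (.of_forall fun n => ?_)
    have h1 := (hf n _ (hr n (algebraMap ℂ D c))).2.2.2.1 _ (Finset.mem_insert_of_mem (hq n c))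
    have h2 := norm_sub_le_norm_sub_add_norm_sub (f n (r n (algebraMap ℂ D c)))
      (algebraMap ℂ A (q n c)) (algebraMap ℂ A c)
    have h3 : (algebraMap ℂ (ℕ →ᵇ A) c) n = algebraMap ℂ A c := by
      simp [Algebra.algebraMap_eq_smul_one]
    rw [h3]
    change ‖f n (r n (algebraMap ℂ D c)) - _‖ ≤ _
    linarith
  refine ⟨{ toFun := fun d => cls ω A (l d)
            map_one' := by simpa using halg 1
            map_mul' := fun a b => ?_
            map_zero' := by simpa using halg 0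
            map_add' := fun a b => ?_
            commutes' := halg
            map_star' := fun a => ?_ }, fun d k => ?_⟩
  · rw [← map_mul]
    exact (key _ _ (fun n => ‖r n a * r n b - r n (a * b)‖) (by
      simpa using (((hs a).mul (hs b)).sub (hs (a * b))).norm) (.of_forall fun n =>
      (hf n _ (hr n a)).2.1 _ (hr n b) _ (hr n _))).symm
  · rw [← map_add]
    exact (key _ _ (fun n => ‖r n a + r n b - r n (a + b)‖) (by
      simpa using (((hs a).add (hs b)).sub (hs (a + b))).norm) (.of_forall fun n =>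
      (hf n _ (hr n a)).1 _ (hr n b) _ (hr n _))).symm
  · rw [← map_star]
    exact (key _ _ (fun n => ‖star (r n a) - r n (star a)‖) (by
      simpa using ((hs a).star.sub (hs (star a))).norm) (.of_forall fun n =>
      (hf n _ (hr n a)).2.2.1 _ (hr n _))).symm
  · change cls ω A (l d) * cls ω A (x k) = cls ω A (x k) * cls ω A (l d)
    rw [← map_mul, ← map_mul]
    refine key _ _ (fun _ => 0) tendsto_const_nhds ?_
    filter_upwards [eventually_ge_atTop k] with n hn
    rw [zero_add]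
    exact (hf n _ (hr n d)).2.2.2.2 _ (Finset.mem_image_of_mem _
      (by simpa [Nat.lt_succ_iff] using hn))

theorem hom_of_apx' [SeparableSpace A] [SeparableSpace D] (hω : (ω : Filter ℕ) ≤ atTop)
    (h : Apx D A) {S : Set (UltraPower ω A)} (hS : IsSeparable S) :
    ∃ φ : D →⋆ₐ[ℂ] CentralSeq ω A, ∀ d, ∀ y ∈ S, Commute (φ d : UltraPower ω A) y := by
  obtain ⟨c, hc, hSc⟩ := hS.union (isSeparable_range (hom_cont (constHom ω A)))
  obtain ⟨e, he⟩ := (hc.insert 0).exists_eq_range (Set.insert_nonempty _ _)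
  choose x hx using fun k => cls_surj (e k)
  obtain ⟨φ, hφ⟩ := hom_of_apx hω h x
  have key : ∀ d, ∀ y ∈ closure c, Commute (φ d) y := fun d y hy =>
    closure_minimal (t := {y | φ d * y = y * φ d}) (fun z hz => by
      obtain ⟨k, rfl⟩ : z ∈ Set.range e := he ▸ Set.mem_insert_of_mem _ hz
      rw [← hx]; exact hφ d k) (isClosed_eq (by fun_prop) (by fun_prop)) hy
  exact ⟨φ.codRestrict _ fun d => mem_central.2 fun a => (key d _ (hSc (Or.inr ⟨a, rfl⟩))).symm,
    fun d y hy => key d y (hSc (Or.inl hy))⟩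

theorem sites [SeparableSpace A] [SeparableSpace D] (hω : (ω : Filter ℕ) ≤ atTop)
    (φ : D →⋆ₐ[ℂ] CentralSeq ω A) (J : Type) [Fintype J] :
    Nonempty (Sites D (CentralSeq ω A) J) := by
  classical
  have : ∀ s : Finset J, ∃ π : J → D →⋆ₐ[ℂ] CentralSeq ω A, ∀ i ∈ s, ∀ j ∈ s, i ≠ j →
      ∀ x y, Commute (π i x) (π j y) := by
    intro s
    induction s using Finset.induction_on with
    | empty => exact ⟨fun _ => φ, by simp⟩
    | insert k s hk ih =>
      obtain ⟨π, hπ⟩ := ih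
      obtain ⟨ψ, hψ⟩ := hom_of_apx' hω (apx_of_hom φ) (IsSeparable.iUnion fun j =>
        isSeparable_range (hom_cont ((CentralSeq ω A).subtype.comp (π j))))
      have h1 : ∀ j x y, Commute (ψ x) (π j y) := fun j x y =>
        Subtype.ext (hψ x _ (Set.mem_iUnion.2 ⟨j, y, rfl⟩)).eq
      refine ⟨Function.update π k ψ, fun i hi j hj hij x y => ?_⟩
      by_cases h2 : i = k
      · subst h2
        rw [Function.update_self, Function.update_of_ne hij.symm]; exact h1 _ _ _
      · by_cases h3 : j = k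
        · subst h3
          rw [Function.update_self, Function.update_of_ne hij]; exact (h1 _ _ _).symm
        · rw [Function.update_of_ne h2, Function.update_of_ne h3]
          exact hπ i (by simpa [h2] using hi) j (by simpa [h3] using hj) hij x y
  obtain ⟨π, hπ⟩ := this Finset.univ
  exact ⟨⟨π, fun i j => hπ i (by simp) j (by simp)⟩⟩

/-- a countable family lies in a separable C*-subalgebra -/
theorem exists_sep {B : Type u} [CStarAlgebra B] {κ : Type} [Countable κ] (x : κ → B) :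
    ∃ (D : Type u) (_ : CStarAlgebra D) (_ : SeparableSpace D) (φ : D →⋆ₐ[ℂ] B) (y : κ → D),
      Function.Injective φ ∧ ∀ k, φ (y k) = x k := by
  let S := (StarAlgebra.adjoin ℂ (Set.range x)).topologicalClosure
  have hc : IsClosed (S : Set B) := StarSubalgebra.isClosed_topologicalClosure _
  have h1 : (Submonoid.closure (Set.range x ∪ star (Set.range x)) : Set B).Countable := by
    let z : κ ⊕ κ → B := Sum.elim x fun k => star (x k)
    refine (Set.countable_range fun l : List (κ ⊕ κ) => (l.map z).prod).mono fun b hb => ?_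
    induction hb using Submonoid.closure_induction with
    | mem b hb =>
      rcases hb with ⟨k, rfl⟩ | ⟨k, hk⟩
      · exact ⟨[.inl k], by simp [z]⟩
      · exact ⟨[.inr k], by simp [z, hk]⟩
    | one => exact ⟨[], by simp⟩
    | mul a b _ _ ha hb =>
      obtain ⟨l, rfl⟩ := ha
      obtain ⟨m, rfl⟩ := hb
      exact ⟨l ++ m, by simp⟩
  have h2 : IsSeparable (S : Set B) := by
    refine IsSeparable.closure (s := (StarAlgebra.adjoin ℂ (Set.range x) : Set B)) ?_
    refine (h1.isSeparable.span (R := ℂ)).mono fun b hb => ?_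
    rw [← Algebra.adjoin_eq_span]
    exact hb
  exact ⟨S, StarSubalgebra.cstarAlgebra S, h2.separableSpace, S.subtype, fun k =>
    ⟨x k, subset_closure (StarAlgebra.subset_adjoin ℂ _ ⟨k, rfl⟩)⟩, Subtype.val_injective,
    fun _ => rfl⟩

theorem apx_limit {I : ℕ → Type} [∀ n, CStarAlgebra (I n)] (ι : ∀ n, I n →⋆ₐ[ℂ] D)
    (hι : ∀ n, Function.Injective (ι n)) (hm : ∀ n, Set.range (ι n) ⊆ Set.range (ι (n + 1)))
    (hd : Dense (⋃ n, Set.range (ι n))) (h : ∀ n, Apx (I n) A) : Apx D A := by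
  classical
  intro s t u ε hε
  have hm' : Monotone fun n => Set.range (ι n) := monotone_nat_of_le_succ hm
  obtain ⟨M, hM⟩ := (s.image fun x => ‖x‖).bddAbove
  have hM' : ∀ x ∈ s, ‖x‖ ≤ |M| := fun x hx =>
    (hM (Finset.mem_coe.2 (Finset.mem_image_of_mem _ hx))).trans (le_abs_self _)
  let η := min 1 (ε / 2 / (2 * |M| + 3))
  have hη : 0 < η := by positivity
  have hη1 : η ≤ 1 := min_le_left _ _
  have hη2 : η * (2 * |M| + 3) ≤ ε / 2 := (le_div_iff₀ (by positivity)).1 (min_le_right _ _)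
  have : ∀ᶠ n in atTop, ∀ x ∈ s, ∃ y, ‖ι n y - x‖ ≤ η := by
    refine (eventually_all_finset s).2 fun x _ => ?_
    obtain ⟨y, hy, h1⟩ := hd.exists_dist_lt x hη
    obtain ⟨k, hk⟩ := Set.mem_iUnion.1 hy
    filter_upwards [eventually_ge_atTop k] with n hn
    obtain ⟨z, rfl⟩ := hm' hn hk
    exact ⟨z, by rw [← dist_eq_norm, dist_comm]; exact h1.le⟩
  obtain ⟨n, hn⟩ := this.exists
  choose! g hg using hn
  obtain ⟨f, hf⟩ := h n (s.image g) t u (ε / 2) (half_pos hε)
  have hn : ∀ y, ‖y‖ = ‖ι n y‖ := fun y => (NonUnitalStarAlgHom.norm_map (ι n) (hι n) y).symm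
  have mem : ∀ x ∈ s, g x ∈ s.image g := fun x hx => Finset.mem_image_of_mem _ hx
  have h0 := abs_nonneg M
  refine ⟨fun x => f (g x), fun x hx => ?_⟩
  obtain ⟨h1, h2, h3, h4, h5⟩ := hf _ (mem x hx)
  have gx := hg x hx
  refine ⟨fun y hy z hz => (h1 _ (mem y hy) _ (mem z hz)).trans ?_,
    fun y hy z hz => (h2 _ (mem y hy) _ (mem z hz)).trans ?_,
    fun y hy => (h3 _ (mem y hy)).trans ?_, fun c hc => (h4 c hc).trans ?_,
    fun a ha => (h5 a ha).trans (half_le_self hε.le)⟩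
  · rw [hn, map_sub, map_add, show ι n (g x) + ι n (g y) - ι n (g z) = (x + y - z) +
      ((ι n (g x) - x) + (ι n (g y) - y) - (ι n (g z) - z)) by abel]
    have := norm_add_le_of_le (le_refl ‖x + y - z‖)
      (norm_sub_le_of_le (norm_add_le_of_le gx (hg y hy)) (hg z hz))
    nlinarith
  · rw [hn, map_sub, map_mul, show ι n (g x) * ι n (g y) - ι n (g z) = (x * y - z) +
      ((ι n (g x) - x) * (ι n (g y) - y) + (ι n (g x) - x) * y + x * (ι n (g y) - y) -
        (ι n (g z) - z)) by noncomm_ring]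
    have := norm_add_le_of_le (le_refl ‖x * y - z‖) (norm_sub_le_of_le (norm_add_le_of_le
      (norm_add_le_of_le (norm_mul_le_of_le gx ((hg y hy).trans hη1))
      (norm_mul_le_of_le gx (hM' y hy))) (norm_mul_le_of_le (hM' x hx) (hg y hy))) (hg z hz))
    nlinarith
  · rw [hn, map_sub, map_star, show star (ι n (g x)) - ι n (g y) = (star x - y) +
      (star (ι n (g x) - x) - (ι n (g y) - y)) by rw [star_sub]; abel]
    have := norm_add_le_of_le (le_refl ‖star x - y‖)
      (norm_sub_le_of_le ((norm_star _).trans_le gx) (hg y hy))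
    nlinarith
  · rw [hn, map_sub, AlgHomClass.commutes, show ι n (g x) - algebraMap ℂ D c =
      (x - algebraMap ℂ D c) + (ι n (g x) - x) by abel]
    have := norm_add_le_of_le (le_refl ‖x - algebraMap ℂ D c‖) gx
    nlinarith

open scoped Matrix.Norms.L2Operator in
theorem dimDrop_closed (p q : ℕ) : IsClosed (DimDrop p q :
    Set C(unitInterval, Matrix (Fin p × Fin q) (Fin p × Fin q) ℂ)) := by
  let L₀ : Matrix (Fin p) (Fin p) ℂ →ₗ[ℂ] Matrix (Fin p × Fin q) (Fin p × Fin q) ℂ :=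
    (Matrix.kroneckerBilinear (R := ℂ) (α := ℂ)).flip (1 : Matrix (Fin q) (Fin q) ℂ)
  let L₁ : Matrix (Fin q) (Fin q) ℂ →ₗ[ℂ] Matrix (Fin p × Fin q) (Fin p × Fin q) ℂ :=
    Matrix.kroneckerBilinear (R := ℂ) (α := ℂ) (1 : Matrix (Fin p) (Fin p) ℂ)
  have h0 := (LinearMap.range L₀).closed_of_finiteDimensional.preimage
    (continuous_eval_const (F := C(unitInterval, _)) (0 : unitInterval))
  have h1 := (LinearMap.range L₁).closed_of_finiteDimensional.preimage
    (continuous_eval_const (F := C(unitInterval, _)) (1 : unitInterval))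
  convert h0.inter h1 using 1
  ext f
  exact ⟨fun ⟨⟨x, hx⟩, y, hy⟩ => ⟨⟨x, hx.symm⟩, y, hy.symm⟩,
    fun ⟨⟨x, hx⟩, y, hy⟩ => ⟨⟨x, hx.symm⟩, y, hy.symm⟩⟩

open scoped Matrix.Norms.L2Operator in
theorem IsJiangSu.sep_hom [SeparableSpace A] (hω : (ω : Filter ℕ) ≤ atTop) (hD : IsJiangSu D)
    (h : ∀ p q, 0 < p → 0 < q → p.Coprime q → Nonempty (DimDrop p q →⋆ₐ[ℂ] CentralSeq ω A)) :
    SeparableSpace D ∧ Nontrivial D ∧ Nonempty (D →⋆ₐ[ℂ] CentralSeq ω A) := by
  obtain ⟨p, q, ι, h1, h2⟩ := hD.limit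
  have := fun n => dimDrop_closed (p n) (q n)
  let : ∀ n, CStarAlgebra (DimDrop (p n) (q n)) := fun n => StarSubalgebra.cstarAlgebra _
  have hs : SeparableSpace D :=
    h2.isSeparable_iff.1 (IsSeparable.iUnion fun n => isSeparable_range (hom_cont (ι n)))
  refine ⟨hs, ⟨ι 0 1, ι 0 0, fun e => ?_⟩, ?_⟩
  · have := congrArg (fun f : DimDrop (p 0) (q 0) => f.1 0 (⟨0, (h1 0).1⟩, ⟨0, (h1 0).2.1⟩)
      (⟨0, (h1 0).1⟩, ⟨0, (h1 0).2.1⟩)) ((h1 0).2.2.2.1 e)
    simp at this
  obtain ⟨φ, -⟩ := hom_of_apx' hω (apx_limit ι (fun n => (h1 n).2.2.2.1) (fun n => (h1 n).2.2.2.2) h2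
    fun n => apx_of_hom (h _ _ (h1 n).1 (h1 n).2.1 (h1 n).2.2.1).some) Set.finite_empty.isSeparable
  exact ⟨φ⟩

end Vale.Agent.P101
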