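import Mathlib

/-! Statement definitions for P101: central sequence algebras, spatial tensor products,
dimension drop algebras and the Jiang-Su algebra. -/

namespace Vale.Agent.P101
open Filter Topology
open scoped BoundedContinuousFunction Kronecker TensorProduct

universe u

/-- a self-adjoint ideal -/
class IsStarIdeal {B : Type u} [Ring B] [StarRing B] (I : Ideal B) : Prop where
  star_mem : ∀ x ∈ I, star x ∈ I

theorem star_rel {B : Type u} [Ring B] [StarRing B] (I : Ideal B) [IsStarIdeal I] (x y : B)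
    (h : I.quotientRel x y) : I.quotientRel (star x) (star y) := by
  rw [Submodule.quotientRel_def] at h ⊢
  rw [← star_sub]
  exact IsStarIdeal.star_mem _ h

/-- the involution induced on the quotient by a self-adjoint two-sided ideal -/
instance quotStarRing {B : Type u} [Ring B] [StarRing B] (I : Ideal B) [I.IsTwoSided]
    [IsStarIdeal I] : StarRing (B ⧸ I) where
  star := Quotient.map' star (star_rel I)
  star_involutive := by rintro ⟨x⟩; exact congrArg (Ideal.Quotient.mk I) (star_star x)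
  star_mul := by rintro ⟨x⟩ ⟨y⟩; exact congrArg (Ideal.Quotient.mk I) (star_mul x y)
  star_add := by rintro ⟨x⟩ ⟨y⟩; exact congrArg (Ideal.Quotient.mk I) (star_add x y)

instance quotStarModule {B : Type u} [Ring B] [StarRing B] [Algebra ℂ B] [StarModule ℂ B]
    (I : Ideal B) [I.IsTwoSided] [IsStarIdeal I] : StarModule ℂ (B ⧸ I) where
  star_smul := by rintro c ⟨x⟩; exact congrArg (Ideal.Quotient.mk I) (star_smul c x)

variable (ω : Ultrafilter ℕ) (A : Type u) [CStarAlgebra A]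

/-- bounded sequences whose norms tend to zero along `ω` -/
def nullIdeal : Ideal (ℕ →ᵇ A) where
  carrier := {x | Tendsto (fun n => ‖x n‖) ω (𝓝 0)}
  add_mem' := fun {x y} hx hy => squeeze_zero (fun _ => norm_nonneg _)
    (fun n => norm_add_le (x n) (y n)) (by simpa using Tendsto.add hx hy)
  zero_mem' := (tendsto_const_nhds (x := (0 : ℝ))).congr fun _ => norm_zero.symm
  smul_mem' := fun c x hx => squeeze_zero (fun _ => norm_nonneg _)
    (fun n => norm_mul_le_of_le (c.norm_coe_le_norm n) (le_refl ‖x n‖))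
    (by simpa using Tendsto.const_mul ‖c‖ hx)

instance nullIdeal_twoSided : (nullIdeal ω A).IsTwoSided :=
  ⟨fun {x} c hx => squeeze_zero (fun _ => norm_nonneg _)
    (fun n => norm_mul_le_of_le (le_refl ‖x n‖) (c.norm_coe_le_norm n))
    (by simpa using Tendsto.mul_const ‖c‖ hx)⟩

instance nullIdeal_star : IsStarIdeal (nullIdeal ω A) :=
  ⟨fun x hx => Tendsto.congr (fun n => (norm_star (x n)).symm) hx⟩

/-- the norm ultrapower `A_ω` -/
abbrev UltraPower : Type u := (ℕ →ᵇ A) ⧸ nullIdeal ω A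

/-- the class of a constant sequence -/
noncomputable def constSeq (a : A) : UltraPower ω A :=
  Ideal.Quotient.mk (nullIdeal ω A) (BoundedContinuousFunction.const ℕ a)

/-- the central sequence algebra `F_ω(A) = A_ω ∩ A'` -/
noncomputable def CentralSeq : StarSubalgebra ℂ (UltraPower ω A) :=
  StarSubalgebra.centralizer ℂ (Set.range (constSeq ω A))

/-- the dimension drop algebra `I(p, q)` -/
def DimDrop (p q : ℕ) :
    StarSubalgebra ℂ C(unitInterval, Matrix (Fin p × Fin q) (Fin p × Fin q) ℂ) where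
  carrier := {f | (∃ x : Matrix (Fin p) (Fin p) ℂ, f 0 = x ⊗ₖ (1 : Matrix (Fin q) (Fin q) ℂ)) ∧
    ∃ y : Matrix (Fin q) (Fin q) ℂ, f 1 = (1 : Matrix (Fin p) (Fin p) ℂ) ⊗ₖ y}
  mul_mem' := by
    rintro f g ⟨⟨x, hx⟩, y, hy⟩ ⟨⟨x', hx'⟩, y', hy'⟩
    exact ⟨⟨x * x', by simp [hx, hx', ← Matrix.mul_kronecker_mul]⟩,
      y * y', by simp [hy, hy', ← Matrix.mul_kronecker_mul]⟩
  add_mem' := by
    rintro f g ⟨⟨x, hx⟩, y, hy⟩ ⟨⟨x', hx'⟩, y', hy'⟩
    exact ⟨⟨x + x', by simp [hx, hx', Matrix.add_kronecker]⟩,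
      y + y', by simp [hy, hy', Matrix.kronecker_add]⟩
  algebraMap_mem' := fun c =>
    ⟨⟨c • 1, by simp [Matrix.smul_kronecker, Algebra.algebraMap_eq_smul_one]⟩,
      c • 1, by simp [Matrix.kronecker_smul, Algebra.algebraMap_eq_smul_one]⟩
  star_mem' := by
    rintro f ⟨⟨x, hx⟩, y, hy⟩
    exact ⟨⟨star x, by simp [hx, Matrix.star_eq_conjTranspose, Matrix.conjTranspose_kronecker]⟩,
      star y, by simp [hy, Matrix.star_eq_conjTranspose, Matrix.conjTranspose_kronecker]⟩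

/-- There are faithful representations `π` of `A` on `H`, `ρ` of `B` on `K` and `σ` of `C` on the
Hilbert space tensor product such that `i a * j b` acts as `π a ⊗ ρ b`. -/
def IsSpatial {A B C : Type u} [CStarAlgebra A] [CStarAlgebra B] [CStarAlgebra C] (H K : Type u)
    [NormedAddCommGroup H] [InnerProductSpace ℂ H] [CompleteSpace H] [NormedAddCommGroup K]
    [InnerProductSpace ℂ K] [CompleteSpace K] (i : A →⋆ₐ[ℂ] C) (j : B →⋆ₐ[ℂ] C) : Prop :=
  ∃ (π : A →⋆ₐ[ℂ] (H →L[ℂ] H)) (ρ : B →⋆ₐ[ℂ] (K →L[ℂ] K))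
    (σ : C →⋆ₐ[ℂ] (UniformSpace.Completion (H ⊗[ℂ] K) →L[ℂ] UniformSpace.Completion (H ⊗[ℂ] K))),
    Function.Injective π ∧ Function.Injective ρ ∧ Function.Injective σ ∧
    ∀ a b h k, σ (i a * j b) ((h ⊗ₜ[ℂ] k : H ⊗[ℂ] K) : UniformSpace.Completion (H ⊗[ℂ] K)) =
      ((π a h ⊗ₜ[ℂ] ρ b k : H ⊗[ℂ] K) : UniformSpace.Completion (H ⊗[ℂ] K))

/-- `C` is the minimal (spatial) tensor product of `A` and `B`, with `a ⊗ b = i a * j b`. -/
structure IsMinTensor {A B C : Type u} [CStarAlgebra A] [CStarAlgebra B] [CStarAlgebra C]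
    (i : A →⋆ₐ[ℂ] C) (j : B →⋆ₐ[ℂ] C) : Prop where
  dense : Dense (Submodule.span ℂ {c | ∃ a b, c = i a * j b} : Set C)
  spatial : ∃ (H K : Type u) (_ : NormedAddCommGroup H) (_ : InnerProductSpace ℂ H)
    (_ : CompleteSpace H) (_ : NormedAddCommGroup K) (_ : InnerProductSpace ℂ K)
    (_ : CompleteSpace K), IsSpatial H K i j

/-- The algebra `S` has no character: every star homomorphism to `ℂ` is zero. -/
def NoCharacter {B : Type u} [Ring B] [StarRing B] [Algebra ℂ B] [StarModule ℂ B]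
    (S : StarSubalgebra ℂ B) : Prop :=
  ∀ χ : S →⋆ₙₐ[ℂ] ℂ, χ = 0

/-- There is a unital star homomorphism from `I(p, q)` to `S`. -/
def DropMapsTo (p q : ℕ) {B : Type u} [Ring B] [StarRing B] [Algebra ℂ B] [StarModule ℂ B]
    (S : StarSubalgebra ℂ B) : Prop :=
  Nonempty (DimDrop p q →⋆ₐ[ℂ] S)

/-- `A` absorbs `Z`: a minimal tensor product of `A` and `Z` exists and each one is isomorphic
to `A`. -/
def Absorbs (A Z : Type u) [CStarAlgebra A] [CStarAlgebra Z] : Prop :=
  (∃ (C : Type u) (_ : CStarAlgebra C) (i : A →⋆ₐ[ℂ] C) (j : Z →⋆ₐ[ℂ] C), IsMinTensor i j) ∧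
  ∀ (C : Type u) [CStarAlgebra C] (i : A →⋆ₐ[ℂ] C) (j : Z →⋆ₐ[ℂ] C), IsMinTensor i j →
    Nonempty (A ≃⋆ₐ[ℂ] C)

/-- `D` is an inductive limit of prime dimension drop algebras along injective unital maps and has
an approximately inner half-flip. -/
structure IsJiangSu (D : Type u) [CStarAlgebra D] : Prop where
  limit : ∃ (p q : ℕ → ℕ) (ι : ∀ n, DimDrop (p n) (q n) →⋆ₐ[ℂ] D),
    (∀ n, 0 < p n ∧ 0 < q n ∧ (p n).Coprime (q n) ∧ Function.Injective (ι n) ∧
      Set.range (ι n) ⊆ Set.range (ι (n + 1))) ∧ Dense (⋃ n, Set.range (ι n))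
  halfFlip : ∃ (C : Type u) (_ : CStarAlgebra C) (i j : D →⋆ₐ[ℂ] C), IsMinTensor i j ∧
    ∃ v : ℕ → unitary C, ∀ d, Tendsto (fun n => (v n : C) * i d * star (v n : C)) atTop (𝓝 (j d))

end Vale.Agent.P101
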