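import Vale.Agent.P101.Glue

/-! From the Rordam-Winter relations to a unital map out of a dimension drop algebra. -/

namespace Vale.Agent.P101
open Filter Topology TopologicalSpace Finset
open scoped Kronecker

universe u
variable {B : Type u} [CStarAlgebra B] {ν : Type} [Fintype ν] [DecidableEq ν]

/-- the linear map with given values on matrix units -/
noncomputable def lin (W : ν → ν → B) : Matrix ν ν ℂ →ₗ[ℂ] B where
  toFun z := ∑ i, ∑ j, z i j • W i j
  map_add' z w := by simp [add_smul, sum_add_distrib]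
  map_smul' c z := by simp [smul_sum, smul_smul]

omit [DecidableEq ν] in
theorem lin_apply (W : ν → ν → B) (z : Matrix ν ν ℂ) : lin W z = ∑ i, ∑ j, z i j • W i j := rfl

theorem lin_one (W : ν → ν → B) : lin W 1 = ∑ i, W i i := by simp [lin_apply, Matrix.one_apply]

omit [DecidableEq ν] in
theorem lin_comm {W : ν → ν → B} {b : B} (h : ∀ i j, Commute b (W i j)) (z : Matrix ν ν ℂ) :
    Commute b (lin W z) :=
  .sum_right _ _ _ fun _ _ => .sum_right _ _ _ fun _ _ => (h _ _).smul_right _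

theorem lin_star {W : ν → ν → B} (h : OZ W) (z : Matrix ν ν ℂ) : lin W (star z) = star (lin W z) := by
  simp only [lin_apply, star_sum, star_smul, h.adj, Matrix.star_apply]
  exact sum_comm

theorem lin_mul {W : ν → ν → B} (h : OZ W) (z w : Matrix ν ν ℂ) :
    lin W z * lin W w = (∑ a, W a a) * lin W (z * w) := by
  have hm := h.mul
  generalize ∑ a, W a a = H at hm ⊢
  have e : ∀ i j, W i j * lin W w = ∑ l, w j l • (H * W i l) := fun i j => by
    simp [lin_apply, mul_sum, hm]
  rw [lin_apply W z, lin_apply W (z * w)]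
  simp only [sum_mul, smul_mul_assoc, e, mul_sum, Matrix.mul_apply, sum_smul, smul_sum, smul_smul,
    mul_smul_comm]
  exact sum_congr rfl fun i _ => sum_comm

/-- the flip on the lower block -/
def flp : Option ν × ν ≃ Option ν × ν :=
  Function.Involutive.toPerm (fun x => x.1.elim x fun a => (some x.2, a))
    (by rintro ⟨_ | a, c⟩ <;> rfl)

omit [Fintype ν] [DecidableEq ν] in
theorem flp_none (c : ν) : flp (none, c) = (none, c) := rfl

omit [Fintype ν] [DecidableEq ν] in
theorem flp_some (a c : ν) : flp (some a, c) = (some c, a) := rfl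

omit [Fintype ν] [DecidableEq ν] in
theorem flp_flp (x : Option ν × ν) : flp (flp x) = x := by rcases x with ⟨_ | a, c⟩ <;> rfl

theorem rw_glue [PartialOrder B] [StarOrderedRing B] {E : ν → ν → B} {v q : B} {o : ν} (hE : OZ E)
    (H0 : 0 ≤ ∑ a, E a a) (hv : star v * v = 1 - ∑ a, E a a) (Ev : E o o * v = v)
    (qs : IsSelfAdjoint q) (qq : q * q = 1 - ∑ a, E a a) (qE : ∀ a b, Commute q (E a b))
    {R : Type} [Ring R] [StarRing R] [Algebra ℂ R]
    (Θ : R →⋆ₐ[ℂ] C(unitInterval, Matrix (Option ν × ν) (Option ν × ν) ℂ))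
    (h0 : ∀ f, ∃ x : Matrix (Option ν) (Option ν) ℂ, Θ f 0 = x ⊗ₖ (1 : Matrix ν ν ℂ))
    (h1 : ∀ f, ∃ y : Matrix ν ν ℂ,
      Θ f 1 = ((1 : Matrix (Option ν) (Option ν) ℂ) ⊗ₖ y).submatrix flp flp)
    (k0 : ∀ f (t : unitInterval), (t : ℝ) ≤ 1 / 3 → Θ f t = Θ f 0)
    (k1 : ∀ f (t : unitInterval), 2 / 3 ≤ (t : ℝ) → Θ f t = Θ f 1) : Nonempty (R →⋆ₐ[ℂ] B) := by
  set H := ∑ a, E a a with hH
  have Hv : H * v = v := hE.fix Ev
  have EE : ∀ a b c d, E a b * E c d = if b = c then H * E a d else 0 := hE.mul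
  have HE : ∀ a b, H * E a b = E a b * H := fun a b => hE.comm a b
  have qv : q * v = 0 := eq_zero_of_star_mul (by
    rw [star_mul, qs.star_eq, mul_assoc, ← mul_assoc q, qq, sub_mul, Hv]; simp)
  let V : Option ν → B := fun I => I.elim q fun a => E a o * v
  have EV : ∀ a b c, E a b * V (some c) = if b = c then V (some a) else 0 := fun a b c => by
    simp only [V, Option.elim, ← mul_assoc, EE]
    split_ifs
    · rw [HE, mul_assoc, Hv]
    · simp
  have qV : ∀ a, q * V (some a) = 0 := fun a => by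
    simp only [V, Option.elim]; rw [← mul_assoc, (qE _ _).eq, mul_assoc, qv, mul_zero]
  have VV : ∀ I J, star (V I) * V J = if I = J then 1 - H else 0 := by
    rintro (_ | a) (_ | b)
    · simpa [V, qs.star_eq] using qq
    · simpa [V, qs.star_eq] using qV b
    · simpa [V, qs.star_eq] using congrArg star (qV a)
    · rw [show V (some a) = E a o * v from rfl, star_mul, hE.adj, mul_assoc, EV]
      split_ifs with h1 h2 h2
      · rw [show V (some o) = E o o * v from rfl, Ev, hv]
      · exact (h2 (congrArg _ h1)).elim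
      · exact (h1 (Option.some.inj h2)).elim
      · simp
  have VV' : ∀ I J x, star (V I) * (V J * x) = if I = J then (1 - H) * x else 0 := fun I J x => by
    rw [← mul_assoc, VV]; split_ifs <;> simp
  set s := 1 - ∑ I, V I * star (V I) with hs
  have sV : ∀ I, s * V I = V I * H := fun I => by
    simp [hs, sub_mul, sum_mul, mul_assoc, VV, mul_sub, -Fintype.sum_option]
  have Hs : IsSelfAdjoint H := hE.sa
  have ss : IsSelfAdjoint s := (IsSelfAdjoint.one B).sub
    (isSelfAdjoint_sum _ fun _ _ => .mul_star_self _)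
  have Vs : ∀ I, star (V I) * s = H * star (V I) := fun I => by
    simpa [ss.star_eq, Hs.star_eq] using congrArg star (sV I)
  have cs : ∀ I J x, Commute H x → Commute s (V I * x * star (V J)) := fun I J x hx => by
    rw [Commute, SemiconjBy, ← mul_assoc, ← mul_assoc, sV, mul_assoc _ _ s, Vs, mul_assoc _ H, hx.eq]
    simp only [mul_assoc]
  have e1 : 1 - s = ∑ I, V I * star (V I) := by simp [hs]
  have e2 : s * (1 - s) = ∑ I, V I * H * star (V I) := by
    simp only [e1, mul_sum, ← mul_assoc, sV]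
  have e3 : ∀ I, (1 - s) * V I = V I * (1 - H) := fun I => by simp [sub_mul, mul_sub, sV]
  have VE : ∀ a b c, star (V (some c)) * E a b = if a = c then star (V (some b)) else 0 :=
    fun a b c => by
      have := congrArg star (EV b a c)
      rw [star_mul, hE.adj] at this
      rw [this]; split_ifs <;> simp
  have e4 : ∀ a b, (1 - s) * E a b = q * E a b * q + V (some a) * star (V (some b)) := fun a b => by
    rw [e1, sum_mul, Fintype.sum_option]
    simp only [mul_assoc, VE, ← (qE _ _).eq]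
    simp [V, qs.star_eq]
  have e5 : ∑ a, (E a a - V (some a) * star (V (some a))) = s := by
    rw [sum_sub_distrib, hs, Fintype.sum_option, ← hH, show V none = q from rfl, qs.star_eq, qq]; abel
  have e6 : ∀ a b, (1 - s) * (E a b - V (some a) * star (V (some b))) =
      q * E a b * q + V (some a) * H * star (V (some b)) := fun a b => by
    rw [mul_sub, e4, ← mul_assoc, e3]; noncomm_ring
  have oβ : OZ fun I J => V I * star (V J) := ⟨fun _ _ => by simp, fun I J K L => by
    rw [← e1, mul_assoc, VV', ← mul_assoc (1 - s), e3]; split_ifs <;> simp [mul_assoc]⟩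
  have oμ : OZ fun x y : Option ν × ν => V x.1 * E x.2 y.2 * star (V y.1) :=
    ⟨fun _ _ => by simp [hE.adj, mul_assoc], fun x y z w => by
      simp only [Fintype.sum_prod_type, ← sum_mul, ← mul_sum, ← hH, ← e2]
      simp only [mul_assoc, VV', ← mul_assoc (1 - s), e3]
      simp only [← mul_assoc s, sV, Prod.ext_iff]
      by_cases h1 : y.1 = z.1
      · have : Commute (1 - H) (E x.2 y.2) := (Commute.one_left _).sub_left (hE.comm _ _)
        rw [if_pos h1, ← this.left_comm, ← mul_assoc (E _ _), EE]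
        have : Commute H (1 - H) := (Commute.one_right _).sub_right (.refl _)
        split_ifs with h2 h3 h3
        · simp only [mul_assoc, this.left_comm]
        · exact (h3 ⟨h1, h2⟩).elim
        · exact (h2 h3.2).elim
        · simp
      · simp [h1]⟩
  have oα : OZ fun a b => E a b - V (some a) * star (V (some b)) :=
    ⟨fun _ _ => by simp [hE.adj], fun a b c d => by
      have := e6 a d
      rw [mul_assoc q, ← (qE _ _).eq, ← mul_assoc q, qq, sub_mul, one_mul, sub_eq_iff_eq_add',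
        ← sub_eq_iff_eq_add] at this
      rw [e5, ← this, sub_mul, mul_sub, mul_sub, ← mul_assoc (E _ _), EV, mul_assoc, VE, mul_assoc, VV',
        EE]
      by_cases h : b = c
      · subst h; simp only [if_true]; noncomm_ring
      · simp [h, Ne.symm h]⟩
  have cE : ∀ a b, Commute s (E a b) := fun a b => by
    have h1 := congrArg star (e4 b a)
    simp only [star_mul, star_add, star_sub, star_one, ss.star_eq, qs.star_eq, hE.adj, star_star,
      ← mul_assoc] at h1
    rw [← e4] at h1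
    have h2 : Commute (1 - s) (E a b) := h1.symm
    simpa using (Commute.one_left _).sub_left h2
  let sβ : Matrix (Option ν × ν) (Option ν × ν) ℂ →ₗ[ℂ] Matrix (Option ν) (Option ν) ℂ :=
    { toFun := fun z => z.submatrix (·, o) (·, o), map_add' := fun _ _ => rfl,
      map_smul' := fun _ _ => rfl }
  let sα : Matrix (Option ν × ν) (Option ν × ν) ℂ →ₗ[ℂ] Matrix ν ν ℂ :=
    { toFun := fun z => z.submatrix (none, ·) (none, ·), map_add' := fun _ _ => rfl,
      map_smul' := fun _ _ => rfl }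
  have kβ : ∀ x, sβ (x ⊗ₖ (1 : Matrix ν ν ℂ)) = x := fun x => Matrix.ext fun i j => by
    change x i j * (1 : Matrix ν ν ℂ) o o = _; simp
  have kα : ∀ y, sα (((1 : Matrix (Option ν) (Option ν) ℂ) ⊗ₖ y).submatrix flp flp) = y :=
    fun y => Matrix.ext fun i j => by
      change (1 : Matrix (Option ν) (Option ν) ℂ) none none * y i j = _; simp
  refine glue ss (e2 ▸ sum_nonneg fun I _ => star_right_conjugate_nonneg H0 _)
    ((lin fun I J => V I * star (V J)) ∘ₗ sβ)
    ((lin fun a b => E a b - V (some a) * star (V (some b))) ∘ₗ sα)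
    (lin fun x y : Option ν × ν => V x.1 * E x.2 y.2 * star (V y.1))
    {z | ∃ x : Matrix (Option ν) (Option ν) ℂ, z = x ⊗ₖ (1 : Matrix ν ν ℂ)}
    {z | ∃ y : Matrix ν ν ℂ, z = ((1 : Matrix (Option ν) (Option ν) ℂ) ⊗ₖ y).submatrix flp flp}
    (fun z => lin_comm (fun I J => by simpa using cs I J 1 (.one_right _)) _)
    (fun z => lin_comm (fun a b => (cE a b).sub_right (by simpa using cs _ _ 1 (.one_right _))) _)
    (lin_comm fun x y => cs _ _ _ (hE.comm _ _)) (fun z => lin_star oβ _) (fun z => lin_star oα _)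
    (lin_star oμ) ?_ ?_ (fun z w => ?_) ?_ ?_ ?_ ?_ Θ h0 h1 k0 k1
  · rintro _ ⟨x, rfl⟩ _ ⟨y, rfl⟩
    simp only [LinearMap.comp_apply, ← Matrix.mul_kronecker_mul, one_mul, kβ, lin_mul oβ, e1]
  · rintro _ ⟨x, rfl⟩ _ ⟨y, rfl⟩
    simp only [LinearMap.comp_apply, Matrix.submatrix_mul_equiv, ← Matrix.mul_kronecker_mul, one_mul,
      kα, lin_mul oα, e5]
  · rw [lin_mul oμ]
    simp only [Fintype.sum_prod_type, ← sum_mul, ← mul_sum, ← hH, ← e2]
  · rintro _ ⟨x, rfl⟩
    simp only [LinearMap.comp_apply, kβ, lin_apply, Fintype.sum_prod_type, mul_sum, mul_smul_comm,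
      ← mul_assoc, sV]
    refine sum_congr rfl fun I _ => ?_
    rw [sum_comm]
    refine sum_congr rfl fun J _ => ?_
    simp [Matrix.one_apply, ← smul_sum, ← sum_mul, ← mul_sum, ← hH]
  · rintro _ ⟨y, rfl⟩
    simp only [LinearMap.comp_apply, kα, lin_apply, mul_sum, mul_smul_comm, e6]
    simp [Fintype.sum_prod_type, Fintype.sum_option, flp_none, flp_some, Matrix.one_apply,
      sum_add_distrib, show V none = q from rfl, qs.star_eq]
    refine sum_congr rfl fun i _ => ?_
    rw [sum_comm]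
    simp only [← smul_sum, ← sum_mul, ← mul_sum, ← hH]
  · rw [LinearMap.comp_apply, ← Matrix.one_kronecker_one, kβ, lin_one, e1]
  · rw [LinearMap.comp_apply, ← Matrix.submatrix_one_equiv flp, ← Matrix.one_kronecker_one, kα,
      lin_one, e5]

theorem exists_amp {p q a b ν : Type} [Fintype p] [Fintype q] [Fintype a] [Fintype b] [Fintype ν]
    [DecidableEq p] [DecidableEq q] [DecidableEq a] [DecidableEq b] [DecidableEq ν] (e₀ : ν ≃ p × a) :
    ∃ κ : Matrix (p × q) (p × q) ℂ →⋆ₐ[ℂ] Matrix (ν × q × b) (ν × q × b) ℂ,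
      (∀ x : Matrix p p ℂ, ∃ x' : Matrix ν ν ℂ, κ (x ⊗ₖ (1 : Matrix q q ℂ)) =
        x' ⊗ₖ (1 : Matrix (q × b) (q × b) ℂ)) ∧
      ∀ y : Matrix q q ℂ, ∃ y' : Matrix (q × b) (q × b) ℂ, κ ((1 : Matrix p p ℂ) ⊗ₖ y) =
        (1 : Matrix ν ν ℂ) ⊗ₖ y' := by
  let e : ν × (q × b) ≃ (p × q) × (a × b) :=
    (e₀.prodCongr (Equiv.refl _)).trans (Equiv.prodProdProdComm _ _ _ _)
  refine ⟨{ toFun := fun z => (z ⊗ₖ (1 : Matrix (a × b) (a × b) ℂ)).submatrix e e
            map_one' := by simp
            map_mul' := fun z w => by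
              rw [Matrix.submatrix_mul_equiv, ← Matrix.mul_kronecker_mul, one_mul]
            map_zero' := by simp
            map_add' := fun z w => by rw [Matrix.add_kronecker]; rfl
            commutes' := fun c => by
              simp [Algebra.algebraMap_eq_smul_one, Matrix.smul_kronecker, Matrix.submatrix_smul]
            map_star' := fun z => by
              simp [Matrix.star_eq_conjTranspose, Matrix.conjTranspose_kronecker] },
    fun x => ⟨(x ⊗ₖ (1 : Matrix a a ℂ)).submatrix e₀ e₀, Matrix.ext fun i j => ?_⟩,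
    fun y => ⟨y ⊗ₖ (1 : Matrix b b ℂ), Matrix.ext fun i j => ?_⟩⟩
  · change (x ⊗ₖ (1 : Matrix q q ℂ)) _ _ * _ = _
    simp only [e, Matrix.one_apply, Prod.ext_iff, Matrix.kroneckerMap_apply, Matrix.submatrix_apply]
    simp
    split_ifs <;> simp_all
  · change ((1 : Matrix p p ℂ) ⊗ₖ y) _ _ * _ = _
    simp only [e, Matrix.one_apply, Matrix.kroneckerMap_apply, ← e₀.injective.eq_iff (a := i.1),
      Prod.ext_iff]
    simp
    split_ifs <;> simp_all

theorem exists_path (ϖ : ν ≃ ν) (hϖ : ∀ x, ϖ (ϖ x) = x) : ∃ w : unitInterval → Matrix ν ν ℂ,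
    Continuous w ∧ (∀ t, star (w t) * w t = 1) ∧ w 0 = 1 ∧
      ∀ z, w 1 * z * star (w 1) = z.submatrix ϖ ϖ := by
  let U : Matrix ν ν ℂ := (1 : Matrix ν ν ℂ).submatrix ϖ id
  have e : ∀ x y, ϖ x = y ↔ x = ϖ y :=
    fun x y => ⟨fun h => by rw [← h, hϖ], fun h => by rw [h, hϖ]⟩
  have U1 : ∀ z : Matrix ν ν ℂ, U * z = z.submatrix ϖ id := fun z => by
    ext x y; simp [U, Matrix.mul_apply, Matrix.one_apply]
  have U2 : ∀ z : Matrix ν ν ℂ, z * U = z.submatrix id ϖ := fun z => by
    ext x y; simp [U, Matrix.mul_apply, Matrix.one_apply, e]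
  have UU : U * U = 1 := by rw [U1]; ext x y; simp [U, hϖ, Matrix.one_apply]
  have Us : star U = U := by
    ext x y; simp [U, Matrix.one_apply, e y x, eq_comm (a := y)]
  let w : unitInterval → Matrix ν ν ℂ := fun t =>
    ((√(1 - t) : ℝ) : ℂ) • (1 : Matrix ν ν ℂ) + (Complex.I * (√t : ℝ)) • U
  have ws : ∀ t, star (w t) =
      ((√(1 - t) : ℝ) : ℂ) • (1 : Matrix ν ν ℂ) - (Complex.I * (√t : ℝ)) • U := fun t => by
    simp only [w, star_add, star_smul, Us, star_one, star_mul', Complex.star_def, Complex.conj_ofReal,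
      Complex.conj_I, neg_mul, neg_smul, sub_eq_add_neg]
  have sq : ∀ t : unitInterval, ((√(1 - t) : ℝ) : ℂ) * (√(1 - t) : ℝ) + (√t : ℝ) * (√t : ℝ) = 1 :=
    fun t => by
      rw [← Complex.ofReal_mul, ← Complex.ofReal_mul, Real.mul_self_sqrt t.2.1,
        Real.mul_self_sqrt (sub_nonneg.2 t.2.2)]; simp
  refine ⟨w, by fun_prop, fun t => ?_, by simp [w], fun z => ?_⟩
  · rw [ws]
    simp only [w, mul_add, sub_mul, smul_mul_smul_comm, UU, one_mul, mul_one]
    match_scalars
    · linear_combination sq t - (√t : ℝ) * (√t : ℝ) * Complex.I_mul_I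
    · ring
  · rw [ws]
    ext x y
    simp [w, U1, U2, ← mul_assoc]

theorem exists_twist {p q : ℕ} (κ : Matrix (Fin p × Fin q) (Fin p × Fin q) ℂ →⋆ₐ[ℂ] Matrix ν ν ℂ)
    (ϖ : ν ≃ ν) (hϖ : ∀ x, ϖ (ϖ x) = x) :
    ∃ Θ : DimDrop p q →⋆ₐ[ℂ] C(unitInterval, Matrix ν ν ℂ), (∀ f, Θ f 0 = κ (f.1 0)) ∧
    (∀ f, Θ f 1 = (κ (f.1 1)).submatrix ϖ ϖ) ∧
    (∀ f (t : unitInterval), (t : ℝ) ≤ 1 / 3 → Θ f t = Θ f 0) ∧
    ∀ f (t : unitInterval), 2 / 3 ≤ (t : ℝ) → Θ f t = Θ f 1 := by
  have κc : Continuous κ := κ.toAlgHom.toLinearMap.continuous_of_finiteDimensional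
  obtain ⟨w, wc, w1, w0, wz⟩ := exists_path ϖ hϖ
  let r : unitInterval → unitInterval := fun t => Set.projIcc 0 1 zero_le_one (3 * t - 1)
  have rc : Continuous r := by fun_prop
  have w2 : ∀ t, w t * star (w t) = 1 := fun t => mul_eq_one_comm.1 (w1 t)
  have r0 : ∀ t : unitInterval, (t : ℝ) ≤ 1 / 3 → r t = 0 := fun t h =>
    Set.projIcc_of_le_left _ (by linarith)
  have r1 : ∀ t : unitInterval, 2 / 3 ≤ (t : ℝ) → r t = 1 := fun t h =>
    Set.projIcc_of_right_le _ (by linarith)
  refine ⟨{ toFun := fun f => ⟨fun t => w (r t) * κ (f.1 (r t)) * star (w (r t)), by fun_prop⟩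
            map_one' := ContinuousMap.ext fun t => by simp [w2]
            map_mul' := fun f g => ContinuousMap.ext fun t => by
              simp [mul_assoc, ← mul_assoc (star (w _)), w1]
            map_zero' := ContinuousMap.ext fun t => by simp
            map_add' := fun f g => ContinuousMap.ext fun t => by simp [mul_add, add_mul]
            commutes' := fun c => ContinuousMap.ext fun t => by
              simp [Algebra.algebraMap_eq_smul_one, w2]
            map_star' := fun f => ContinuousMap.ext fun t => by simp [map_star, mul_assoc] },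
    fun f => ?_, fun f => ?_, fun f t h => ?_, fun f t h => ?_⟩
  · change w (r 0) * κ (f.1 (r 0)) * star (w (r 0)) = _
    rw [r0 0 (by norm_num), w0, star_one, one_mul, mul_one]
  · change w (r 1) * κ (f.1 (r 1)) * star (w (r 1)) = _
    rw [r1 1 (by norm_num), wz]
  · change w (r t) * κ (f.1 (r t)) * star (w (r t)) = w (r 0) * κ (f.1 (r 0)) * star (w (r 0))
    rw [r0 t h, r0 0 (by norm_num)]
  · change w (r t) * κ (f.1 (r t)) * star (w (r t)) = w (r 1) * κ (f.1 (r 1)) * star (w (r 1))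
    rw [r1 t h, r1 1 (by norm_num)]

theorem dimDrop_hom (hB : Rich B) (h : ∀ χ : B →⋆ₙₐ[ℂ] ℂ, χ = 0) {p q : ℕ} (hp : 0 < p)
    (hq : 0 < q) (hpq : p.Coprime q) : Nonempty (DimDrop p q →⋆ₐ[ℂ] B) := by
  let := CStarAlgebra.spectralOrder B
  have := CStarAlgebra.spectralOrderedRing B
  obtain ⟨k, hk⟩ := Nat.exists_eq_succ_of_ne_zero (Nat.totient_pos.2 hq).ne'
  obtain ⟨b, hb⟩ := (Nat.modEq_iff_dvd' (Nat.one_le_pow _ _ hp)).1 (Nat.ModEq.pow_totient hpq).symm
  have h1 := Nat.one_le_pow q.totient _ hp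
  have hc : q * (b + p) + 1 = p * (p ^ k + q) := by
    rw [hk, pow_succ] at hb h1
    rw [mul_add, mul_add, ← hb, mul_comm p, mul_comm p q]; omega
  obtain ⟨κ, κ0, κ1⟩ := exists_amp (p := Fin p) (q := Fin q) (a := Fin (p ^ k + q))
    (b := Fin (b + p)) (ν := Option (Fin q × Fin (b + p))) (Fintype.equivOfCardEq (by simpa using hc))
  obtain ⟨Θ, h0, h1, k0, k1⟩ := exists_twist κ flp flp_flp
  obtain ⟨E, v, r, hE, H0, hv, Ev, rs, rr, rE⟩ := rw_rel hB h
    ((⟨0, hq⟩, ⟨0, by omega⟩) : Fin q × Fin (b + p))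
  refine rw_glue (R := DimDrop p q) hE H0 hv Ev rs rr rE Θ (fun f => ?_) (fun f => ?_) k0 k1
  · obtain ⟨x, hx⟩ := f.2.1
    rw [h0, hx]; exact κ0 x
  · obtain ⟨y, hy⟩ := f.2.2
    obtain ⟨y', hy'⟩ := κ1 y
    exact ⟨y', by rw [h1, hy, hy']⟩

end Vale.Agent.P101
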