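import Vale.Agent.P101.RW

/-! Gluing a homomorphism out of three order zero maps over an interval. -/

namespace Vale.Agent.P101
open Filter Topology TopologicalSpace Finset

universe u
variable {B : Type u} [CStarAlgebra B] {N : Type} [Fintype N] [DecidableEq N]

/-- a real function as an element of `C(I, ℂ)` -/
noncomputable def rf (f : ℝ → ℝ) (hf : Continuous f) : C(unitInterval, ℂ) :=
  ⟨fun t => (f t : ℝ), by fun_prop⟩

theorem rf_star (f : ℝ → ℝ) (hf) : star (rf f hf) = rf f hf := by ext; simp [rf]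

theorem exists_calc [PartialOrder B] [StarOrderedRing B] {s : B} (hs : IsSelfAdjoint s)
    (h : 0 ≤ s * (1 - s)) : ∃ Γ : C(unitInterval, ℂ) →⋆ₐ[ℂ] B, Γ (rf (fun t => t) continuous_id') = s ∧
      ∀ g x, Commute s x → Commute (Γ g) x := by
  have h1 : ∀ t ∈ spectrum ℝ s, 0 ≤ t * (1 - t) := by
    rw [← cfc_nonneg_iff _ s, cfc_mul _ _ s, cfc_sub _ _ s, cfc_id' ℝ s, cfc_const_one ℝ s]
    exact h
  have hn : IsStarNormal s := hs.isStarNormal
  refine ⟨(cfcHom hn).comp (ContinuousMap.compStarAlgHom' ℂ ℂ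
    ⟨fun z => Set.projIcc 0 1 zero_le_one z.1.re, by fun_prop⟩), ?_,
    fun g x hx => hs.commute_cfcHom hn hx _⟩
  refine (congrArg (cfcHom hn) (ContinuousMap.ext fun z => ?_)).trans (cfcHom_id hn)
  have e := hs.mem_spectrum_eq_re z.2
  have h2 := h1 z.1.re (spectrum.of_algebraMap_mem ℂ (by simp [← e]))
  have h3 : z.1.re ∈ Set.Icc (0 : ℝ) 1 := ⟨by nlinarith, by nlinarith⟩
  simp [rf, Set.projIcc_of_mem _ h3, ← e]

/-- extension of a linear map on matrices to matrix valued functions -/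
noncomputable def ext (Γ : C(unitInterval, ℂ) →⋆ₐ[ℂ] B) (μ : Matrix N N ℂ →ₗ[ℂ] B)
    (F : C(unitInterval, Matrix N N ℂ)) : B :=
  ∑ i, ∑ j, Γ ⟨fun t => F t i j, by fun_prop⟩ * μ (Matrix.single i j 1)

section
variable (Γ : C(unitInterval, ℂ) →⋆ₐ[ℂ] B) (μ : Matrix N N ℂ →ₗ[ℂ] B)

theorem ext_add (F G : C(unitInterval, Matrix N N ℂ)) : ext Γ μ (F + G) = ext Γ μ F + ext Γ μ G := by
  simp only [ext, ← sum_add_distrib, ← add_mul, ← map_add]; rfl

theorem ext_smul (g : C(unitInterval, ℂ)) (F : C(unitInterval, Matrix N N ℂ)) :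
    ext Γ μ (g • F) = Γ g * ext Γ μ F := by
  simp only [ext, mul_sum, ← mul_assoc, ← map_mul]; rfl

theorem ext_csmul (c : ℂ) (F : C(unitInterval, Matrix N N ℂ)) :
    ext Γ μ (c • F) = c • ext Γ μ F := by
  simp only [ext, smul_sum, ← smul_mul_assoc, ← map_smul]; rfl

theorem ext_const (z : Matrix N N ℂ) : ext Γ μ (.const _ z) = μ z := by
  conv_rhs => rw [Matrix.matrix_eq_sum_single z]
  simp only [ext, map_sum]
  refine sum_congr rfl fun i _ => sum_congr rfl fun j _ => ?_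
  have : Γ ⟨fun t => (ContinuousMap.const unitInterval z) t i j, by fun_prop⟩ =
      algebraMap ℂ B (z i j) := by rw [← Γ.commutes]; congr 1
  rw [this, ← Algebra.smul_def, ← map_smul, Matrix.smul_single, smul_eq_mul, mul_one]

theorem ext_sum {ι : Type} (s : Finset ι) (F : ι → C(unitInterval, Matrix N N ℂ)) :
    ext Γ μ (∑ i ∈ s, F i) = ∑ i ∈ s, ext Γ μ (F i) :=
  map_sum (AddMonoidHom.mk' (ext Γ μ) (ext_add Γ μ)) F s

theorem ext_decomp (F : C(unitInterval, Matrix N N ℂ)) : F = ∑ i, ∑ j,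
    (⟨fun t => F t i j, by fun_prop⟩ : C(unitInterval, ℂ)) •
      ContinuousMap.const unitInterval (Matrix.single i j (1 : ℂ)) := by
  refine ContinuousMap.ext fun t => ?_
  conv_lhs => rw [Matrix.matrix_eq_sum_single (F t)]
  simp [ContinuousMap.sum_apply]

variable {Γ μ}

theorem ext_mul (hc : ∀ g z, Commute (Γ g) (μ z)) {χ : C(unitInterval, ℂ)}
    (hm : ∀ z w, μ z * μ w = Γ χ * μ (z * w))
    (F G : C(unitInterval, Matrix N N ℂ)) : ext Γ μ F * ext Γ μ G = Γ χ * ext Γ μ (F * G) := by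
  conv_rhs => rw [ext_decomp F, ext_decomp G]
  rw [ext, ext]
  simp only [sum_mul_sum, ext_sum]
  simp only [mul_sum]
  refine sum_congr rfl fun i _ => sum_congr rfl fun j _ => sum_congr rfl fun k _ =>
    sum_congr rfl fun l _ => ?_
  have : ∀ (g g' : C(unitInterval, ℂ)) (x y : Matrix N N ℂ), g • ContinuousMap.const unitInterval x *
      g' • ContinuousMap.const unitInterval y = (g * g') • ContinuousMap.const unitInterval (x * y) :=
    fun g g' x y => ContinuousMap.ext fun t => by simp [smul_smul, mul_comm]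
  rw [this, ext_smul, ext_const,
    (hc _ _).symm.mul_mul_mul_comm, hm, ← map_mul, ← mul_assoc, ← mul_assoc, ← map_mul, ← map_mul,
    mul_comm χ]

theorem ext_star (hc : ∀ g z, Commute (Γ g) (μ z)) (hs : ∀ z, μ (star z) = star (μ z))
    (F : C(unitInterval, Matrix N N ℂ)) : ext Γ μ (star F) = star (ext Γ μ F) := by
  simp only [ext, star_sum, star_mul, ← map_star, ← hs, ← (hc _ _).eq]
  rw [sum_comm]
  refine sum_congr rfl fun i _ => sum_congr rfl fun j _ => ?_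
  rw [Matrix.star_eq_conjTranspose, Matrix.conjTranspose_single, star_one]
  rfl

theorem ext_comm (hc : ∀ g z, Commute (Γ g) (μ z)) (g : C(unitInterval, ℂ))
    (F : C(unitInterval, Matrix N N ℂ)) : Commute (Γ g) (ext Γ μ F) :=
  .sum_right _ _ _ fun _ _ => .sum_right _ _ _ fun _ _ =>
    ((Commute.all _ _).map Γ).mul_right (hc _ _)

end

theorem glue_abs (Γ : C(unitInterval, ℂ) →⋆ₐ[ℂ] B) {s : B}
    (β α μ : Matrix N N ℂ →ₗ[ℂ] B) (N₀ N₁ : Set (Matrix N N ℂ))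
    {T a₀ a₁ c₀ c₁ c₂ b₀ b₁ w : C(unitInterval, ℂ)} (hΓ : Γ T = s)
    (cβ : ∀ g z, Commute (Γ g) (β z)) (cα : ∀ g z, Commute (Γ g) (α z))
    (cμ : ∀ g z, Commute (Γ g) (μ z))
    (sβ : ∀ z, β (star z) = star (β z)) (sα : ∀ z, α (star z) = star (α z))
    (sμ : ∀ z, μ (star z) = star (μ z))
    (mβ : ∀ z ∈ N₀, ∀ w ∈ N₀, β z * β w = (1 - s) * β (z * w))
    (mα : ∀ z ∈ N₁, ∀ w ∈ N₁, α z * α w = s * α (z * w))
    (mμ : ∀ z w, μ z * μ w = s * (1 - s) * μ (z * w))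
    (lβ : ∀ z ∈ N₀, s * β z = μ z) (lα : ∀ z ∈ N₁, (1 - s) * α z = μ z)
    (uβ : β 1 = 1 - s) (uα : α 1 = s)
    {R : Type} [Ring R] [StarRing R] [Algebra ℂ R] (Θ : R →⋆ₐ[ℂ] C(unitInterval, Matrix N N ℂ))
    (h0 : ∀ f, Θ f 0 ∈ N₀) (h1 : ∀ f, Θ f 1 ∈ N₁)
    (I1 : (1 - T) * c₀ = a₀) (I2 : T * c₁ = a₁) (I3 : T * (1 - T) * c₂ = 1 - a₀ - a₁)
    (J0 : b₀ * a₀ = b₀) (J2 : b₁ * a₁ = b₁) (b1 : b₀ * c₁ = 0) (b2 : b₀ * c₂ = 0) (b3 : b₁ * c₀ = 0)
    (b4 : b₁ * c₂ = 0) (I6 : w * (T * (1 - T) * (T * (1 - T)) + b₀ * b₀ + b₁ * b₁) = 1)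
    (K0 : ∀ f, a₀ • Θ f = a₀ • ContinuousMap.const _ (Θ f 0))
    (K1 : ∀ f, a₁ • Θ f = a₁ • ContinuousMap.const _ (Θ f 1))
    (sc : star c₀ = c₀ ∧ star c₁ = c₁ ∧ star c₂ = c₂) : Nonempty (R →⋆ₐ[ℂ] B) := by
  subst hΓ
  have e0 : 1 - Γ T = Γ (1 - T) := by simp
  rw [e0] at mβ mμ lα uβ
  simp only [← map_mul] at mμ
  let Φ : R → B := fun f => Γ c₀ * β (Θ f 0) + Γ c₁ * α (Θ f 1) + Γ c₂ * ext Γ μ (Θ f)
  have cΦ : ∀ g f, Commute (Γ g) (Φ f) := fun g f =>
    ((((Commute.all _ _).map Γ).mul_right (cβ _ _)).add_right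
      (((Commute.all _ _).map Γ).mul_right (cα _ _))).add_right
      (((Commute.all _ _).map Γ).mul_right (ext_comm cμ _ _))
  have mm : ∀ g g' x, Γ g * (Γ g' * x) = Γ (g * g') * x := fun g g' x => by
    rw [map_mul, mul_assoc]
  have P1 : ∀ f, Γ (T * (1 - T)) * Φ f = ext Γ μ (Θ f) := fun f => by
    simp only [Φ, mul_add, mm]
    rw [I3, show T * (1 - T) * c₀ = a₀ * T by rw [← I1]; ring,
      show T * (1 - T) * c₁ = a₁ * (1 - T) by rw [← I2]; ring, ← mm, ← mm, lβ _ (h0 f), lα _ (h1 f),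
      ← ext_const Γ μ, ← ext_const Γ μ, ← ext_smul, ← ext_smul, ← ext_smul, ← K0, ← K1, ← ext_add,
      ← ext_add]
    exact congrArg _ (ContinuousMap.ext fun t => by simp [sub_smul])
  have P2 : ∀ f, Γ b₀ * Φ f = Γ (b₀ * c₀) * β (Θ f 0) := fun f => by
    simp [Φ, mul_add, mm, b1, b2, -map_mul]
  have P3 : ∀ f, Γ b₁ * Φ f = Γ (b₁ * c₁) * α (Θ f 1) := fun f => by
    simp [Φ, mul_add, mm, b3, b4, -map_mul]
  have sq : ∀ g f f', Γ (g * g) * (Φ f * Φ f') = Γ g * Φ f * (Γ g * Φ f') := fun g f f' => by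
    rw [map_mul, (cΦ g f).mul_mul_mul_comm]
  have one : Φ 1 = 1 := by
    have : ext Γ μ 1 = Γ (T * (1 - T)) := by
      rw [show (1 : C(unitInterval, Matrix N N ℂ)) = .const _ 1 from rfl, ext_const,
        ← lβ 1 (by simpa using h0 1), uβ, map_mul]
    simp only [Φ, map_one, ContinuousMap.one_apply, uβ, uα, this, ← map_mul, ← map_add]
    rw [mul_comm c₀, mul_comm c₁, mul_comm c₂, I1, I2, I3]
    simp
  have smul : ∀ (c : ℂ) f, Φ (c • f) = c • Φ f := fun c f => by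
    simp only [Φ, map_smul, ContinuousMap.smul_apply, ext_csmul, mul_smul_comm, smul_add]
  have mul : ∀ f f', Φ (f * f') = Φ f * Φ f' := fun f f' => by
    have : Γ (T * (1 - T) * (T * (1 - T)) + b₀ * b₀ + b₁ * b₁) * Φ (f * f') =
        Γ (T * (1 - T) * (T * (1 - T)) + b₀ * b₀ + b₁ * b₁) * (Φ f * Φ f') := by
      rw [map_add, map_add, add_mul, add_mul, add_mul, add_mul, sq, sq, sq, P1, P1, P2, P2, P3, P3,
        ← mm, ← mm b₀, ← mm b₁, P1, P2, P3, ext_mul cμ mμ, (cβ _ _).symm.mul_mul_mul_comm,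
        (cα _ _).symm.mul_mul_mul_comm, mβ _ (h0 f) _ (h0 f'), mα _ (h1 f) _ (h1 f')]
      simp only [← map_mul, mm]
      rw [show b₀ * c₀ * (b₀ * c₀) * (1 - T) = b₀ * (b₀ * c₀) by
          linear_combination (b₀ * b₀ * c₀) * I1 + (b₀ * c₀) * J0,
        show b₁ * c₁ * (b₁ * c₁) * T = b₁ * (b₁ * c₁) by
          linear_combination (b₁ * b₁ * c₁) * I2 + (b₁ * c₁) * J2, map_mul Θ]
      rfl
    have h2 := congrArg (Γ w * ·) this
    simpa only [mm, I6, map_one, one_mul] using h2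
  exact ⟨{ toFun := Φ
           map_one' := one
           map_mul' := mul
           map_zero' := by simpa using smul 0 0
           map_add' := fun f f' => by
             simp only [Φ, map_add, ContinuousMap.add_apply, ext_add, mul_add]; abel
           commutes' := fun c => by
             rw [Algebra.algebraMap_eq_smul_one, smul, one, Algebra.algebraMap_eq_smul_one]
           map_star' := fun f => by
             simp only [Φ, star_add, (cβ _ _).eq, (cα _ _).eq, (ext_comm cμ _ _).eq, star_mul,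
               ← sβ, ← sα, ← ext_star cμ sμ, ← map_star Γ, sc.1, sc.2.1, sc.2.2]
             simp only [map_star, ContinuousMap.star_apply] }⟩

theorem inv_cont {g : ℝ → ℝ} {c : ℝ} (hg : Continuous g) (hc : 0 < c) :
    Continuous fun t => 1 / max (g t) c :=
  continuous_const.div (by fun_prop) fun _ => (lt_max_of_lt_right hc).ne'

theorem rf_mul (f g : ℝ → ℝ) (hf hg) : rf f hf * rf g hg = rf (fun t => f t * g t) (hf.mul hg) := by
  ext; simp [rf]

theorem rf_sub (f g : ℝ → ℝ) (hf hg) : rf f hf - rf g hg = rf (fun t => f t - g t) (hf.sub hg) := by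
  ext; simp [rf]

theorem rf_add (f g : ℝ → ℝ) (hf hg) : rf f hf + rf g hg = rf (fun t => f t + g t) (hf.add hg) := by
  ext; simp [rf]

theorem rf_one : 1 = rf (fun _ => 1) continuous_const := by ext; simp [rf]

theorem rf_zero : 0 = rf (fun _ => 0) continuous_const := by ext; simp [rf]

theorem rf_congr {f g : ℝ → ℝ} {hf hg} (h : ∀ t, f t = g t) : rf f hf = rf g hg := by
  ext; simp [rf, h]

theorem clo {x : ℝ} (h : x ≤ 0) : max 0 (min 1 x) = 0 := max_eq_left (min_le_of_right_le h)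

theorem chi {x : ℝ} (h : 1 ≤ x) : max 0 (min 1 x) = 1 := by
  rw [min_eq_left h, max_eq_right zero_le_one]

theorem exists_cut {T : C(unitInterval, ℂ)} (hT : T = rf (fun t => t) continuous_id') :
    ∃ a₀ a₁ d₀ d₁ d₂ b₀ b₁ w : C(unitInterval, ℂ),
    (1 - T) * (a₀ * d₀) = a₀ ∧ T * (a₁ * d₁) = a₁ ∧
    T * (1 - T) * ((1 - a₀ - a₁) * d₂) = 1 - a₀ - a₁ ∧
    b₀ * a₀ = b₀ ∧ b₀ * a₁ = 0 ∧ b₁ * a₁ = b₁ ∧ b₁ * a₀ = 0 ∧
    w * (T * (1 - T) * (T * (1 - T)) +
      b₀ * b₀ + b₁ * b₁) = 1 ∧ (∀ t : unitInterval, 1 / 3 ≤ (t : ℝ) → a₀ t = 0) ∧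
    (∀ t : unitInterval, (t : ℝ) ≤ 2 / 3 → a₁ t = 0) ∧ star a₀ = a₀ ∧ star a₁ = a₁ ∧
    star d₀ = d₀ ∧ star d₁ = d₁ ∧ star d₂ = d₂ := by
  subst hT
  have hp : ∀ t : ℝ, 0 < t * (1 - t) * (t * (1 - t)) + max 0 (1 / 6 - t) * max 0 (1 / 6 - t) +
      max 0 (t - 5 / 6) * max 0 (t - 5 / 6) := fun t => by
    have p1 := mul_self_nonneg (t * (1 - t))
    have p2 := mul_self_nonneg (max 0 (1 / 6 - t))
    have p3 := mul_self_nonneg (max 0 (t - 5 / 6))
    rcases lt_or_ge t (1 / 6) with h | h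
    · linarith [mul_self_pos.2 (lt_max_of_lt_right (sub_pos.2 h) : 0 < max 0 (1 / 6 - t)).ne']
    · rcases lt_or_ge (5 / 6) t with h' | h'
      · linarith [mul_self_pos.2 (lt_max_of_lt_right (sub_pos.2 h') : 0 < max 0 (t - 5 / 6)).ne']
      · linarith [mul_self_pos.2 (show 0 < t * (1 - t) by nlinarith).ne']
  refine ⟨rf (fun t => max 0 (min 1 (2 - 6 * t))) (by fun_prop),
    rf (fun t => max 0 (min 1 (6 * t - 4))) (by fun_prop),
    rf (fun t => 1 / max (1 - t) (1 / 2)) (inv_cont (by fun_prop) (by norm_num)),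
    rf (fun t => 1 / max t (1 / 2)) (inv_cont (by fun_prop) (by norm_num)),
    rf (fun t => 1 / max (t * (1 - t)) (1 / 8)) (inv_cont (by fun_prop) (by norm_num)),
    rf (fun t => max 0 (1 / 6 - t)) (by fun_prop), rf (fun t => max 0 (t - 5 / 6)) (by fun_prop),
    rf (fun t => 1 / (t * (1 - t) * (t * (1 - t)) + max 0 (1 / 6 - t) * max 0 (1 / 6 - t) +
      max 0 (t - 5 / 6) * max 0 (t - 5 / 6)))
      (continuous_const.div (by fun_prop) fun t => (hp t).ne'), ?_⟩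
  simp only [rf_one, rf_zero, rf_mul, rf_sub, rf_add, rf_star, and_true]
  refine ⟨rf_congr fun t => ?_, rf_congr fun t => ?_, rf_congr fun t => ?_, rf_congr fun t => ?_,
    rf_congr fun t => ?_, rf_congr fun t => ?_, rf_congr fun t => ?_,
    rf_congr fun t => one_div_mul_cancel (hp t).ne', fun t h => ?_, fun t h => ?_⟩
  · rcases le_total t (1 / 3) with h | h
    · rw [max_eq_left (show 1 / 2 ≤ 1 - t by linarith)]; field_simp [show 1 - t ≠ 0 by linarith]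
    · rw [clo (show 2 - 6 * t ≤ 0 by linarith), zero_mul, mul_zero]
  · rcases le_total t (2 / 3) with h | h
    · rw [clo (show 6 * t - 4 ≤ 0 by linarith), zero_mul, mul_zero]
    · rw [max_eq_left (show 1 / 2 ≤ t by linarith)]; field_simp [show t ≠ 0 by linarith]
  · rcases le_total t (1 / 6) with h | h
    · rw [clo (show 6 * t - 4 ≤ 0 by linarith), chi (show 1 ≤ 2 - 6 * t by linarith)]; ring
    · rcases le_total t (5 / 6) with h' | h'
      · rw [max_eq_left (show 1 / 8 ≤ t * (1 - t) by nlinarith)]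
        field_simp [show t ≠ 0 by linarith, show 1 - t ≠ 0 by linarith]
      · rw [clo (show 2 - 6 * t ≤ 0 by linarith), chi (show 1 ≤ 6 * t - 4 by linarith)]; ring
  · rcases le_total t (1 / 6) with h | h
    · rw [chi (show 1 ≤ 2 - 6 * t by linarith), mul_one]
    · rw [max_eq_left (show 1 / 6 - t ≤ 0 by linarith), zero_mul]
  · rcases le_total t (1 / 6) with h | h
    · rw [clo (show 6 * t - 4 ≤ 0 by linarith), mul_zero]
    · rw [max_eq_left (show 1 / 6 - t ≤ 0 by linarith), zero_mul]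
  · rcases le_total t (5 / 6) with h | h
    · rw [max_eq_left (show t - 5 / 6 ≤ 0 by linarith), zero_mul]
    · rw [chi (show 1 ≤ 6 * t - 4 by linarith), mul_one]
  · rcases le_total t (5 / 6) with h | h
    · rw [max_eq_left (show t - 5 / 6 ≤ 0 by linarith), zero_mul]
    · rw [clo (show 2 - 6 * t ≤ 0 by linarith), mul_zero]
  · simp [rf, clo (show 2 - 6 * (t : ℝ) ≤ 0 by linarith)]
  · simp [rf, clo (show 6 * (t : ℝ) - 4 ≤ 0 by linarith)]

theorem glue [PartialOrder B] [StarOrderedRing B] {s : B} (hs : IsSelfAdjoint s)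
    (h : 0 ≤ s * (1 - s)) (β α μ : Matrix N N ℂ →ₗ[ℂ] B) (N₀ N₁ : Set (Matrix N N ℂ))
    (cβ : ∀ z, Commute s (β z)) (cα : ∀ z, Commute s (α z)) (cμ : ∀ z, Commute s (μ z))
    (sβ : ∀ z, β (star z) = star (β z)) (sα : ∀ z, α (star z) = star (α z))
    (sμ : ∀ z, μ (star z) = star (μ z))
    (mβ : ∀ z ∈ N₀, ∀ w ∈ N₀, β z * β w = (1 - s) * β (z * w))
    (mα : ∀ z ∈ N₁, ∀ w ∈ N₁, α z * α w = s * α (z * w))
    (mμ : ∀ z w, μ z * μ w = s * (1 - s) * μ (z * w))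
    (lβ : ∀ z ∈ N₀, s * β z = μ z) (lα : ∀ z ∈ N₁, (1 - s) * α z = μ z)
    (uβ : β 1 = 1 - s) (uα : α 1 = s)
    {R : Type} [Ring R] [StarRing R] [Algebra ℂ R] (Θ : R →⋆ₐ[ℂ] C(unitInterval, Matrix N N ℂ))
    (h0 : ∀ f, Θ f 0 ∈ N₀) (h1 : ∀ f, Θ f 1 ∈ N₁)
    (k0 : ∀ f (t : unitInterval), (t : ℝ) ≤ 1 / 3 → Θ f t = Θ f 0)
    (k1 : ∀ f (t : unitInterval), 2 / 3 ≤ (t : ℝ) → Θ f t = Θ f 1) : Nonempty (R →⋆ₐ[ℂ] B) := by
  obtain ⟨Γ, hΓ, hc⟩ := exists_calc hs h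
  obtain ⟨a₀, a₁, d₀, d₁, d₂, b₀, b₁, w, I1, I2, I3, J0, J1, J2, J3, I6, z0, z1, s0, s1, s2, s3, s4⟩ :=
    exists_cut rfl
  refine glue_abs Γ β α μ N₀ N₁ hΓ (fun g z => hc g _ (cβ z)) (fun g z => hc g _ (cα z))
    (fun g z => hc g _ (cμ z)) sβ sα sμ mβ mα mμ lβ lα uβ uα Θ h0 h1 I1 I2 I3 J0 J2
    (by rw [← mul_assoc, J1, zero_mul]) (by rw [← mul_assoc, mul_sub, mul_sub, J0, J1]; simp)
    (by rw [← mul_assoc, J3, zero_mul]) (by rw [← mul_assoc, mul_sub, mul_sub, J2, J3]; simp) I6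
    (fun f => ContinuousMap.ext fun t => ?_) (fun f => ContinuousMap.ext fun t => ?_)
    (by simp only [star_mul', star_sub, star_one, s0, s1, s2, s3, s4, and_self])
  · rcases le_total (t : ℝ) (1 / 3) with h | h
    · simp [k0 f t h]
    · simp [z0 t h]
  · rcases le_total (t : ℝ) (2 / 3) with h | h
    · simp [z1 t h]
    · simp [k1 f t h]

end Vale.Agent.P101
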