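import Vale.Agent.P101.Defs

/-! Quotients of unital C*-algebras by closed two-sided ideals. -/

namespace Vale.Agent.P101
open Filter Topology

universe u
variable {B : Type u} [CStarAlgebra B]

theorem exists_unit (y : B) {ε : ℝ} (hε : 0 < ε) : ∃ r k : B, IsSelfAdjoint r ∧ ‖r‖ ≤ 1 ∧
    ‖y * r‖ ≤ ε ∧ 1 - r = k * (star y * y) ∧ 1 - r = (star y * y) * k := by
  set h := star y * y with hh
  have hs : IsSelfAdjoint h := IsSelfAdjoint.star_mul_self y
  set δ := ε ^ 2
  have hδ : 0 < δ := by positivity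
  have hp : ∀ t : ℝ, 0 < δ ^ 2 + t ^ 2 := fun t => by positivity
  let f : ℝ → ℝ := fun t => δ ^ 2 / (δ ^ 2 + t ^ 2)
  let g : ℝ → ℝ := fun t => t / (δ ^ 2 + t ^ 2)
  have hf : Continuous f := continuous_const.div (by fun_prop) fun t => (hp t).ne'
  have hg : Continuous g := continuous_id.div (by fun_prop) fun t => (hp t).ne'
  have f0 : ∀ t, 0 ≤ f t := fun t => by positivity
  have f1 : ∀ t, f t ≤ 1 := fun t => (div_le_one (hp t)).2 (by nlinarith [sq_nonneg t])
  have e : cfc (fun t => g t * t) h = 1 - cfc f h := by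
    rw [← cfc_one (R := ℝ) h, ← cfc_sub _ _ h (by fun_prop) (by fun_prop)]
    refine cfc_congr fun t _ => ?_
    simp only [f, g, Pi.one_apply]
    field_simp [(hp t).ne']
    ring
  refine ⟨cfc f h, cfc g h, cfc_predicate _ _, norm_cfc_le zero_le_one fun t _ => ?_, ?_, ?_, ?_⟩
  · rw [Real.norm_eq_abs, abs_of_nonneg (f0 t)]; exact f1 t
  · have h1 : star (y * cfc f h) * (y * cfc f h) = cfc (fun t => f t * t * f t) h := by
      rw [cfc_mul _ _ h (by fun_prop) (by fun_prop), cfc_mul _ _ h (by fun_prop) (by fun_prop),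
        cfc_id' ℝ h, star_mul, (cfc_predicate f h : IsSelfAdjoint _).star_eq, hh]
      simp only [mul_assoc]
    have h2 : ‖cfc (fun t => f t * t * f t) h‖ ≤ δ := norm_cfc_le hδ.le fun t _ => by
      rw [Real.norm_eq_abs, abs_mul, abs_mul, abs_of_nonneg (f0 t)]
      have : f t * |t| ≤ δ := by
        simp only [f]
        rw [div_mul_eq_mul_div, div_le_iff₀ (hp t), ← sq_abs t]
        nlinarith [sq_nonneg (δ - |t|), abs_nonneg t, mul_nonneg hδ.le (abs_nonneg t)]
      nlinarith [f0 t, f1 t, mul_nonneg (f0 t) (abs_nonneg t)]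
    rw [← h1, CStarRing.norm_star_mul_self] at h2
    nlinarith [norm_nonneg (y * cfc f h)]
  · rw [← e, cfc_mul _ _ h (by fun_prop) (by fun_prop), cfc_id' ℝ h]
  · rw [← e, cfc_mul _ _ h (by fun_prop) (by fun_prop), cfc_id' ℝ h]
    exact ((Commute.refl h).cfc_real g).eq

variable (I : Ideal B) [I.IsTwoSided]

theorem isStarIdeal_of_closed (hI : IsClosed (I : Set B)) : IsStarIdeal I := ⟨fun y hy => by
  refine hI.closure_subset (Metric.mem_closure_iff.2 fun ε hε => ?_)
  obtain ⟨r, k, hr, -, h2, h3, -⟩ := exists_unit y (half_pos hε)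
  refine ⟨(1 - r) * star y, ?_, ?_⟩
  · rw [h3]
    exact I.mul_mem_right _ (I.mul_mem_left _ (I.mul_mem_left _ hy))
  · rw [dist_eq_norm, sub_mul, one_mul, sub_sub_cancel, ← norm_star, star_mul, star_star, hr.star_eq]
    linarith⟩

theorem norm_mk_lt {I : Ideal B} [I.IsTwoSided] (x : B ⧸ I) {ε : ℝ} (hε : 0 < ε) :
    ∃ r : B, Ideal.Quotient.mk I r = x ∧ ‖r‖ < ‖x‖ + ε :=
  Submodule.Quotient.norm_mk_lt x hε

theorem norm_mk_le (r : B) : ‖Ideal.Quotient.mk I r‖ ≤ ‖r‖ := Submodule.Quotient.norm_mk_le I r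

theorem le_of_lifts {x : B ⧸ I} {c : ℝ} (h : ∀ r, Ideal.Quotient.mk I r = x → c ≤ ‖r‖) :
    c ≤ ‖x‖ := le_of_forall_pos_le_add fun ε hε => by
  obtain ⟨r, hr, h2⟩ := norm_mk_lt x hε
  linarith [h r hr]

theorem quot_norm_mul (x y : B ⧸ I) : ‖x * y‖ ≤ ‖x‖ * ‖y‖ := by
  have key : ∀ a b : B, Ideal.Quotient.mk I a = x → Ideal.Quotient.mk I b = y →
      ‖x * y‖ ≤ ‖a‖ * ‖b‖ := fun a b ha hb => by
    rw [← ha, ← hb, ← map_mul]; exact (norm_mk_le I _).trans (norm_mul_le _ _)
  refine le_of_forall_pos_le_add fun ε hε => ?_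
  have hc : Tendsto (fun δ : ℝ => (‖x‖ + δ) * (‖y‖ + δ)) (𝓝[>] 0) (𝓝 (‖x‖ * ‖y‖)) := by
    have : Continuous fun δ : ℝ => (‖x‖ + δ) * (‖y‖ + δ) := by fun_prop
    simpa using (this.tendsto 0).mono_left nhdsWithin_le_nhds
  obtain ⟨δ, h1, h2⟩ := ((hc.eventually (gt_mem_nhds (lt_add_of_pos_right _ hε))).and
    self_mem_nhdsWithin).exists
  obtain ⟨a, ha, ha'⟩ := norm_mk_lt x h2
  obtain ⟨b, hb, hb'⟩ := norm_mk_lt y h2
  exact (key a b ha hb).trans ((mul_le_mul ha'.le hb'.le (norm_nonneg _)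
    ((norm_nonneg _).trans ha'.le)).trans h1.le)

variable [hI : IsClosed (I : Set B)]

noncomputable instance quotNormedRing : NormedRing (B ⧸ I) :=
  { Ideal.Quotient.ring I, Submodule.Quotient.normedAddCommGroup I with
    dist_eq := dist_eq_norm_neg_add
    norm_mul_le := quot_norm_mul I }

noncomputable instance quotNormedAlgebra : NormedAlgebra ℂ (B ⧸ I) :=
  { Submodule.Quotient.normedSpace I ℂ, Ideal.Quotient.algebra ℂ with }

variable [IsStarIdeal I]

instance quotCStarRing : CStarRing (B ⧸ I) where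
  norm_mul_self_le x := by
    obtain ⟨a, rfl⟩ := Ideal.Quotient.mk_surjective x
    refine le_of_lifts I fun z hz => le_of_forall_pos_le_add fun ε hε => ?_
    have hy : z - star a * a ∈ I := by
      rw [← Ideal.Quotient.eq, hz, map_mul]; rfl
    obtain ⟨r, k, hr, h1, h2, h3, -⟩ := exists_unit (z - star a * a) hε
    have e : Ideal.Quotient.mk I a = Ideal.Quotient.mk I (a * r) := by
      rw [Ideal.Quotient.eq, ← mul_one_sub, h3]
      exact I.mul_mem_left _ (I.mul_mem_left _ (I.mul_mem_left _ hy))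
    have n1 : ‖Ideal.Quotient.mk I a‖ ≤ ‖a * r‖ := e ▸ norm_mk_le I _
    have n2 : ‖a * r‖ * ‖a * r‖ ≤ ‖z‖ + ε := by
      rw [← CStarRing.norm_star_mul_self, star_mul, hr.star_eq]
      have : r * star a * (a * r) = r * (z * r - (z - star a * a) * r) := by noncomm_ring
      rw [this]
      calc _ ≤ 1 * ‖z * r - (z - star a * a) * r‖ := norm_mul_le_of_le h1 le_rfl
        _ ≤ ‖z * r‖ + ‖(z - star a * a) * r‖ := by rw [one_mul]; exact norm_sub_le _ _
        _ ≤ ‖z‖ * 1 + ε := add_le_add (norm_mul_le_of_le le_rfl h1) h2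
        _ = _ := by rw [mul_one]
    exact (mul_self_le_mul_self (norm_nonneg _) n1).trans n2

noncomputable instance quotCStarAlgebra : CStarAlgebra (B ⧸ I) where
  complete := (Submodule.Quotient.completeSpace I).complete

/-- the quotient map -/
noncomputable def qmk : B →⋆ₐ[ℂ] B ⧸ I :=
  { Ideal.Quotient.mkₐ ℂ I with map_star' := fun _ => rfl }

omit hI in
theorem qmk_apply (x : B) : qmk I x = Ideal.Quotient.mk I x := rfl

end Vale.Agent.P101
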