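import Vale.Agent.P101.Quot

/-! Generated ideals, commuting copies, small functional calculus facts. -/

namespace Vale.Agent.P101
open Filter Topology Finset

universe u v
variable {B : Type u} [CStarAlgebra B] {D : Type v} [CStarAlgebra D]

/-- the two-sided ideal generated by a family -/
def gen {R : Type*} [Ring R] {κ : Type*} (x : κ → R) : Ideal R where
  carrier := {b | ∃ (ι : Type) (_ : Fintype ι) (k : ι → κ) (u w : ι → R),
    ∑ i, u i * x (k i) * w i = b}
  zero_mem' := ⟨Empty, inferInstance, Empty.elim, Empty.elim, Empty.elim, by simp⟩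
  add_mem' := by
    rintro _ _ ⟨ι, _, k, u, w, rfl⟩ ⟨ι', _, k', u', w', rfl⟩
    exact ⟨ι ⊕ ι', inferInstance, Sum.elim k k', Sum.elim u u', Sum.elim w w', by
      simp [Fintype.sum_sum_type]⟩
  smul_mem' := by
    rintro c _ ⟨ι, _, k, u, w, rfl⟩
    exact ⟨ι, inferInstance, k, fun i => c * u i, w, by simp [mul_sum, mul_assoc]⟩

instance gen_twoSided {R : Type*} [Ring R] {κ : Type*} (x : κ → R) : (gen x).IsTwoSided := ⟨by
  rintro _ c ⟨ι, _, k, u, w, rfl⟩
  exact ⟨ι, inferInstance, k, u, fun i => w i * c, by simp [sum_mul, mul_assoc]⟩⟩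

theorem mem_gen {R : Type*} [Ring R] {κ : Type*} (x : κ → R) (k : κ) : x k ∈ gen x :=
  ⟨Unit, inferInstance, fun _ => k, fun _ => 1, fun _ => 1, by simp⟩

theorem gen_le {R : Type*} [Ring R] {κ : Type*} {x : κ → R} {I : Ideal R} [I.IsTwoSided]
    (h : ∀ k, x k ∈ I) : gen x ≤ I := by
  rintro _ ⟨ι, _, k, u, w, rfl⟩
  exact I.sum_mem fun i _ => I.mul_mem_right _ (I.mul_mem_left _ (h _))

/-- a full element -/
def Full {R : Type*} [Ring R] (x : R) : Prop := (1 : R) ∈ gen fun _ : Unit => x

theorem Full.of_mem {R : Type*} [Ring R] {x : R} (h : Full x) {I : Ideal R} [I.IsTwoSided]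
    (hx : x ∈ I) : (1 : R) ∈ I := gen_le (fun _ => hx) h

theorem full_iff {R : Type*} [Ring R] {x : R} : Full x ↔
    ∃ (ι : Type) (_ : Fintype ι) (u w : ι → R), ∑ i, u i * x * w i = 1 :=
  ⟨fun ⟨ι, h, _, u, w, e⟩ => ⟨ι, h, u, w, e⟩, fun ⟨ι, h, u, w, e⟩ => ⟨ι, h, fun _ => (), u, w, e⟩⟩

theorem Full.map {x : D} (h : Full x) (φ : D →⋆ₐ[ℂ] B) : Full (φ x) := by
  obtain ⟨ι, _, u, w, e⟩ := full_iff.1 h
  exact full_iff.2 ⟨ι, inferInstance, fun i => φ (u i), fun i => φ (w i), by
    simp only [← map_mul, ← map_sum, e, map_one]⟩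

theorem self_mem_gen {R : Type*} [Ring R] (x : R) : x ∈ gen fun _ : Unit => x := mem_gen (fun _ : Unit => x) ()

theorem one_mem_of_near {I : Ideal B} {x : B} (hx : x ∈ I) (h : ‖1 - x‖ < 1) : (1 : B) ∈ I := by
  have := I.mul_mem_left ((Units.oneSub (1 - x) h)⁻¹ : Bˣ) hx
  rwa [show ((Units.oneSub (1 - x) h)⁻¹ : Bˣ) * x = 1 by
    have := (Units.oneSub (1 - x) h).inv_mul
    rwa [Units.val_oneSub, sub_sub_cancel] at this] at this

instance closure_twoSided (I : Ideal B) [I.IsTwoSided] : I.closure.IsTwoSided := ⟨fun {x} c hx =>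
  map_mem_closure (f := fun y => y * c) (by fun_prop) hx fun _ hy => I.mul_mem_right c hy⟩

theorem one_notMem_closure {I : Ideal B} (h : (1 : B) ∉ I) : (1 : B) ∉ I.closure := fun h1 => by
  obtain ⟨x, hx, h2⟩ := Metric.mem_closure_iff.1 h1 1 one_pos
  exact h (one_mem_of_near hx (by rwa [← dist_eq_norm]))

theorem exists_prime (I : Ideal B) [I.IsTwoSided] (h : (1 : B) ∉ I) :
    ∃ (M : Ideal B) (_ : M.IsTwoSided), I ≤ M ∧ (1 : B) ∉ M ∧ IsClosed (M : Set B) ∧
      ∀ a b, (∀ y, a * y * b ∈ M) → a ∈ M ∨ b ∈ M := by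
  obtain ⟨M, hIM, hM⟩ := zorn_le_nonempty₀ {J : Ideal B | J.IsTwoSided ∧ (1 : B) ∉ J}
    (fun c hc hch J hJ => ⟨sSup c, ⟨⟨fun {x} y hx => by
      obtain ⟨K, hK, hx⟩ := (Submodule.mem_sSup_of_directed ⟨J, hJ⟩ hch.directedOn).1 hx
      have := (hc hK).1
      exact (le_sSup hK : K ≤ _) (Ideal.mul_mem_right y K hx)⟩, fun h1 => by
      obtain ⟨K, hK, hx⟩ := (Submodule.mem_sSup_of_directed ⟨J, hJ⟩ hch.directedOn).1 h1
      exact (hc hK).2 hx⟩, fun _ hK => le_sSup hK⟩) I ⟨inferInstance, h⟩
  have := hM.prop.1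
  refine ⟨M, this, hIM, hM.prop.2, ?_, fun a b hab => ?_⟩
  · have e : M.closure ≤ M := hM.le_of_ge ⟨inferInstance, one_notMem_closure hM.prop.2⟩
      subset_closure
    exact isClosed_of_closure_subset e
  · let K : Ideal B :=
      { carrier := {x | ∀ y, x * y * b ∈ M}
        add_mem' := fun {x z} hx hz y => by
          rw [add_mul, add_mul]; exact M.add_mem (hx y) (hz y)
        zero_mem' := fun y => by simp
        smul_mem' := fun c x hx y => by
          rw [smul_eq_mul, mul_assoc c, mul_assoc c]; exact M.mul_mem_left c (hx y) }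
    by_cases h1 : (1 : B) ∈ K
    · right; simpa using h1 1
    · left
      refine hM.le_of_ge (y := K) ⟨⟨fun {x} c hx y => ?_⟩, h1⟩
        (fun x hx y => M.mul_mem_right _ (M.mul_mem_right _ hx)) hab
      rw [mul_assoc x]; exact hx _

theorem hom_cont (φ : D →⋆ₐ[ℂ] B) : Continuous φ :=
  AddMonoidHomClass.continuous_of_bound φ 1 fun x => by
    simpa using NonUnitalStarAlgHom.norm_apply_le φ x

theorem map_cfcR (φ : D →⋆ₐ[ℂ] B) {f : ℝ → ℝ} (hf : Continuous f) {a : D} (ha : IsSelfAdjoint a) :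
    φ (cfc f a) = cfc f (φ a) :=
  StarAlgHomClass.map_cfc φ f a hf.continuousOn (hom_cont φ) ha (ha.map φ)

theorem cfc_mul' {f g : ℝ → ℝ} (hf : Continuous f) (hg : Continuous g) (a : B) :
    cfc f a * cfc g a = cfc (fun t => f t * g t) a :=
  (cfc_mul f g a hf.continuousOn hg.continuousOn).symm

theorem cfc_sa (f : ℝ → ℝ) (a : B) : IsSelfAdjoint (cfc f a) := cfc_predicate f a

theorem eq_zero_of_star_mul {x : B} (h : star x * x = 0) : x = 0 :=
  (CStarRing.star_mul_self_eq_zero_iff x).1 h

/-- If `(S - θ) P = y P` with `y` small, functions of `S` living far from `θ` kill `P`. -/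
theorem vanish {S P y : B} (hS : IsSelfAdjoint S) {θ ρ : ℝ} {g : ℝ → ℝ} (hg : Continuous g)
    (hρ : ‖y‖ < ρ) (hgρ : ∀ t, g t ≠ 0 → ρ ≤ |t - θ|) (hy : Commute S y)
    (h : (S - algebraMap ℝ B θ) * P = y * P) : cfc g S * P = 0 := by
  have h0 : 0 < ρ := (norm_nonneg y).trans_lt hρ
  have hp : ∀ t : ℝ, 0 < max ((t - θ) ^ 2) (ρ ^ 2) := fun t => lt_max_of_lt_right (by positivity)
  let r : ℝ → ℝ := fun t => (t - θ) / max ((t - θ) ^ 2) (ρ ^ 2)
  have hr : Continuous r := Continuous.div (by fun_prop) (by fun_prop) fun t => (hp t).ne'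
  have e1 : S - algebraMap ℝ B θ = cfc (fun t => t - θ) S := by
    rw [cfc_sub _ _ S (by fun_prop) (by fun_prop), cfc_id' ℝ S, cfc_const θ S]
  have e2 : cfc r S * (cfc g S * (S - algebraMap ℝ B θ)) = cfc g S := by
    rw [e1, cfc_mul' hg (by fun_prop), cfc_mul' hr (by fun_prop)]
    refine cfc_congr fun t _ => ?_
    by_cases hg0 : g t = 0
    · simp [hg0]
    · have h1 := hgρ t hg0
      have h2 : ρ ^ 2 ≤ (t - θ) ^ 2 := by rw [← sq_abs (t - θ)]; gcongr
      have h3 : t - θ ≠ 0 := fun h => by rw [h, abs_zero] at h1; linarith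
      simp only [r, max_eq_left h2]
      field_simp
  have e3 : cfc g S * P = cfc r S * (y * (cfc g S * P)) := by
    rw [← mul_assoc y, ← (hy.cfc_real g).eq, mul_assoc, ← h, ← mul_assoc (cfc g S), ← mul_assoc, e2]
  have n1 : ‖cfc r S‖ ≤ 1 / ρ := norm_cfc_le (by positivity) fun t _ => by
    rw [Real.norm_eq_abs, abs_div, abs_of_pos (hp t), div_le_div_iff₀ (hp t) h0, one_mul]
    rcases le_total |t - θ| ρ with h1 | h1
    · exact le_max_of_le_right (by nlinarith)
    · exact le_max_of_le_left (by rw [← sq_abs]; nlinarith [abs_nonneg (t - θ)])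
  by_contra hne
  have hpos := norm_pos_iff.2 hne
  have n2 : ‖cfc g S * P‖ ≤ 1 / ρ * (‖y‖ * ‖cfc g S * P‖) := by
    conv_lhs => rw [e3]
    exact norm_mul_le_of_le n1 (norm_mul_le _ _)
  rw [one_div, inv_mul_eq_div, le_div_iff₀ h0] at n2
  nlinarith

/-- commuting copies of `D` in `B` -/
structure Sites (D : Type v) [CStarAlgebra D] (B : Type u) [CStarAlgebra B] (J : Type) where
  π : J → D →⋆ₐ[ℂ] B
  comm : ∀ i j, i ≠ j → ∀ x y, Commute (π i x) (π j y)

namespace Sites
variable {J : Type} [Fintype J] [DecidableEq J] (S : Sites D B J)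

/-- product of the copies -/
noncomputable def pr : (J → D) →* B :=
  MonoidHom.noncommPiCoprod (fun j => (S.π j : D →* B)) fun i j h x y => S.comm i j h x y

theorem pr_single (j : J) (x : D) : S.pr (Pi.mulSingle j x) = S.π j x :=
  MonoidHom.noncommPiCoprod_mulSingle (N := fun _ => D) (fun j => (S.π j : D →* B)) j x

theorem pr_update (a : J → D) (j : J) (x : D) :
    S.pr (Function.update a j x) = S.π j x * S.pr (Function.update a j 1) := by
  rw [← pr_single, ← map_mul]
  congr 1
  funext i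
  by_cases h : i = j
  · subst h; simp
  · simp [h]

/-- the product as a multilinear map -/
noncomputable def prm : MultilinearMap ℂ (fun _ : J => D) B :=
  MultilinearMap.mk' S.pr
    (fun a j x y => by rw [S.pr_update a j, S.pr_update a j x, S.pr_update a j y, map_add, add_mul])
    (fun a j c x => by rw [S.pr_update a j, S.pr_update a j x, map_smul, smul_mul_assoc])

theorem pr_sum {ι : Type} [Fintype ι] (a : J → ι → D) :
    S.pr (fun j => ∑ i, a j i) = ∑ w : J → ι, S.pr fun j => a j (w j) :=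
  S.prm.map_sum a

theorem pr_zero {a : J → D} (j : J) (h : a j = 0) : S.pr a = 0 := S.prm.map_coord_zero j h

omit [DecidableEq J] in
theorem pr_commute {a : J → D} {b : B} (h : ∀ j, Commute b (S.π j (a j))) : Commute b (S.pr a) :=
  Finset.noncommProd_commute _ _ (fun _ _ _ _ h => S.comm _ _ h _ _) _ fun j _ => h j

theorem pr_insert (a : J → D) {j : J} {s : Finset J} (hj : j ∉ s) :
    (S.pr fun i => if i ∈ insert j s then a i else 1) =
      S.π j (a j) * S.pr (fun i => if i ∈ s then a i else 1) ∧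
    (S.pr fun i => if i ∈ insert j s then a i else 1) =
      S.pr (fun i => if i ∈ s then a i else 1) * S.π j (a j) := by
  rw [← pr_single, ← map_mul, ← map_mul]
  constructor <;> congr 1 <;> funext i <;> by_cases h : i = j
  · subst h; simp [hj]
  · simp [h]
  · subst h; simp [hj]
  · simp [h]

theorem pr_star (a : J → D) : star (S.pr a) = S.pr (star a) := by
  have : ∀ s : Finset J, star (S.pr fun j => if j ∈ s then a j else 1) =
      S.pr fun j => if j ∈ s then (star a) j else 1 := by
    intro s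
    induction s using Finset.induction_on with
    | empty => simp [← Pi.one_def]
    | insert j s hj ih =>
      rw [(S.pr_insert a hj).1, (S.pr_insert (star a) hj).2, star_mul, ih, ← map_star]; rfl
  simpa only [mem_univ, if_true] using this univ

theorem pr_factor (a : J → D) (j : J) : ∃ c, S.pr a = c * S.π j (a j) := by
  refine ⟨S.pr (Function.update a j 1), ?_⟩
  rw [← pr_single, ← map_mul]
  congr 1
  funext i
  by_cases h : i = j
  · subst h; simp
  · simp [h]

theorem pr_full {a : J → D} (h : ∀ j, Full (a j)) : Full (S.pr a) := by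
  have h1 : ∀ s : Finset J, Full (S.pr fun j => if j ∈ s then a j else 1) := by
    intro s
    induction s using Finset.induction_on with
    | empty =>
      simp only [notMem_empty, if_false, ← Pi.one_def, map_one]
      exact self_mem_gen (1 : B)
    | insert j s hj ih =>
      refine ih.of_mem ?_
      obtain ⟨ι, _, u, w, e⟩ := full_iff.1 (h j)
      have : (S.pr fun i => if i ∈ s then a i else 1) = ∑ k, S.π j (u k) *
          (S.pr fun i => if i ∈ insert j s then a i else 1) * S.π j (w k) := by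
        have e2 := S.prm.map_update_sum univ j (fun k => u k * a j * w k)
          (fun i => if i ∈ s then a i else 1)
        rw [e, Function.update_eq_self_iff.2 (by simp [hj])] at e2
        refine e2.trans (sum_congr rfl fun k _ => ?_)
        rw [← pr_single, ← pr_single, ← map_mul, ← map_mul]
        change S.pr _ = _
        congr 1
        funext i
        by_cases h : i = j
        · subst h; simp
        · simp [h]
      rw [this]
      exact Ideal.sum_mem _ fun k _ => Ideal.mul_mem_right _ _ (Ideal.mul_mem_left _ _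
        (self_mem_gen _))
  simpa using h1 univ

end Sites

/-- index set of the pair trick -/
abbrev PairIdx (ι : Type) : Type := ι ⊕ (ι → ι)

/-- The pair trick. -/
theorem pair_trick {ι : Type} [Fintype ι] [DecidableEq ι] (S : Sites D B (PairIdx ι))
    (p : ι → D) (hp : ∑ k, p k = 1) (L : Ideal B)
    (h : ∀ (w : ι → ι) (i : ι), S.π (.inl i) (p (w i)) * S.π (.inr w) (p i) ∈ L) : (1 : B) ∈ L := by
  let S' : Sites D B ι := ⟨fun i => S.π (.inl i), fun i j hij => S.comm _ _ (by simpa using hij)⟩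
  have e := S'.pr_sum fun _ => p
  rw [hp, ← Pi.one_def, map_one] at e
  rw [e]
  refine L.sum_mem fun w _ => ?_
  rw [← mul_one (S'.pr _), ← map_one (S.π (.inr w)), ← hp, map_sum, mul_sum]
  refine L.sum_mem fun i _ => ?_
  obtain ⟨c, hc⟩ := S'.pr_factor (fun j => p (w j)) i
  rw [hc, mul_assoc]
  exact L.mul_mem_left _ (h w i)

end Vale.Agent.P101
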