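import Vale.Agent.P101.JDefs
import Vale.Agent.P101.Tools
import Vale.Agent.P101.Quot

/-! Internal notions for the half flip of the Jiang-Su algebra. -/

namespace Vale.Agent.P101.JS
open Filter Topology TopologicalSpace
open scoped TensorProduct Kronecker Matrix.Norms.L2Operator

universe u

/-- Matrices of size `p q`. -/
abbrev Mat (p q : ℕ) : Type := Matrix (Fin p × Fin q) (Fin p × Fin q) ℂ

/-- The closed star subalgebra generated by a set. -/
abbrev Gen {F : Type*} [CStarAlgebra F] (T : Set F) : StarSubalgebra ℂ F :=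
  (StarAlgebra.adjoin ℂ T).topologicalClosure

instance gen_closed {F : Type*} [CStarAlgebra F] (T : Set F) : IsClosed (Gen T : Set F) :=
  StarSubalgebra.isClosed_topologicalClosure _

/-- The star homomorphism on the algebraic tensor product defined by two commuting star
homomorphisms. -/
noncomputable def starLift {A B C : Type*} [Ring A] [Algebra ℂ A] [StarRing A] [StarModule ℂ A]
    [Ring B] [Algebra ℂ B] [StarRing B] [StarModule ℂ B] [Ring C] [Algebra ℂ C] [StarRing C]
    [StarModule ℂ C] (f : A →⋆ₐ[ℂ] C) (g : B →⋆ₐ[ℂ] C) (h : ∀ a b, Commute (f a) (g b)) :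
    A ⊗[ℂ] B →⋆ₐ[ℂ] C :=
  { Algebra.TensorProduct.lift f.toAlgHom g.toAlgHom h with
    map_star' := fun x => by
      change Algebra.TensorProduct.lift f.toAlgHom g.toAlgHom h (star x) =
        star (Algebra.TensorProduct.lift f.toAlgHom g.toAlgHom h x)
      induction x with
      | zero => simp
      | tmul a b =>
        rw [TensorProduct.star_tmul, Algebra.TensorProduct.lift_tmul,
          Algebra.TensorProduct.lift_tmul, star_mul]
        change f (star a) * g (star b) = star (g b) * star (f a)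
        rw [← map_star, ← map_star]
        exact h _ _
      | add x y hx hy => rw [star_add, map_add, map_add, hx, hy, star_add] }

@[simp] lemma starLift_tmul {A B C : Type*} [Ring A] [Algebra ℂ A] [StarRing A] [StarModule ℂ A]
    [Ring B] [Algebra ℂ B] [StarRing B] [StarModule ℂ B] [Ring C] [Algebra ℂ C] [StarRing C]
    [StarModule ℂ C] (f : A →⋆ₐ[ℂ] C) (g : B →⋆ₐ[ℂ] C) (h : ∀ a b, Commute (f a) (g b))
    (a : A) (b : B) : starLift f g h (a ⊗ₜ b) = f a * g b := rfl

/-- Any two commuting unital copies of `Z` are approximately unitarily equivalent. -/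
def MaxFlip (Z : Type u) [CStarAlgebra Z] : Prop :=
  ∀ (E : Type u) [CStarAlgebra E] (β γ : Z →⋆ₐ[ℂ] E), (∀ x y, Commute (β x) (γ y)) →
    ∀ (s : Finset Z) (ε : ℝ), 0 < ε →
      ∃ v ∈ unitary E, ∀ z ∈ s, ‖v * β z * star v - γ z‖ < ε

/-! ### Dimension drop algebras -/

lemma isClosed_range_linear {V W : Type*} [NormedAddCommGroup V] [NormedSpace ℂ V]
    [FiniteDimensional ℂ V] [NormedAddCommGroup W] [NormedSpace ℂ W] (L : V →ₗ[ℂ] W) :
    IsClosed (Set.range L) :=
  (LinearMap.range L).closed_of_finiteDimensional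

instance dimDrop_closed (p q : ℕ) :
    IsClosed (DimDrop p q : Set C(unitInterval, Mat p q)) := by
  have h0 := (isClosed_range_linear ((Matrix.kroneckerBilinear (R := ℂ) (α := ℂ)
    (l := Fin p) (m := Fin p) (n := Fin q) (p := Fin q)).flip 1)).preimage
      (continuous_eval_const (0 : unitInterval) : Continuous fun f : C(unitInterval, Mat p q) => f 0)
  have h1 := (isClosed_range_linear ((Matrix.kroneckerBilinear (R := ℂ) (α := ℂ)
    (l := Fin p) (m := Fin p) (n := Fin q) (p := Fin q)) 1)).preimage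
      (continuous_eval_const (1 : unitInterval) : Continuous fun f : C(unitInterval, Mat p q) => f 1)
  convert h0.inter h1 using 1
  ext f
  exact ⟨fun ⟨⟨x, hx⟩, y, hy⟩ => ⟨⟨x, hx.symm⟩, y, hy.symm⟩,
    fun ⟨⟨x, hx⟩, y, hy⟩ => ⟨⟨x, hx.symm⟩, y, hy.symm⟩⟩

noncomputable instance dimDropCStar (p q : ℕ) : CStarAlgebra (DimDrop p q) :=
  StarSubalgebra.cstarAlgebra _

lemma mem_dimDrop {p q : ℕ} {f : C(unitInterval, Mat p q)} : f ∈ DimDrop p q ↔
    (∃ x : Matrix (Fin p) (Fin p) ℂ, f 0 = x ⊗ₖ (1 : Matrix (Fin q) (Fin q) ℂ)) ∧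
      ∃ y : Matrix (Fin q) (Fin q) ℂ, f 1 = (1 : Matrix (Fin p) (Fin p) ℂ) ⊗ₖ y := Iff.rfl

/-- Evaluation at a point of the interval. -/
noncomputable def ev (p q : ℕ) (t : unitInterval) : DimDrop p q →⋆ₐ[ℂ] Mat p q :=
  { toFun := fun f => f.1 t
    map_one' := rfl
    map_mul' := fun _ _ => rfl
    map_zero' := rfl
    map_add' := fun _ _ => rfl
    commutes' := fun c => by simp [Algebra.algebraMap_eq_smul_one]
    map_star' := fun _ => rfl }

@[simp] lemma ev_apply {p q : ℕ} (t : unitInterval) (f : DimDrop p q) : ev p q t f = f.1 t := rfl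

/-- The scalar valued functions, as central elements of the dimension drop algebra. -/
noncomputable def scal (p q : ℕ) : C(unitInterval, ℂ) →⋆ₐ[ℂ] DimDrop p q :=
  { toFun := fun g => ⟨⟨fun t => g t • (1 : Mat p q), by fun_prop⟩,
      ⟨g 0 • 1, by simp [Matrix.smul_kronecker]⟩, g 1 • 1, by simp [Matrix.kronecker_smul]⟩
    map_one' := by ext; simp
    map_mul' := fun _ _ => Subtype.ext (ContinuousMap.ext fun t => by simp [smul_smul, mul_comm])
    map_zero' := by ext; simp
    map_add' := fun _ _ => Subtype.ext (ContinuousMap.ext fun t => by simp [add_smul])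
    commutes' := fun c => Subtype.ext (ContinuousMap.ext fun t => by
      simp [Algebra.algebraMap_eq_smul_one])
    map_star' := fun _ => Subtype.ext (ContinuousMap.ext fun t => by simp) }

@[simp] lemma scal_apply {p q : ℕ} (g : C(unitInterval, ℂ)) (t : unitInterval) :
    (scal p q g).1 t = g t • (1 : Mat p q) := rfl

/-- The coordinate function of the unit interval. -/
def coord : C(unitInterval, ℂ) := ⟨fun t => ((t : ℝ) : ℂ), by fun_prop⟩

@[simp] lemma coord_apply (t : unitInterval) : coord t = ((t : ℝ) : ℂ) := rfl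

/-- The value at `0`, as a `p × p` matrix. -/
noncomputable def left (p q : ℕ) [NeZero q] :
    DimDrop p q →⋆ₐ[ℂ] Matrix (Fin p) (Fin p) ℂ :=
  have key : ∀ (f : DimDrop p q) (x : Matrix (Fin p) (Fin p) ℂ),
      f.1 0 = x ⊗ₖ (1 : Matrix (Fin q) (Fin q) ℂ) →
        (Matrix.of fun i j => f.1 0 (i, 0) (j, 0)) = x := fun f x h => by
    ext i j; simp [h]
  { toFun := fun f => Matrix.of fun i j => f.1 0 (i, 0) (j, 0)
    map_one' := key 1 1 (by simp)
    map_mul' := fun f g => by
      obtain ⟨x, hx⟩ := f.2.1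
      obtain ⟨y, hy⟩ := g.2.1
      rw [key f x hx, key g y hy]
      exact key (f * g) (x * y) (by simp [hx, hy, ← Matrix.mul_kronecker_mul])
    map_zero' := rfl
    map_add' := fun _ _ => rfl
    commutes' := fun c => key _ _ (by simp [Algebra.algebraMap_eq_smul_one, Matrix.smul_kronecker])
    map_star' := fun _ => rfl }

lemma left_spec {p q : ℕ} [NeZero q] (f : DimDrop p q) :
    f.1 0 = left p q f ⊗ₖ (1 : Matrix (Fin q) (Fin q) ℂ) := by
  obtain ⟨x, hx⟩ := f.2.1
  have : left p q f = x := by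
    ext i j
    change f.1 0 (i, 0) (j, 0) = x i j
    simp [hx]
  rw [this, hx]

/-- The value at `1`, as a `q × q` matrix. -/
noncomputable def right (p q : ℕ) [NeZero p] :
    DimDrop p q →⋆ₐ[ℂ] Matrix (Fin q) (Fin q) ℂ :=
  have key : ∀ (f : DimDrop p q) (x : Matrix (Fin q) (Fin q) ℂ),
      f.1 1 = (1 : Matrix (Fin p) (Fin p) ℂ) ⊗ₖ x →
        (Matrix.of fun i j => f.1 1 (0, i) (0, j)) = x := fun f x h => by
    ext i j; simp [h]
  { toFun := fun f => Matrix.of fun i j => f.1 1 (0, i) (0, j)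
    map_one' := key 1 1 (by simp)
    map_mul' := fun f g => by
      obtain ⟨x, hx⟩ := f.2.2
      obtain ⟨y, hy⟩ := g.2.2
      rw [key f x hx, key g y hy]
      exact key (f * g) (x * y) (by simp [hx, hy, ← Matrix.mul_kronecker_mul])
    map_zero' := rfl
    map_add' := fun _ _ => rfl
    commutes' := fun c => key _ _ (by simp [Algebra.algebraMap_eq_smul_one, Matrix.kronecker_smul])
    map_star' := fun _ => rfl }

lemma right_spec {p q : ℕ} [NeZero p] (f : DimDrop p q) :
    f.1 1 = (1 : Matrix (Fin p) (Fin p) ℂ) ⊗ₖ right p q f := by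
  obtain ⟨x, hx⟩ := f.2.2
  have : right p q f = x := by
    ext i j
    change f.1 1 (0, i) (0, j) = x i j
    simp [hx]
  rw [this, hx]

/-- A set of elements of the dimension drop algebra that are almost constant up to a path of
unitaries starting at the identity. -/
def Flat {p q : ℕ} (G : Set (DimDrop p q)) (ε : ℝ) : Prop :=
  ∃ V : C(unitInterval, Mat p q), (∀ t, V t ∈ unitary (Mat p q)) ∧ V 0 = 1 ∧
    ∀ g ∈ G, ∀ t, ‖g.1 t - V t * g.1 0 * star (V t)‖ ≤ ε

/-- Finite sets are approximated by flat sets in unital images of dimension drop algebras. -/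
def LocFlat (Z : Type u) [CStarAlgebra Z] : Prop :=
  ∀ (s : Finset Z) (ε : ℝ), 0 < ε → ∃ (p q : ℕ) (ψ : DimDrop p q →⋆ₐ[ℂ] Z)
    (g : Z → DimDrop p q), 0 < p ∧ 0 < q ∧ (∀ z ∈ s, ‖ψ (g z) - z‖ < ε) ∧ Flat (g '' s) ε

end Vale.Agent.P101.JS
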