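import Vale.Agent.P101.JSqDefs

/-! One-parameter groups through symmetries and approximate intertwiners. -/

namespace Vale.Agent.P101.JS
open Complex

section
variable {R : Type*} [CStarAlgebra R]

/-- The one-parameter unitary group through a symmetry. -/
noncomputable def pw (σ : R) (r : ℝ) : R :=
  ((1 + exp (Real.pi * I * r)) / 2) • (1 : R) + ((1 - exp (Real.pi * I * r)) / 2) • σ

lemma pw_zero (σ : R) : pw σ 0 = 1 := by simp [pw]

lemma pw_one (σ : R) : pw σ 1 = σ := by simp [pw]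

lemma pw_neg_one (σ : R) : pw σ (-1) = σ := by simp [pw, exp_neg]

lemma pw_add {σ : R} (h : σ * σ = 1) (r r' : ℝ) : pw σ r * pw σ r' = pw σ (r + r') := by
  simp only [pw, add_mul, mul_add, smul_mul_assoc, mul_smul_comm, one_mul, mul_one, h,
    ofReal_add, exp_add]
  module

lemma star_pw {σ : R} (h : star σ = σ) (r : ℝ) : star (pw σ r) = pw σ (-r) := by
  have : star (exp (Real.pi * I * r)) = exp (Real.pi * I * (-r : ℝ)) := by
    rw [Complex.star_def, ← exp_conj]; simp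
  simp only [pw, star_add, star_smul, star_one, h, star_div₀, star_sub, this, star_ofNat]

lemma pw_unitary {σ : R} (h : σ * σ = 1) (h' : star σ = σ) (r : ℝ) : pw σ r ∈ unitary R :=
  ⟨by rw [star_pw h', pw_add h, neg_add_cancel, pw_zero],
    by rw [star_pw h', pw_add h, add_neg_cancel, pw_zero]⟩

lemma commute_pw {σ a : R} (h : Commute σ a) (r : ℝ) : Commute (pw σ r) a :=
  ((Commute.one_left a).smul_left _).add_left (h.smul_left _)

lemma pw_mem {σ : R} {S : StarSubalgebra ℂ R} (h : σ ∈ S) (r : ℝ) : pw σ r ∈ S :=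
  add_mem (S.smul_mem (one_mem S) _) (S.smul_mem h _)

@[fun_prop] lemma continuous_pw (σ : R) {X : Type*} [TopologicalSpace X] {f : X → ℝ}
    (hf : Continuous f) : Continuous fun x => pw σ (f x) := by
  unfold pw
  fun_prop

/-- `u` is a unitary that conjugates `a` to `b` up to `ε`. -/
def Tw (ε : ℝ) (u a b : R) : Prop := u ∈ unitary R ∧ ‖u * a * star u - b‖ ≤ ε

lemma norm_conj {u : R} (hu : u ∈ unitary R) (x : R) : ‖u * x * star u‖ = ‖x‖ := by
  rw [CStarRing.norm_mul_mem_unitary _ (Unitary.star_mem hu), CStarRing.norm_mem_unitary_mul _ hu]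

lemma Tw.mul {ε δ : ℝ} {u v a b c : R} (hu : Tw δ u b c) (hv : Tw ε v a b) :
    Tw (δ + ε) (u * v) a c := by
  refine ⟨mul_mem hu.1 hv.1, ?_⟩
  have : u * v * a * star (u * v) - c =
      (u * b * star u - c) + u * (v * a * star v - b) * star u := by
    rw [star_mul]; noncomm_ring
  rw [this]
  exact (norm_add_le _ _).trans (add_le_add hu.2 ((norm_conj hu.1 _).trans_le hv.2))

lemma Tw.symm {ε : ℝ} {u a b : R} (h : Tw ε u a b) : Tw ε (star u) b a := by
  refine ⟨Unitary.star_mem h.1, ?_⟩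
  have : star u * b * star (star u) - a = -(star u * (u * a * star u - b) * star (star u)) := by
    have h1 : star u * u = 1 := h.1.1
    rw [star_star]
    calc _ = star u * b * u - (star u * u) * a * (star u * u) := by rw [h1, one_mul, mul_one]
      _ = _ := by noncomm_ring
  rw [this, norm_neg, norm_conj (Unitary.star_mem h.1)]
  exact h.2

lemma tw_of_eq {u a b : R} (hu : u ∈ unitary R) (h : u * a = b * u) : Tw 0 u a b :=
  ⟨hu, by rw [h, mul_assoc, hu.2, mul_one, sub_self, norm_zero]⟩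

lemma Tw.map {R' : Type*} [CStarAlgebra R'] (f : R →⋆ₐ[ℂ] R') {ε : ℝ} {u a b : R}
    (h : Tw ε u a b) : Tw ε (f u) (f a) (f b) := by
  refine ⟨⟨by rw [← map_star, ← map_mul, h.1.1, map_one],
    by rw [← map_star, ← map_mul, h.1.2, map_one]⟩, ?_⟩
  rw [← map_star, ← map_mul, ← map_mul, ← map_sub]
  exact (NonUnitalStarAlgHom.norm_apply_le f _).trans h.2

lemma Tw.of_near {ε : ℝ} {u a b : R} (hu : u ∈ unitary R) (h : ‖b - u * a * star u‖ ≤ ε) :
    Tw ε u a b := ⟨hu, by rwa [norm_sub_rev]⟩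

/-- The data entering the explicit unitary. -/
structure Legs (R : Type*) [CStarAlgebra R] where
  σ : R
  τ : R
  P : R
  Q : R
  σσ : σ * σ = 1
  ττ : τ * τ = 1
  σs : star σ = σ
  τs : star τ = τ
  στ : Commute σ τ
  Qu : Q ∈ unitary R
  Pu : P ∈ unitary R
  flip : σ * P * σ = τ * Q * τ

namespace Legs
variable (L : Legs R)

/-- The conjugated group. -/
noncomputable def X (r : ℝ) : R := star L.Q * pw L.σ r * L.Q

/-- The middle part of the unitary. -/
noncomputable def mid (s t : ℝ) : R :=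
  L.X (-t) * pw L.τ (t * (s - 1)) * L.X (t * s) * pw L.τ t * star (L.τ * L.Q * L.τ) *
    pw L.σ (1 - s) * L.P

lemma X_zero : L.X 0 = 1 := by rw [X, pw_zero, mul_one, L.Qu.1]

lemma X_add (r r' : ℝ) : L.X r * L.X r' = L.X (r + r') := by
  rw [X, X, X, ← pw_add L.σσ]
  calc _ = star L.Q * pw L.σ r * (L.Q * star L.Q) * pw L.σ r' * L.Q := by noncomm_ring
    _ = _ := by rw [L.Qu.2]; noncomm_ring

lemma star_V : star (L.τ * L.Q * L.τ) = L.τ * star L.Q * L.τ := by
  rw [star_mul, star_mul, L.τs, mul_assoc]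

lemma τ_unitary : L.τ ∈ unitary R := ⟨by rw [L.τs, L.ττ], by rw [L.τs, L.ττ]⟩

lemma σ_unitary : L.σ ∈ unitary R := ⟨by rw [L.σs, L.σσ], by rw [L.σs, L.σσ]⟩

lemma V_unitary : L.τ * L.Q * L.τ ∈ unitary R := mul_mem (mul_mem L.τ_unitary L.Qu) L.τ_unitary

lemma σP : L.σ * L.P = L.τ * L.Q * L.τ * L.σ := by rw [← L.flip, mul_assoc, L.σσ, mul_one]

lemma mid_left (t : ℝ) : L.mid 0 t = L.X (-t) * L.σ := by
  have h1 : pw L.τ (t * (0 - 1)) * pw L.τ t = 1 := by
    rw [pw_add L.ττ, show t * (0 - 1) + t = 0 by ring, pw_zero]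
  have h2 := L.V_unitary.1
  rw [mid, mul_zero, X_zero, mul_one, sub_zero, pw_one]
  calc _ = L.X (-t) * (pw L.τ (t * (0 - 1)) * pw L.τ t) * star (L.τ * L.Q * L.τ) *
        (L.σ * L.P) := by noncomm_ring
    _ = L.X (-t) * (star (L.τ * L.Q * L.τ) * (L.τ * L.Q * L.τ)) * L.σ := by
        rw [h1, σP]; noncomm_ring
    _ = _ := by rw [h2, mul_one]

lemma mid_right (t : ℝ) : L.mid 1 t = pw L.τ t * star (L.τ * L.Q * L.τ) * L.P := by
  rw [mid, sub_self, mul_zero, pw_zero, pw_zero, mul_one, mul_one, mul_one, X_add, neg_add_cancel,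
    X_zero, one_mul]

lemma mid_bot (s : ℝ) : L.mid s 0 = star (L.τ * L.Q * L.τ) * pw L.σ (1 - s) * L.P := by
  simp only [mid, neg_zero, zero_mul, X_zero, pw_zero, one_mul]

lemma mid_top (s : ℝ) : L.Q * L.mid s 1 = L.σ * L.Q * L.σ * pw L.τ s := by
  have h1 : pw L.σ s * L.τ * pw L.σ (1 - s) = L.τ * L.σ := by
    rw [(commute_pw L.στ s).eq, mul_assoc, pw_add L.σσ, add_sub_cancel, pw_one]
  have h2 : pw L.τ (s - 1) * L.τ = pw L.τ s := by
    conv_lhs => rw [← pw_one L.τ, pw_one L.τ, show pw L.τ (s - 1) * L.τ =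
      pw L.τ (s - 1) * pw L.τ 1 by rw [pw_one], pw_add L.ττ, sub_add_cancel]
  have h3 := (commute_pw L.στ.symm s).eq
  rw [mid, star_V, X, X, pw_neg_one, one_mul, one_mul, pw_one]
  calc _ = (L.Q * star L.Q) * L.σ * L.Q * pw L.τ (s - 1) * star L.Q * pw L.σ s *
        (L.Q * (L.τ * L.τ) * star L.Q) * L.τ * pw L.σ (1 - s) * L.P := by noncomm_ring
    _ = L.σ * L.Q * pw L.τ (s - 1) * star L.Q * (pw L.σ s * L.τ * pw L.σ (1 - s)) * L.P := by
        rw [L.ττ, mul_one, L.Qu.2]; noncomm_ring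
    _ = L.σ * L.Q * pw L.τ (s - 1) * star L.Q * L.τ * (L.σ * L.P) := by rw [h1]; noncomm_ring
    _ = L.σ * L.Q * pw L.τ (s - 1) * (star L.Q * (L.τ * L.τ) * L.Q) * L.τ * L.σ := by
        rw [σP]; noncomm_ring
    _ = L.σ * L.Q * (pw L.τ (s - 1) * L.τ * L.σ) := by rw [L.ττ, mul_one, L.Qu.1]; noncomm_ring
    _ = _ := by rw [h2, h3]; noncomm_ring

@[fun_prop] lemma continuous_mid {Y : Type*} [TopologicalSpace Y] {f g : Y → ℝ}
    (hf : Continuous f) (hg : Continuous g) : Continuous fun y => L.mid (f y) (g y) := by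
  unfold mid X
  fun_prop

/-- The middle part conjugates the first leg to the third leg. -/
lemma tw_mid {ε : ℝ} {a₁ b₂ a₃ b₄ : R} (hP : Tw ε L.P a₁ b₂) (hQ : Tw ε L.Q a₃ b₄)
    (h₂ : Commute L.σ b₂) (h₄ : Commute L.σ b₄) (h₃ : Commute L.τ a₃) (h : L.τ * b₄ = b₂ * L.τ)
    (s t : ℝ) : Tw (6 * ε) (L.mid s t) a₁ a₃ := by
  have hσ : ∀ {b} (_ : Commute L.σ b) r, Tw 0 (pw L.σ r) b b := fun hb r =>
    tw_of_eq (pw_unitary L.σσ L.σs r) (commute_pw hb r).eq
  have hτ : ∀ r, Tw 0 (pw L.τ r) a₃ a₃ := fun r =>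
    tw_of_eq (pw_unitary L.ττ L.τs r) (commute_pw h₃ r).eq
  have hX : ∀ r, Tw (ε + 0 + ε) (L.X r) a₃ a₃ := fun r => (hQ.symm.mul (hσ h₄ r)).mul hQ
  have hV := (((tw_of_eq L.τ_unitary h).mul hQ).mul (tw_of_eq L.τ_unitary h₃.eq)).symm
  have := (((((((hX (-t)).mul (hτ (t * (s - 1)))).mul (hX (t * s))).mul (hτ t)).mul hV).mul
    (hσ h₂ (1 - s))).mul hP)
  exact ⟨this.1, this.2.trans (le_of_eq (by ring))⟩

lemma mid_unitary (s t : ℝ) : L.mid s t ∈ unitary R :=
  (L.tw_mid (ε := 0) (a₁ := 1) (b₂ := 1) (a₃ := 1) (b₄ := 1) (tw_of_eq L.Pu (by simp))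
    (tw_of_eq L.Qu (by simp)) (Commute.one_right _) (Commute.one_right _) (Commute.one_right _)
    (by simp) s t).1

end Legs
end

end Vale.Agent.P101.JS
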