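import Vale.Agent.P101.JStdDefs
import Vale.Agent.P101.JSqFlipA

/-! A flattening embedding between prime dimension drop algebras. -/

namespace Vale.Agent.P101.JS
open scoped Kronecker Matrix.Norms.L2Operator

lemma perm_path {n : Type} [Fintype n] [DecidableEq n] (σ : Equiv.Perm n) :
    ∃ V : C(unitInterval, Matrix n n ℂ), (∀ t, V t ∈ unitary (Matrix n n ℂ)) ∧ V 0 = 1 ∧
      ∀ x, V 1 * x * star (V 1) = Matrix.reindex σ σ x := by
  induction σ using Equiv.Perm.swap_induction_on with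
  | one => exact ⟨1, fun _ => one_mem _, rfl, fun x => by simp [Equiv.Perm.one_def]⟩
  | swap_mul f a b _ ih =>
    obtain ⟨V, h1, h2, h3⟩ := ih
    let s : Matrix n n ℂ := (Equiv.swap a b).toPEquiv.toMatrix
    have s1 : s * s = 1 := by
      rw [← PEquiv.toMatrix_trans, ← Equiv.toPEquiv_trans]; simp
    have s2 : star s = s := by
      ext i j
      simp only [s, Matrix.star_apply, PEquiv.toMatrix_apply, Equiv.toPEquiv_apply,
        Option.mem_def, Option.some.injEq, Equiv.swap_apply_eq_iff (z := j), eq_comm (a := j)]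
      split_ifs <;> simp
    refine ⟨⟨fun t => pw s t * V t, by fun_prop⟩, fun t => mul_mem (pw_unitary s1 s2 _) (h1 t),
      by simp [pw_zero, h2], fun x => ?_⟩
    have : s * V 1 * x * star (s * V 1) = s * (V 1 * x * star (V 1)) * s := by
      rw [star_mul, s2]; simp only [mul_assoc]
    simp only [ContinuousMap.coe_mk, Set.Icc.coe_one, pw_one]
    rw [this, h3, PEquiv.toMatrix_toPEquiv_mul, PEquiv.mul_toMatrix_toPEquiv]
    rfl

lemma left_form {p q p' q' : ℕ} {A L : Type} [Fintype A] [DecidableEq A] [Fintype L] [DecidableEq L]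
    (h1 : Fintype.card (((Fin p × Fin q) × A) ⊕ Fin p) = p') (h2 : Fintype.card (Fin q × L) = q') :
    ∃ E : (Fin p × Fin q) × (Option (A × Fin q) × L) ≃ Fin p' × Fin q',
      ∀ (G : A → Mat p q) (x : Matrix (Fin p) (Fin p) ℂ), ∃ y : Matrix (Fin p') (Fin p') ℂ,
        Matrix.reindex E E (Matrix.blockDiagonal fun m => m.1.elim (x ⊗ₖ 1) fun a => G a.1) =
          y ⊗ₖ (1 : Matrix (Fin q') (Fin q') ℂ) := by
  let E0 : (Fin p × Fin q) × (Option (A × Fin q) × L) ≃
      (((Fin p × Fin q) × A) ⊕ Fin p) × (Fin q × L) :=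
    { toFun := fun z => z.2.1.elim (.inr z.1.1, (z.1.2, z.2.2)) fun a => (.inl (z.1, a.1), (a.2, z.2.2))
      invFun := fun z => z.1.elim (fun a => (a.1, (some (a.2, z.2.1), z.2.2)))
        fun u => ((u, z.2.1), (none, z.2.2))
      left_inv := by rintro ⟨⟨u, v⟩, _ | ⟨a, c⟩, j⟩ <;> rfl
      right_inv := by rintro ⟨⟨z, a⟩ | u, c, j⟩ <;> rfl }
  let e1 := Fintype.equivFinOfCardEq h1
  let e2 := Fintype.equivFinOfCardEq h2
  refine ⟨E0.trans (e1.prodCongr e2), fun G x => ⟨Matrix.reindex e1 e1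
    (Matrix.fromBlocks (Matrix.blockDiagonal G) 0 0 x), ?_⟩⟩
  ext ⟨i, j⟩ ⟨i', j'⟩
  obtain ⟨i, rfl⟩ := e1.surjective i
  obtain ⟨i', rfl⟩ := e1.surjective i'
  obtain ⟨⟨c, j⟩, rfl⟩ := e2.surjective j
  obtain ⟨⟨c', j'⟩, rfl⟩ := e2.surjective j'
  rcases i with ⟨z, a⟩ | u <;> rcases i' with ⟨z', a'⟩ | u' <;>
    simp [E0, Matrix.blockDiagonal_apply, Matrix.one_apply, ite_and]
  all_goals split_ifs <;> rfl

lemma right_form {p q p' q' : ℕ} {A L : Type} [Fintype A] [DecidableEq A] [Fintype L]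
    [DecidableEq L] (h1 : Fintype.card (Fin p × L) = p')
    (h2 : Fintype.card (((Fin p × Fin q) × A) ⊕ Fin q) = q') :
    ∃ E : (Fin p × Fin q) × (Option (A × Fin p) × L) ≃ Fin p' × Fin q',
      ∀ (G : A → Mat p q) (x : Matrix (Fin q) (Fin q) ℂ), ∃ y : Matrix (Fin q') (Fin q') ℂ,
        Matrix.reindex E E (Matrix.blockDiagonal fun m => m.1.elim (1 ⊗ₖ x) fun a => G a.1) =
          (1 : Matrix (Fin p') (Fin p') ℂ) ⊗ₖ y := by
  let E0 : (Fin p × Fin q) × (Option (A × Fin p) × L) ≃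
      (Fin p × L) × (((Fin p × Fin q) × A) ⊕ Fin q) :=
    { toFun := fun z => z.2.1.elim ((z.1.1, z.2.2), .inr z.1.2) fun a => ((a.2, z.2.2), .inl (z.1, a.1))
      invFun := fun z => z.2.elim (fun a => (a.1, (some (a.2, z.1.1), z.1.2)))
        fun u => ((z.1.1, u), (none, z.1.2))
      left_inv := by rintro ⟨⟨u, v⟩, _ | ⟨a, c⟩, j⟩ <;> rfl
      right_inv := by rintro ⟨⟨c, j⟩, ⟨z, a⟩ | u⟩ <;> rfl }
  let e1 := Fintype.equivFinOfCardEq h1
  let e2 := Fintype.equivFinOfCardEq h2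
  refine ⟨E0.trans (e1.prodCongr e2), fun G x => ⟨Matrix.reindex e2 e2
    (Matrix.fromBlocks (Matrix.blockDiagonal G) 0 0 x), ?_⟩⟩
  ext ⟨j, i⟩ ⟨j', i'⟩
  obtain ⟨i, rfl⟩ := e2.surjective i
  obtain ⟨i', rfl⟩ := e2.surjective i'
  obtain ⟨⟨c, j⟩, rfl⟩ := e1.surjective j
  obtain ⟨⟨c', j'⟩, rfl⟩ := e1.surjective j'
  rcases i with ⟨z, a⟩ | u <;> rcases i' with ⟨z', a'⟩ | u' <;>
    simp [E0, Matrix.blockDiagonal_apply, Matrix.one_apply, ite_and]
  all_goals split_ifs <;> rfl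

lemma build {p q p' q' : ℕ} {T : Type} [Fintype T] [DecidableEq T]
    (ζ : T → C(unitInterval, unitInterval)) (E₀ E₁ : (Fin p × Fin q) × T ≃ Fin p' × Fin q')
    (h₀ : ∀ f : DimDrop p q, ∃ y : Matrix (Fin p') (Fin p') ℂ, Matrix.reindex E₀ E₀
      (Matrix.blockDiagonal fun m => f.1 (ζ m 0)) = y ⊗ₖ (1 : Matrix (Fin q') (Fin q') ℂ))
    (h₁ : ∀ f : DimDrop p q, ∃ y : Matrix (Fin q') (Fin q') ℂ, Matrix.reindex E₁ E₁
      (Matrix.blockDiagonal fun m => f.1 (ζ m 1)) = (1 : Matrix (Fin p') (Fin p') ℂ) ⊗ₖ y)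
    (hs : ∀ t, ∃ m s, ζ m s = t) :
    ∃ φ : DimDrop p q →⋆ₐ[ℂ] DimDrop p' q', Function.Injective φ ∧
      ∀ (F : Set (DimDrop p q)) (ε : ℝ), 0 ≤ ε →
        (∀ f ∈ F, ∀ m s, ‖f.1 (ζ m s) - f.1 (ζ m 0)‖ ≤ ε) → Flat (φ '' F) ε := by
  obtain ⟨V, hV, V0, V1⟩ := perm_path (E₀.symm.trans E₁)
  let R : (T → Mat p q) →⋆ₐ[ℂ] Mat p' q' := (reindexStar E₀).toStarAlgHom.comp (blockPi _ _)
  have hR := hom_cont R
  have hRi : Function.Injective R :=
    (reindexStar E₀).injective.comp Matrix.blockDiagonal_injective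
  let ρ : unitInterval → DimDrop p q →⋆ₐ[ℂ] Mat p' q' := fun s => R.comp (evPi p q fun m => ζ m s)
  let φ : DimDrop p q →⋆ₐ[ℂ] DimDrop p' q' :=
    { toFun := fun f => ⟨⟨fun s => V s * ρ s f * star (V s),
        (V.continuous.mul (hR.comp (continuous_pi fun m =>
          f.1.continuous.comp (ζ m).continuous))).mul V.continuous.star⟩, by
          obtain ⟨y, hy⟩ := h₀ f
          refine ⟨y, Eq.trans ?_ hy⟩
          change V 0 * _ * star (V 0) = _
          rw [V0, star_one, one_mul, mul_one]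
          rfl, by
          obtain ⟨y, hy⟩ := h₁ f
          refine ⟨y, (V1 _).trans (Eq.trans ?_ hy)⟩
          ext i j
          simp [ρ, R]
          rfl⟩
      map_one' := Subtype.ext (ContinuousMap.ext fun s => by simpa using (hV s).2)
      map_mul' := fun f g => Subtype.ext (ContinuousMap.ext fun s => by
        change V s * ρ s (f * g) * star (V s) =
          V s * ρ s f * star (V s) * (V s * ρ s g * star (V s))
        simp only [map_mul, mul_assoc]
        rw [← mul_assoc (star (V s)), (hV s).1, one_mul])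
      map_zero' := Subtype.ext (ContinuousMap.ext fun s => by simp)
      map_add' := fun f g => Subtype.ext (ContinuousMap.ext fun s => by
        change V s * ρ s (f + g) * star (V s) =
          V s * ρ s f * star (V s) + V s * ρ s g * star (V s)
        rw [map_add, mul_add, add_mul])
      commutes' := fun c => Subtype.ext (ContinuousMap.ext fun s => by
        simp [Algebra.algebraMap_eq_smul_one, (hV s).2])
      map_star' := fun f => Subtype.ext (ContinuousMap.ext fun s => by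
        change V s * ρ s (star f) * star (V s) = star (V s * ρ s f * star (V s))
        simp only [map_star, star_mul, star_star, mul_assoc]) }
  have hφ : ∀ f s, (φ f).1 s = V s * ρ s f * star (V s) := fun _ _ => rfl
  refine ⟨φ, (injective_iff_map_eq_zero φ).2 fun f hf => Subtype.ext (ContinuousMap.ext fun t => ?_),
    fun F ε hε hF => ⟨V, hV, V0, ?_⟩⟩
  · obtain ⟨m, s, rfl⟩ := hs t
    have h1 := norm_conj (hV s) (ρ s f)
    rw [← hφ, hf] at h1
    have h2 : R (evPi p q (fun m => ζ m s) f) = R 0 := by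
      rw [map_zero]; exact norm_eq_zero.1 (h1.symm.trans (by simp))
    exact congrFun (hRi h2) m
  · rintro _ ⟨f, hf, rfl⟩ t
    rw [hφ, hφ, V0, star_one, one_mul, mul_one, ← sub_mul, ← mul_sub, norm_conj (hV t)]
    change ‖R _ - R _‖ ≤ ε
    rw [← map_sub]
    exact (NonUnitalStarAlgHom.norm_apply_le R _).trans
      ((pi_norm_le_iff_of_nonneg hε).2 fun m => hF f hf m t)

lemma exists_paths {T : Type} (ξ η : T → unitInterval) {δ : ℝ} (hδ : 0 < δ)
    (h : ∀ m, |(η m : ℝ) - ξ m| ≤ 3 * δ)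
    (hd : ∀ t : unitInterval, ∃ m, (ξ m : ℝ) ≤ t ∧ (t : ℝ) ≤ ξ m + δ) :
    ∃ ζ : T → C(unitInterval, unitInterval), (∀ m, ζ m 0 = ξ m) ∧ (∀ m, ζ m 1 = η m) ∧
      (∀ t, ∃ m s, ζ m s = t) ∧ ∀ m s, dist (ζ m s) (ζ m 0) ≤ 6 * δ := by
  let r : T → ℝ → ℝ := fun m s => ξ m + s * (η m - ξ m) + s * (1 - s) * (12 * δ)
  have hr : ∀ m, Continuous (r m) := fun m => by fun_prop
  refine ⟨fun m => ⟨fun s => Set.projIcc 0 1 zero_le_one (r m s),
    continuous_projIcc.comp ((hr m).comp continuous_subtype_val)⟩, fun m => by simp [r],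
    fun m => by simp [r], fun t => ?_, fun m s => ?_⟩
  · obtain ⟨m, h1, h2⟩ := hd t
    obtain ⟨s, hs, e⟩ := intermediate_value_Icc (show (0 : ℝ) ≤ 1 / 2 by norm_num)
      (hr m).continuousOn (show (t : ℝ) ∈ Set.Icc (r m 0) (r m (1 / 2)) from
        ⟨by simpa [r] using h1, by simp only [r]; linarith [(abs_le.1 (h m)).1]⟩)
    exact ⟨m, ⟨s, hs.1, hs.2.trans (by norm_num)⟩, by simp [e]⟩
  · refine (Set.abs_projIcc_sub_projIcc zero_le_one).trans ?_
    have h1 := abs_le.1 (h m)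
    have h2 := s.2.1
    have h3 := s.2.2
    simp only [r, Set.Icc.coe_zero, zero_mul, add_zero]
    rw [abs_le]
    constructor <;> nlinarith [mul_nonneg h2 (sub_nonneg.2 h3), sq_nonneg (2 * (s : ℝ) - 1),
      mul_nonneg h2 (sub_nonneg.2 h1.1), mul_nonneg h2 (sub_nonneg.2 h1.2),
      mul_nonneg (mul_nonneg h2 (sub_nonneg.2 h3)) hδ.le, mul_nonneg (sq_nonneg (2 * (s : ℝ) - 1)) hδ.le,
      mul_nonneg (sub_nonneg.2 h3) hδ.le]

/-- the point `a / n` -/
noncomputable def grid {n : ℕ} (a : Fin n) : unitInterval :=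
  ⟨a / n, by positivity, div_le_one_of_le₀ (by exact_mod_cast a.2.le) (by positivity)⟩

lemma est_left {α q l : ℕ} (hα : 0 < α) (hq : 0 < q) (m : Option (Fin α × Fin q) × Fin l) :
    let r : ℝ := ((finProdFinEquiv (((finSuccEquiv _).symm (m.1.map finProdFinEquiv)), m.2) : ℕ) : ℝ) /
      ((α * q + 1) * l)
    let x : ℝ := (m.1.elim 0 fun a => grid a.1 : unitInterval)
    x ≤ r ∧ r ≤ x + 2 / α := by
  obtain ⟨o, j⟩ := m
  have hl : (0 : ℝ) < l := by exact_mod_cast j.pos
  have hj : (j : ℝ) ≤ l := by exact_mod_cast j.2.le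
  have hα' : (1 : ℝ) ≤ α := by exact_mod_cast hα
  have hq' : (1 : ℝ) ≤ q := by exact_mod_cast hq
  have hj0 : (0 : ℝ) ≤ j := by positivity
  rcases o with _ | ⟨a, c⟩
  · simp only [Option.map_none, finSuccEquiv_symm_none, finProdFinEquiv_apply_val, Fin.val_zero,
      mul_zero, add_zero, Option.elim_none, Set.Icc.coe_zero, zero_add]
    refine ⟨by positivity, ?_⟩
    rw [div_le_div_iff₀ (by positivity) (by positivity)]
    nlinarith [mul_le_mul_of_nonneg_left hj (show (0 : ℝ) ≤ α by positivity),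
      mul_le_mul_of_nonneg_left hq' (show (0 : ℝ) ≤ α * l by positivity)]
  · have ha : (a : ℝ) ≤ α := by exact_mod_cast a.2.le
    have hc : (c : ℝ) + 1 ≤ q := by exact_mod_cast c.2
    have hc0 : (0 : ℝ) ≤ c := by positivity
    have ha0 : (0 : ℝ) ≤ a := by positivity
    simp only [Option.map_some, finSuccEquiv_symm_some, finProdFinEquiv_apply_val, Fin.val_succ,
      Option.elim_some, grid]
    push_cast
    rw [← add_div, div_le_div_iff₀ (by positivity) (by positivity),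
      div_le_div_iff₀ (by positivity) (by positivity)]
    constructor
    · nlinarith [mul_le_mul_of_nonneg_right ha hl.le, mul_nonneg hj0 (show (0 : ℝ) ≤ α by positivity),
        mul_nonneg (mul_nonneg hl.le hc0) (show (0 : ℝ) ≤ α by positivity)]
    · nlinarith [mul_le_mul_of_nonneg_right hj (show (0 : ℝ) ≤ α by positivity),
        mul_le_mul_of_nonneg_left hc (show (0 : ℝ) ≤ α * l by positivity),
        mul_le_mul_of_nonneg_left hq' (show (0 : ℝ) ≤ α * l by positivity), mul_nonneg ha0 hl.le]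

lemma est_right {k p : ℕ} (hp : 0 < p) (m : Option (Fin k × Fin p) × Fin k) :
    let r : ℝ := ((finProdFinEquiv ((finSuccEquivLast.symm (m.1.map finProdFinEquiv)), m.2) : ℕ) : ℝ) /
      (k * (k * p + 1))
    let y : ℝ := (m.1.elim 1 fun a => grid a.1 : unitInterval)
    y - 1 / k ≤ r ∧ r ≤ y + 1 / k := by
  obtain ⟨o, i⟩ := m
  have hk : (1 : ℝ) ≤ k := by exact_mod_cast i.pos
  have hi : (i : ℝ) ≤ k := by exact_mod_cast i.2.le
  have hp' : (1 : ℝ) ≤ p := by exact_mod_cast hp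
  have hi0 : (0 : ℝ) ≤ i := by positivity
  rcases o with _ | ⟨b, c⟩
  · simp only [Option.map_none, finSuccEquivLast_symm_none, finProdFinEquiv_apply_val, Fin.val_last,
      Option.elim_none, Set.Icc.coe_one]
    push_cast
    rw [one_sub_div (by positivity), one_add_div (by positivity),
      div_le_div_iff₀ (by positivity) (by positivity),
      div_le_div_iff₀ (by positivity) (by positivity)]
    constructor
    · nlinarith [mul_le_mul_of_nonneg_left hp' (show (0 : ℝ) ≤ k * k by positivity),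
        mul_nonneg hi0 (show (0 : ℝ) ≤ k by positivity)]
    · nlinarith [mul_le_mul_of_nonneg_left hi (show (0 : ℝ) ≤ k by positivity),
        show (0 : ℝ) ≤ k * k * p by positivity]
  · have hb : (b : ℝ) ≤ k := by exact_mod_cast b.2.le
    have hc : (c : ℝ) + 1 ≤ p := by exact_mod_cast c.2
    have hc0 : (0 : ℝ) ≤ c := by positivity
    have hb0 : (0 : ℝ) ≤ b := by positivity
    simp only [Option.map_some, finSuccEquivLast_symm_some, finProdFinEquiv_apply_val,
      Fin.val_castSucc, Option.elim_some, grid]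
    push_cast
    rw [← add_div, ← sub_div, div_le_div_iff₀ (by positivity) (by positivity),
      div_le_div_iff₀ (by positivity) (by positivity)]
    constructor
    · nlinarith [mul_le_mul_of_nonneg_left hp' (show (0 : ℝ) ≤ k * k by positivity),
        mul_le_mul_of_nonneg_left hb (show (0 : ℝ) ≤ k by positivity),
        mul_nonneg hi0 (show (0 : ℝ) ≤ k by positivity), show (0 : ℝ) ≤ k * k * c by positivity]
    · nlinarith [mul_le_mul_of_nonneg_left hi (show (0 : ℝ) ≤ k by positivity),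
        mul_le_mul_of_nonneg_left hc (show (0 : ℝ) ≤ k * k by positivity),
        mul_nonneg hb0 (show (0 : ℝ) ≤ k by positivity)]

theorem exists_flat_step {p q : ℕ} (hp : 0 < p) (hq : 0 < q) (hpq : Nat.Coprime p q)
    (F : Finset (DimDrop p q)) {ε : ℝ} (hε : 0 < ε) :
    ∃ (p' q' : ℕ) (φ : DimDrop p q →⋆ₐ[ℂ] DimDrop p' q'), 0 < p' ∧ 0 < q' ∧ Nat.Coprime p' q' ∧
      Function.Injective φ ∧ Flat (φ '' F) ε := by
  have : NeZero p := ⟨hp.ne'⟩
  have : NeZero q := ⟨hq.ne'⟩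
  obtain ⟨δ, hδ, hF⟩ : ∃ δ > 0, ∀ f ∈ F, ∀ s t, dist s t < δ → ‖f.1 s - f.1 t‖ ≤ ε := by
    have : ∀ᶠ δ in nhdsWithin (0 : ℝ) (Set.Ioi 0), ∀ f ∈ F, ∀ s t, dist s t < δ →
        ‖f.1 s - f.1 t‖ ≤ ε := by
      refine F.eventually_all.2 fun f _ => ?_
      obtain ⟨δ, hδ, h⟩ := Metric.uniformContinuous_iff.1
        (CompactSpace.uniformContinuous_of_continuous f.1.continuous) ε hε
      filter_upwards [nhdsWithin_le_nhds (ge_mem_nhds hδ)] with δ' h' s t hst
      exact (dist_eq_norm (f.1 s) (f.1 t)).symm.trans_le (h (hst.trans_le h')).le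
    exact (Filter.Eventually.and (f := nhdsWithin (0 : ℝ) (Set.Ioi 0)) (p := fun δ => δ > 0)
      self_mem_nhdsWithin this).exists
  obtain ⟨α, hα⟩ := exists_nat_gt (6 / δ)
  have hα0 : (0 : ℝ) < α := lt_trans (by positivity) hα
  have hα1 : 0 < α := by exact_mod_cast hα0
  set k := α * q + 1 with hk
  set l := k * p + 1 with hl
  obtain ⟨E₀, h₀⟩ := left_form (p := p) (q := q) (A := Fin α) (L := Fin l) (p' := p * k)
    (q' := q * l) (by simp [hk]; ring) (by simp)
  obtain ⟨E₁, h₁⟩ := right_form (p := p) (q := q) (A := Fin k) (L := Fin k) (p' := p * k)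
    (q' := q * l) (by simp) (by simp [hl]; ring)
  let u₀ : Option (Fin α × Fin q) × Fin l ≃ Fin (k * l) :=
    (((Equiv.optionCongr finProdFinEquiv).trans (finSuccEquiv _).symm).prodCongr
      (Equiv.refl _)).trans finProdFinEquiv
  let u₁ : Option (Fin k × Fin p) × Fin k ≃ Fin (l * k) :=
    (((Equiv.optionCongr finProdFinEquiv).trans finSuccEquivLast.symm).prodCongr
      (Equiv.refl _)).trans finProdFinEquiv
  let e := u₀.trans ((finCongr (mul_comm k l)).trans u₁.symm)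
  have he : ∀ m, (u₁ (e m) : ℕ) = u₀ m := fun m => by simp [e]
  obtain ⟨ζ, z0, z1, zs, zd⟩ := exists_paths (δ := 1 / α)
    (fun m : Option (Fin α × Fin q) × Fin l => m.1.elim 0 fun a => grid a.1)
    (fun m => (e m).1.elim 1 fun a => grid a.1) (by positivity) (fun m => by
      have a1 := est_left hα1 hq m
      have a2 := est_right hp (e m)
      have a3 : (1 : ℝ) / k ≤ 1 / α := one_div_le_one_div_of_le hα0 (by
        exact_mod_cast (Nat.le_mul_of_pos_right α hq).trans (Nat.le_succ _))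
      change _ ≤ ((u₀ m : ℕ) : ℝ) / _ ∧ ((u₀ m : ℕ) : ℝ) / _ ≤ _ at a1
      change _ ≤ ((u₁ (e m) : ℕ) : ℝ) / _ ∧ ((u₁ (e m) : ℕ) : ℝ) / _ ≤ _ at a2
      rw [he, show (k : ℝ) * (k * p + 1) = (α * q + 1) * l by rw [hl, hk]; push_cast; ring] at a2
      have a4 : (2 : ℝ) / α = 2 * (1 / α) := by ring
      have a5 : (0 : ℝ) < 1 / α := by positivity
      rw [abs_le]
      constructor <;> linarith [a1.1, a1.2, a2.1, a2.2]) (fun t => by
      let a := min ⌊(t : ℝ) * α⌋₊ (α - 1)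
      refine ⟨(some (⟨a, by omega⟩, 0), 0), ?_, ?_⟩
      · change (a : ℝ) / α ≤ t
        rw [div_le_iff₀ hα0]
        exact le_trans (by exact_mod_cast min_le_left _ _) (Nat.floor_le (mul_nonneg t.2.1 hα0.le))
      · change (t : ℝ) ≤ (a : ℝ) / α + 1 / α
        rw [← add_div, le_div_iff₀ hα0]
        rcases min_choice ⌊(t : ℝ) * α⌋₊ (α - 1) with h | h
        · simp only [a, h]; exact (Nat.lt_floor_add_one _).le
        · simp only [a, h, Nat.cast_pred hα1, sub_add_cancel]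
          exact mul_le_of_le_one_left hα0.le t.2.2)
  obtain ⟨φ, hφ, hφ'⟩ := build ζ E₀ (((Equiv.refl _).prodCongr e).trans E₁) (fun f => by
    obtain ⟨y, hy⟩ := h₀ (fun a => f.1 (grid a)) (left p q f)
    refine ⟨y, Eq.trans ?_ hy⟩
    congr 2
    funext ⟨o, j⟩
    rw [z0]
    cases o
    · exact left_spec f
    · rfl) (fun f => by
    obtain ⟨y, hy⟩ := h₁ (fun a => f.1 (grid a)) (right p q f)
    refine ⟨y, Eq.trans ?_ hy⟩
    ext i j
    simp only [Matrix.reindex_apply, Matrix.submatrix_apply, Matrix.blockDiagonal_apply, z1,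
      Equiv.symm_trans_apply, Equiv.prodCongr_symm, Equiv.prodCongr_apply, Prod.map_snd,
      Prod.map_fst, Equiv.apply_symm_apply, EmbeddingLike.apply_eq_iff_eq, Equiv.refl_symm,
      Equiv.refl_apply]
    cases (E₁.symm i).2.1
    · simp [right_spec]
    · rfl) zs
  refine ⟨p * k, q * l, φ, by positivity, by positivity, ?_, hφ, hφ' _ _ hε.le
    fun f hf m s => hF f hf _ _ ((zd m s).trans_lt ?_)⟩
  · refine Nat.Coprime.mul_left (hpq.mul_right ?_) (Nat.Coprime.mul_right ?_ ?_)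
    · simp [hl]
    · simp [hk]
    · simp [hl]
  · rwa [mul_one_div, div_lt_comm₀ hα0 hδ]

end Vale.Agent.P101.JS
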