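import Vale.Agent.P101.Defs

/-! The Jiang-Su algebra, by its defining properties. -/

namespace Vale.Agent.P101.JS
open scoped ComplexOrder

universe u

/-- `Z` is an inductive limit of prime dimension drop algebras with unital injective connecting
maps: the closure of an increasing union of unital copies of such algebras. -/
def IsDropLimit (Z : Type u) [CStarAlgebra Z] : Prop :=
  ∃ (p q : ℕ → ℕ) (ψ : ∀ n, DimDrop (p n) (q n) →⋆ₐ[ℂ] Z),
    (∀ n, 0 < p n ∧ 0 < q n ∧ Nat.Coprime (p n) (q n)) ∧ (∀ n, Function.Injective (ψ n)) ∧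
    (∀ n, Set.range (ψ n) ⊆ Set.range (ψ (n + 1))) ∧ Dense (⋃ n, Set.range (ψ n))

/-- A tracial state. -/
def IsTracialState {Z : Type u} [CStarAlgebra Z] (τ : Z →ₗ[ℂ] ℂ) : Prop :=
  τ 1 = 1 ∧ (∀ x, 0 ≤ τ (star x * x)) ∧ ∀ x y, τ (x * y) = τ (y * x)

/-- The Jiang-Su algebra: an infinite dimensional simple inductive limit of prime dimension drop
algebras with a unique tracial state. -/
structure IsJS (Z : Type u) [CStarAlgebra Z] : Prop where
  limit : IsDropLimit Z
  infinite : ¬ FiniteDimensional ℂ Z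
  simple : ∀ I : TwoSidedIdeal Z, IsClosed (I : Set Z) → I = ⊥ ∨ I = ⊤
  trace : ∃! τ : Z →ₗ[ℂ] ℂ, IsTracialState τ

end Vale.Agent.P101.JS
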