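import Vale.Agent.P101.JSqDefs

/-! Functions on the square with values in the fibres are limits of tensors. -/

namespace Vale.Agent.P101.JS
open scoped TensorProduct Matrix.Norms.L2Operator Kronecker

namespace JSqDenseAux

/-- Scalar functions on the square. -/
noncomputable def sc (p q : ℕ) :
    C(unitInterval × unitInterval, ℂ) →⋆ₐ[ℂ] C(unitInterval × unitInterval, Mat2 p q) where
  toFun g := ⟨fun z => g z • (1 : Mat2 p q), by fun_prop⟩
  map_one' := ContinuousMap.ext fun _ => by simp
  map_mul' _ _ := ContinuousMap.ext fun t => by simp [smul_smul, mul_comm]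
  map_zero' := ContinuousMap.ext fun _ => by simp
  map_add' _ _ := ContinuousMap.ext fun t => by simp [add_smul]
  commutes' c := ContinuousMap.ext fun t => by simp [Algebra.algebraMap_eq_smul_one]
  map_star' _ := ContinuousMap.ext fun t => by simp

lemma sc_apply {p q : ℕ} (g : C(unitInterval × unitInterval, ℂ)) (z) :
    sc p q g z = g z • (1 : Mat2 p q) := rfl

lemma sc_mem {p q : ℕ} (g : C(unitInterval × unitInterval, ℂ)) :
    sc p q g ∈ (sqHom p q).range.topologicalClosure := by
  set S := (sqHom p q).range.topologicalClosure.comap (sc p q) with hS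
  have hcl : IsClosed (S : Set C(unitInterval × unitInterval, ℂ)) :=
    (StarSubalgebra.isClosed_topologicalClosure _).preimage (hom_cont (sc p q))
  have hsep : S.SeparatesPoints := by
    intro z w hzw
    by_cases h1 : z.1 = w.1
    · have h2 : z.2 ≠ w.2 := fun h2 => hzw (Prod.ext h1 h2)
      refine ⟨_, ⟨coord.comp ⟨Prod.snd, continuous_snd⟩, StarSubalgebra.le_topologicalClosure _
        ⟨1 ⊗ₜ scal p q coord, ContinuousMap.ext fun t => ?_⟩, rfl⟩, fun e => h2 ?_⟩
      · change sqHom p q _ t = sc p q _ t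
        rw [sqHom_tmul, sc_apply]
        simp [Matrix.kronecker_smul]
      · exact Subtype.ext (by simpa using e)
    · refine ⟨_, ⟨coord.comp ⟨Prod.fst, continuous_fst⟩, StarSubalgebra.le_topologicalClosure _
        ⟨scal p q coord ⊗ₜ 1, ContinuousMap.ext fun t => ?_⟩, rfl⟩, fun e => h1 ?_⟩
      · change sqHom p q _ t = sc p q _ t
        rw [sqHom_tmul, sc_apply]
        simp [Matrix.smul_kronecker]
      · exact Subtype.ext (by simpa using e)
  have htop := ContinuousMap.starSubalgebra_topologicalClosure_eq_top_of_separatesPoints S hsep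
  have : g ∈ S := StarSubalgebra.topologicalClosure_minimal le_rfl hcl (htop ▸ trivial)
  exact this

lemma exists_val {p q : ℕ} (z : unitInterval × unitInterval) {M : Mat2 p q}
    (hM : M ∈ fib2 p q z.1 z.2) : ∃ x, sqHom p q x z = M := by
  induction hM using Submodule.span_induction with
  | mem _ h =>
    obtain ⟨f, g, rfl⟩ := h
    exact ⟨f ⊗ₜ g, sqHom_tmul f g z⟩
  | zero => exact ⟨0, by simp⟩
  | add _ _ _ _ h h' =>
    obtain ⟨x, rfl⟩ := h
    obtain ⟨y, rfl⟩ := h'
    exact ⟨x + y, by simp⟩
  | smul c _ _ h =>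
    obtain ⟨x, rfl⟩ := h
    exact ⟨c • x, by simp⟩

end JSqDenseAux

open JSqDenseAux in
theorem mem_closure_sqHom {p q : ℕ} (F : C(unitInterval × unitInterval, Mat2 p q))
    (hF : ∀ z, F z ∈ fib2 p q z.1 z.2) : F ∈ closure (Set.range (sqHom p q)) := by
  choose x hx using fun z => exists_val z (hF z)
  change F ∈ (sqHom p q).range.topologicalClosure
  have hcl := StarSubalgebra.isClosed_topologicalClosure (sqHom p q).range
  refine hcl.closure_subset (Metric.mem_closure_iff.2 fun ε hε => ?_)
  let U : unitInterval × unitInterval → Set (unitInterval × unitInterval) :=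
    fun w => {z | ‖sqHom p q (x w) z - F z‖ < ε / 2}
  have hU : ∀ w, IsOpen (U w) := fun w => isOpen_lt (by fun_prop) continuous_const
  obtain ⟨t, ht⟩ := isCompact_univ.elim_finite_subcover U hU fun z _ =>
    Set.mem_iUnion.2 ⟨z, by simp [U, hx, hε]⟩
  obtain ⟨ρ, hρ⟩ := PartitionOfUnity.exists_isSubordinate isClosed_univ (fun i : t => U i)
    (fun i => hU i) fun z hz => by simpa using ht hz
  let r : t → C(unitInterval × unitInterval, ℂ) := fun i => ⟨fun z => (ρ i z : ℂ), by fun_prop⟩
  refine ⟨∑ i : t, sc p q (r i) * sqHom p q (x i), sum_mem fun i _ => mul_mem (sc_mem _)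
    (StarSubalgebra.le_topologicalClosure _ ⟨x i, rfl⟩), ?_⟩
  refine lt_of_le_of_lt ((ContinuousMap.dist_le (half_pos hε).le).2 fun z => ?_) (half_lt_self hε)
  have h1 : ∑ i : t, ρ i z = 1 := by
    rw [← finsum_eq_sum_of_fintype]
    exact ρ.sum_eq_one (Set.mem_univ z)
  have h2 : (∑ i : t, sc p q (r i) * sqHom p q (x i)) z - F z =
      ∑ i : t, (ρ i z : ℂ) • (sqHom p q (x i) z - F z) := by
    simp only [smul_sub, Finset.sum_sub_distrib, ← Finset.sum_smul, ← Complex.ofReal_sum, h1,
      ContinuousMap.coe_sum, Finset.sum_apply, ContinuousMap.mul_apply, sc_apply]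
    simp [r]
  rw [dist_comm, dist_eq_norm, h2]
  refine (norm_sum_le _ _).trans ((Finset.sum_le_sum (g := fun i : t => ρ i z * (ε / 2))
    fun i _ => ?_).trans (by rw [← Finset.sum_mul, h1, one_mul]))
  rw [norm_smul, Complex.norm_real, Real.norm_of_nonneg (ρ.nonneg i z)]
  by_cases h0 : ρ i z = 0
  · simp [h0]
  · exact mul_le_mul_of_nonneg_left (hρ i (subset_tsupport _ h0)).le (ρ.nonneg i z)

end Vale.Agent.P101.JS
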