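import Vale.Agent.P101.JSqFlipA

/-! The explicit unitary implementing the half flip on a flat set. -/

namespace Vale.Agent.P101.JS
open scoped TensorProduct Kronecker Matrix.Norms.L2Operator

section
variable {p q : ℕ}

/-- Exchange of the first and third legs. -/
def e13 (p q : ℕ) : Equiv.Perm ((Fin p × Fin q) × (Fin p × Fin q)) :=
  Function.Involutive.toPerm (fun z => ((z.2.1, z.1.2), (z.1.1, z.2.2))) fun _ => rfl

/-- Exchange of the second and fourth legs. -/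
def e24 (p q : ℕ) : Equiv.Perm ((Fin p × Fin q) × (Fin p × Fin q)) :=
  Function.Involutive.toPerm (fun z => ((z.1.1, z.2.2), (z.2.1, z.1.2))) fun _ => rfl

/-- The permutation matrix of a permutation. -/
noncomputable def pm (e : Equiv.Perm ((Fin p × Fin q) × (Fin p × Fin q))) : Mat2 p q :=
  e.toPEquiv.toMatrix

lemma pm_mul (e : Equiv.Perm ((Fin p × Fin q) × (Fin p × Fin q))) (M : Mat2 p q) :
    pm e * M = M.submatrix e id := PEquiv.toMatrix_toPEquiv_mul e M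

lemma mul_pm (e : Equiv.Perm ((Fin p × Fin q) × (Fin p × Fin q))) (M : Mat2 p q) :
    M * pm e = M.submatrix id e.symm := PEquiv.mul_toMatrix_toPEquiv M e

lemma pm_eq (e : Equiv.Perm ((Fin p × Fin q) × (Fin p × Fin q))) :
    pm e = (1 : Mat2 p q).submatrix e id := by rw [← pm_mul, mul_one]

lemma e13_apply (z : (Fin p × Fin q) × (Fin p × Fin q)) :
    e13 p q z = ((z.2.1, z.1.2), (z.1.1, z.2.2)) := rfl
lemma e24_apply (z : (Fin p × Fin q) × (Fin p × Fin q)) :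
    e24 p q z = ((z.1.1, z.2.2), (z.2.1, z.1.2)) := rfl
lemma e13_symm : (e13 p q).symm = e13 p q := rfl
lemma e24_symm : (e24 p q).symm = e24 p q := rfl

lemma pm_sq {e : Equiv.Perm ((Fin p × Fin q) × (Fin p × Fin q))} (h : ∀ z, e (e z) = z) :
    pm e * pm e = 1 := by
  rw [pm_mul, pm_eq]
  ext a b
  simp only [Matrix.submatrix_apply]
  rw [h]
  rfl

lemma star_pm {e : Equiv.Perm ((Fin p × Fin q) × (Fin p × Fin q))} (h : ∀ z, e (e z) = z) :
    star (pm e) = pm e := by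
  rw [pm_eq]
  ext a b
  simp only [Matrix.star_apply, Matrix.submatrix_apply, id, Matrix.one_apply]
  have : e b = a ↔ e a = b := ⟨fun h' => by rw [← h', h], fun h' => by rw [← h', h]⟩
  by_cases h' : e a = b <;> simp [h', this]

lemma e13_kron (x x' : Matrix (Fin p) (Fin p) ℂ) (y y' : Matrix (Fin q) (Fin q) ℂ) :
    pm (e13 p q) * ((x ⊗ₖ y) ⊗ₖ (x' ⊗ₖ y')) = ((x' ⊗ₖ y) ⊗ₖ (x ⊗ₖ y')) * pm (e13 p q) := by
  rw [pm_mul, mul_pm]
  ext a b
  simp only [Matrix.submatrix_apply, id, e13_symm, e13_apply, Matrix.kroneckerMap_apply]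
  ring

lemma e24_kron (x x' : Matrix (Fin p) (Fin p) ℂ) (y y' : Matrix (Fin q) (Fin q) ℂ) :
    pm (e24 p q) * ((x ⊗ₖ y) ⊗ₖ (x' ⊗ₖ y')) = ((x ⊗ₖ y') ⊗ₖ (x' ⊗ₖ y)) * pm (e24 p q) := by
  rw [pm_mul, mul_pm]
  ext a b
  simp only [Matrix.submatrix_apply, id, e24_symm, e24_apply, Matrix.kroneckerMap_apply]
  ring

lemma kron_induction {m n : Type} [Fintype m] [DecidableEq m] [Fintype n] [DecidableEq n]
    {W : Type*} [AddCommGroup W] [Module ℂ W] (S : Submodule ℂ W)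
    (T : Matrix (m × n) (m × n) ℂ →ₗ[ℂ] W)
    (h : ∀ (x : Matrix m m ℂ) (y : Matrix n n ℂ), T (x ⊗ₖ y) ∈ S) (M) : T M ∈ S := by
  obtain ⟨z, rfl⟩ := (kroneckerLinearEquiv m m n n ℂ).surjective M
  induction z with
  | zero => simp
  | tmul x y => simpa using h x y
  | add x y hx hy => rw [map_add, map_add]; exact add_mem hx hy

lemma map_unitary {m n : Type} [Fintype m] [DecidableEq m] [Fintype n] [DecidableEq n]
    (f : Matrix m m ℂ →⋆ₐ[ℂ] Matrix n n ℂ) {V : Matrix m m ℂ} (h : V ∈ unitary (Matrix m m ℂ)) :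
    f V ∈ unitary (Matrix n n ℂ) :=
  ⟨by rw [← map_star, ← map_mul, h.1, map_one], by rw [← map_star, ← map_mul, h.2, map_one]⟩

/-- The legs for a unitary `V`. -/
noncomputable def legs {V : Mat p q} (hV : V ∈ unitary (Mat p q)) : Legs (Mat2 p q) where
  σ := pm (e13 p q)
  τ := pm (e24 p q)
  P := kronL _ _ V
  Q := kronR _ _ V
  σσ := pm_sq fun _ => rfl
  ττ := pm_sq fun _ => rfl
  σs := star_pm fun _ => rfl
  τs := star_pm fun _ => rfl
  στ := by
    rw [Commute, SemiconjBy, pm_mul, pm_mul, pm_eq, pm_eq]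
    rfl
  Qu := map_unitary (kronR _ _) hV
  Pu := map_unitary (kronL _ _) hV
  flip := by
    rw [pm_mul, mul_pm, pm_mul, mul_pm]
    ext a b
    simp only [Matrix.submatrix_apply, id, e13_symm, e24_symm, e13_apply, e24_apply, kronL_apply,
      kronR_apply, Matrix.kroneckerMap_apply, Matrix.one_apply]
    exact mul_comm _ _

/-- The span of the elementary tensors. -/
noncomputable def tensM (S T : StarSubalgebra ℂ (Mat p q)) : Submodule ℂ (Mat2 p q) :=
  Submodule.span ℂ {z | ∃ x ∈ S, ∃ y ∈ T, z = x ⊗ₖ y}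

lemma tensM_le {S T : StarSubalgebra ℂ (Mat p q)} {W : Submodule ℂ (Mat2 p q)}
    (h : ∀ x ∈ S, ∀ y ∈ T, x ⊗ₖ y ∈ W) : tensM S T ≤ W :=
  Submodule.span_le.2 (by rintro _ ⟨x, hx, y, hy, rfl⟩; exact h x hx y hy)

lemma kron_memM {S T : StarSubalgebra ℂ (Mat p q)} {x y : Mat p q} (hx : x ∈ S) (hy : y ∈ T) :
    x ⊗ₖ y ∈ tensM S T := Submodule.subset_span ⟨x, hx, y, hy, rfl⟩

lemma tensM_mul {S T : StarSubalgebra ℂ (Mat p q)} (a b : Mat2 p q) (ha : a ∈ tensM S T)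
    (hb : b ∈ tensM S T) : a * b ∈ tensM S T := by
  induction ha, hb using Submodule.span_induction₂ with
  | mem_mem z z' hz hz' =>
    obtain ⟨x, hx, y, hy, rfl⟩ := hz
    obtain ⟨x', hx', y', hy', rfl⟩ := hz'
    rw [← Matrix.mul_kronecker_mul]
    exact kron_memM (mul_mem hx hx') (mul_mem hy hy')
  | zero_left => rw [zero_mul]; exact zero_mem _
  | zero_right => rw [mul_zero]; exact zero_mem _
  | add_left x y z _ _ _ h h' => rw [add_mul]; exact add_mem h h'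
  | add_right x y z _ _ _ h h' => rw [mul_add]; exact add_mem h h'
  | smul_left c x y _ _ h => rw [smul_mul_assoc]; exact Submodule.smul_mem _ _ h
  | smul_right c x y _ _ h => rw [mul_smul_comm]; exact Submodule.smul_mem _ _ h

/-- The tensor product of two subalgebras. -/
noncomputable def tens (S T : StarSubalgebra ℂ (Mat p q)) : StarSubalgebra ℂ (Mat2 p q) where
  toSubalgebra := (tensM S T).toSubalgebra
    (by rw [← Matrix.one_kronecker_one]; exact kron_memM (one_mem S) (one_mem T)) tensM_mul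
  star_mem' {a} ha := by
    change star a ∈ tensM S T
    induction ha using Submodule.span_induction with
    | mem z hz =>
      obtain ⟨x, hx, y, hy, rfl⟩ := hz
      rw [Matrix.star_eq_conjTranspose, Matrix.conjTranspose_kronecker]
      exact kron_memM (star_mem hx) (star_mem hy)
    | zero => rw [star_zero]; exact zero_mem _
    | add x y _ _ hx hy => rw [star_add]; exact add_mem hx hy
    | smul c x _ hx => rw [star_smul]; exact Submodule.smul_mem _ _ hx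

lemma kron_mem {S T : StarSubalgebra ℂ (Mat p q)} {x y : Mat p q} (hx : x ∈ S) (hy : y ∈ T) :
    x ⊗ₖ y ∈ tens S T := kron_memM hx hy

lemma tens_le {S T : StarSubalgebra ℂ (Mat p q)} {W : Submodule ℂ (Mat2 p q)}
    (h : ∀ x ∈ S, ∀ y ∈ T, x ⊗ₖ y ∈ W) {M : Mat2 p q} (hM : M ∈ tens S T) : M ∈ W :=
  tensM_le h hM

lemma tens_mono {S T S' T' : StarSubalgebra ℂ (Mat p q)} (hS : S ≤ S') (hT : T ≤ T') :
    tens S T ≤ tens S' T' := fun _ hM =>
  tens_le (W := (tens S' T').toSubalgebra.toSubmodule)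
    (fun _ hx _ hy => kron_mem (hS hx) (hT hy)) hM

lemma mem_tens_top (M : Mat2 p q) : M ∈ tens (⊤ : StarSubalgebra ℂ (Mat p q)) ⊤ :=
  kron_induction (tens (⊤ : StarSubalgebra ℂ (Mat p q)) ⊤).toSubalgebra.toSubmodule LinearMap.id
    (fun _ _ => kron_mem trivial trivial) M

/-- The fibre at `0`. -/
noncomputable abbrev fL (p q : ℕ) : StarSubalgebra ℂ (Mat p q) := (kronL (Fin p) (Fin q)).range

/-- The fibre at `1`. -/
noncomputable abbrev fR (p q : ℕ) : StarSubalgebra ℂ (Mat p q) := (kronR (Fin p) (Fin q)).range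

lemma e13_mem : pm (e13 p q) ∈ tens (fL p q) (fL p q) := by
  have : pm (e13 p q) = ∑ i, ∑ j, (Matrix.single i j (1 : ℂ) ⊗ₖ (1 : Matrix (Fin q) (Fin q) ℂ)) ⊗ₖ
      (Matrix.single j i (1 : ℂ) ⊗ₖ (1 : Matrix (Fin q) (Fin q) ℂ)) := by
    rw [pm_eq]
    ext ⟨⟨a, b⟩, c, d⟩ ⟨⟨a', b'⟩, c', d'⟩
    simp only [Matrix.submatrix_apply, id, e13_apply, Matrix.sum_apply, Matrix.kroneckerMap_apply,
      Matrix.one_apply, Matrix.single_apply, Prod.mk.injEq]
    rw [Finset.sum_eq_single a (by simp +contextual) (by simp),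
      Finset.sum_eq_single a' (by simp +contextual) (by simp)]
    by_cases h1 : c = a' <;> by_cases h2 : b = b' <;> by_cases h3 : a = c' <;>
      by_cases h4 : d = d' <;> simp [h1, h2, h3, h4, @eq_comm _ a' c]
  rw [this]
  exact sum_mem fun i _ => sum_mem fun j _ => kron_mem ⟨_, rfl⟩ ⟨_, rfl⟩

lemma e24_mem : pm (e24 p q) ∈ tens (fR p q) (fR p q) := by
  have : pm (e24 p q) = ∑ i, ∑ j, ((1 : Matrix (Fin p) (Fin p) ℂ) ⊗ₖ Matrix.single i j (1 : ℂ)) ⊗ₖ
      ((1 : Matrix (Fin p) (Fin p) ℂ) ⊗ₖ Matrix.single j i (1 : ℂ)) := by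
    rw [pm_eq]
    ext ⟨⟨a, b⟩, c, d⟩ ⟨⟨a', b'⟩, c', d'⟩
    simp only [Matrix.submatrix_apply, id, e24_apply, Matrix.sum_apply, Matrix.kroneckerMap_apply,
      Matrix.one_apply, Matrix.single_apply, Prod.mk.injEq]
    rw [Finset.sum_eq_single b (by simp +contextual) (by simp),
      Finset.sum_eq_single b' (by simp +contextual) (by simp)]
    by_cases h1 : d = b' <;> by_cases h2 : a = a' <;> by_cases h3 : b = d' <;>
      by_cases h4 : c = c' <;> simp [h1, h2, h3, h4, @eq_comm _ b' d]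
  rw [this]
  exact sum_mem fun i _ => sum_mem fun j _ => kron_mem ⟨_, rfl⟩ ⟨_, rfl⟩

lemma v32_mem (V : Mat p q) :
    pm (e24 p q) * kronR _ _ V * pm (e24 p q) ∈ tens (fR p q) (fL p q) :=
  kron_induction (tens (fR p q) (fL p q)).toSubalgebra.toSubmodule
    (LinearMap.mulRight ℂ (pm (e24 p q)) ∘ₗ LinearMap.mulLeft ℂ (pm (e24 p q)) ∘ₗ
      (kronR _ _).toAlgHom.toLinearMap) (fun x y => by
    change pm (e24 p q) * ((1 : Mat p q) ⊗ₖ (x ⊗ₖ y)) * pm (e24 p q) ∈ tens (fR p q) (fL p q)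
    rw [← Matrix.one_kronecker_one, e24_kron, mul_assoc, pm_sq fun _ => rfl, mul_one]
    exact kron_mem ⟨_, rfl⟩ ⟨_, rfl⟩) V

lemma v14_mem (V : Mat p q) :
    pm (e13 p q) * kronR _ _ V * pm (e13 p q) ∈ tens (fL p q) (fR p q) :=
  kron_induction (tens (fL p q) (fR p q)).toSubalgebra.toSubmodule
    (LinearMap.mulRight ℂ (pm (e13 p q)) ∘ₗ LinearMap.mulLeft ℂ (pm (e13 p q)) ∘ₗ
      (kronR _ _).toAlgHom.toLinearMap) (fun x y => by
    change pm (e13 p q) * ((1 : Mat p q) ⊗ₖ (x ⊗ₖ y)) * pm (e13 p q) ∈ tens (fL p q) (fR p q)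
    rw [← Matrix.one_kronecker_one, e13_kron, mul_assoc, pm_sq fun _ => rfl, mul_one]
    exact kron_mem ⟨_, rfl⟩ ⟨_, rfl⟩) V

/-- The fibre at a point. -/
noncomputable def fib (p q : ℕ) (s : unitInterval) : StarSubalgebra ℂ (Mat p q) :=
  open Classical in if s = 0 then fL p q else if s = 1 then fR p q else ⊤

lemma exists_val {s : unitInterval} {x : Mat p q} (hx : x ∈ fib p q s) :
    ∃ f : DimDrop p q, f.1 s = x := by
  unfold fib at hx
  split_ifs at hx with h0 h1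
  · obtain ⟨y, rfl⟩ := hx
    exact ⟨⟨⟨fun t => (1 - ((t : ℝ) : ℂ)) • kronL _ _ y, by fun_prop⟩, ⟨y, by simp⟩, 0, by simp⟩,
      by simp [h0]⟩
  · obtain ⟨y, rfl⟩ := hx
    exact ⟨⟨⟨fun t => ((t : ℝ) : ℂ) • kronR _ _ y, by fun_prop⟩, ⟨0, by simp⟩, y, by simp⟩,
      by simp [h1]⟩
  · have e0 : ((s : ℝ) : ℂ) ≠ 0 := by
      rw [Ne, Complex.ofReal_eq_zero]; exact fun h => h0 (Subtype.ext h)
    have e1 : 1 - ((s : ℝ) : ℂ) ≠ 0 := by
      rw [sub_ne_zero, Ne, eq_comm, Complex.ofReal_eq_one]; exact fun h => h1 (Subtype.ext h)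
    refine ⟨⟨⟨fun t => (((t : ℝ) : ℂ) * (1 - (t : ℝ)) / ((s : ℝ) * (1 - (s : ℝ)))) • x,
      by fun_prop⟩, ⟨0, by simp⟩, 0, by simp⟩, ?_⟩
    simp [div_self (mul_ne_zero e0 e1)]

lemma mem_fib2 {s t : unitInterval} {M : Mat2 p q} (h : M ∈ tens (fib p q s) (fib p q t)) :
    M ∈ fib2 p q s t :=
  tens_le (fun _ hx _ hy => by
    obtain ⟨f, rfl⟩ := exists_val hx
    obtain ⟨g, rfl⟩ := exists_val hy
    exact Submodule.subset_span ⟨f, g, rfl⟩) h

lemma legs_mem (V : C(unitInterval, Mat p q)) (hV : ∀ t, V t ∈ unitary (Mat p q)) (h0 : V 0 = 1)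
    (s t : unitInterval) :
    kronR _ _ (V t) * (legs (hV 1)).mid s t * star (kronL _ _ (V s)) ∈
      tens (fib p q s) (fib p q t) := by
  set L := legs (hV 1) with hL
  have mσ : L.σ ∈ tens (fL p q) (fL p q) := e13_mem
  have mτ : L.τ ∈ tens (fR p q) (fR p q) := e24_mem
  have m32 : L.τ * L.Q * L.τ ∈ tens (fR p q) (fL p q) := v32_mem _
  have m14 : L.σ * L.Q * L.σ ∈ tens (fL p q) (fR p q) := v14_mem _
  have mL : ∀ x T, kronL _ _ x ∈ tens (⊤ : StarSubalgebra ℂ (Mat p q)) T := fun x T =>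
    kron_mem trivial (one_mem T)
  have mR : ∀ x S, kronR _ _ x ∈ tens S (⊤ : StarSubalgebra ℂ (Mat p q)) := fun x S =>
    kron_mem (one_mem S) trivial
  have hP : kronL _ _ (V 1) = L.P := rfl
  have hQ : kronR _ _ (V 1) = L.Q := rfl
  have h10 : (1 : unitInterval) ≠ 0 := one_ne_zero
  unfold fib
  split_ifs with hs0 ht0 ht1 hs1 ht0 ht1 ht0 ht1
  · subst hs0 ht0
    simpa [h0, L.mid_left, L.X_zero] using mσ
  · subst hs0 ht1
    rw [hQ, Set.Icc.coe_one, L.mid_top]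
    simpa [h0, pw_zero] using m14
  · subst hs0
    simp only [Set.Icc.coe_zero, L.mid_left, h0, map_one, star_one, mul_one]
    exact mul_mem (mR _ _) (mul_mem (mul_mem (mul_mem (star_mem (mR _ _))
      (pw_mem (tens_mono le_rfl le_top mσ) _)) (mR _ _)) (tens_mono le_rfl le_top mσ))
  · subst hs1 ht0
    simp only [Set.Icc.coe_one, L.mid_right, hP, mul_assoc, L.Pu.2, h0, map_one, mul_one,
      Set.Icc.coe_zero, pw_zero, one_mul]
    rw [← mul_assoc]
    exact star_mem m32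
  · subst hs1 ht1
    rw [hQ, hP, Set.Icc.coe_one, L.mid_top, pw_one, mul_assoc (L.σ * L.Q), L.στ.eq]
    have : L.σ * L.Q * (L.τ * L.σ) * star L.P = L.τ := by
      have h1 : L.Q * L.τ * L.σ = L.τ * L.σ * L.P := by
        rw [mul_assoc L.τ, L.σP, ← mul_assoc, ← mul_assoc, ← mul_assoc, L.ττ, one_mul]
      calc _ = L.σ * (L.Q * L.τ * L.σ) * star L.P := by noncomm_ring
        _ = L.σ * L.τ * L.σ * (L.P * star L.P) := by rw [h1]; noncomm_ring
        _ = _ := by rw [L.Pu.2, mul_one, L.στ.eq, mul_assoc, L.σσ, mul_one]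
    rw [this]
    exact mτ
  · subst hs1
    simp only [Set.Icc.coe_one, L.mid_right, hP, mul_assoc _ L.P, L.Pu.2, mul_one, ← mul_assoc]
    exact mul_mem (mul_mem (mR _ _) (pw_mem (tens_mono le_rfl le_top mτ) _))
      (star_mem (tens_mono le_rfl le_top m32))
  · subst ht0
    simp only [Set.Icc.coe_zero, L.mid_bot, h0, map_one, one_mul]
    exact mul_mem (mul_mem (mul_mem (star_mem (tens_mono le_top le_rfl m32))
      (pw_mem (tens_mono le_top le_rfl mσ) _)) (mL _ _)) (star_mem (mL _ _))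
  · subst ht1
    rw [hQ, Set.Icc.coe_one, L.mid_top]
    exact mul_mem (mul_mem (tens_mono le_top le_rfl m14)
      (pw_mem (tens_mono le_top le_rfl mτ) _)) (star_mem (mL _ _))
  · exact mem_tens_top _

end

lemma tw_legs {p q : ℕ} (V : C(unitInterval, Mat p q)) (hV : ∀ t, V t ∈ unitary (Mat p q))
    (g : DimDrop p q) {ε : ℝ} (ht : ∀ t, Tw ε (V t) (g.1 0) (g.1 t)) (s t : unitInterval) :
    Tw (ε + 6 * ε + ε) (kronR _ _ (V t) * (legs (hV 1)).mid s t * star (kronL _ _ (V s)))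
      (kronL _ _ (g.1 s)) (kronR _ _ (g.1 t)) := by
  obtain ⟨⟨a, ha⟩, b, hb⟩ := g.2
  have k1 : pm (e13 p q) * kronL _ _ (g.1 1) = kronL _ _ (g.1 1) * pm (e13 p q) := by
    rw [kronL_apply, hb, ← Matrix.one_kronecker_one, e13_kron]
  have k2 : pm (e13 p q) * kronR _ _ (g.1 1) = kronR _ _ (g.1 1) * pm (e13 p q) := by
    rw [kronR_apply, hb, ← Matrix.one_kronecker_one, e13_kron]
  have k3 : pm (e24 p q) * kronR _ _ (g.1 0) = kronR _ _ (g.1 0) * pm (e24 p q) := by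
    rw [kronR_apply, ha, ← Matrix.one_kronecker_one, e24_kron]
  have k4 : pm (e24 p q) * kronR _ _ (g.1 1) = kronL _ _ (g.1 1) * pm (e24 p q) := by
    rw [kronR_apply, kronL_apply, hb, ← Matrix.one_kronecker_one, e24_kron]
  have hL : ∀ t, Tw ε (kronL _ (Fin p × Fin q) (V t)) (kronL _ _ (g.1 0)) (kronL _ _ (g.1 t)) :=
    fun t => (ht t).map (R' := Mat2 p q) _
  have hR : ∀ t, Tw ε (kronR (Fin p × Fin q) _ (V t)) (kronR _ _ (g.1 0)) (kronR _ _ (g.1 t)) :=
    fun t => (ht t).map (R' := Mat2 p q) _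
  exact ((hR t).mul ((legs (hV 1)).tw_mid (hL 1) (hR 1) k1 k2 k3 k4 s t)).mul (hL s).symm

theorem Flat.exists_unitary {p q : ℕ} {G : Set (DimDrop p q)} {ε : ℝ} (h : Flat G ε) :
    ∃ u : C(unitInterval × unitInterval, Mat2 p q), (∀ z, u z ∈ unitary (Mat2 p q)) ∧
      (∀ z, u z ∈ fib2 p q z.1 z.2) ∧
      ∀ g ∈ G, ∀ z, ‖u z * sq1 p q g z * star (u z) - sq2 p q g z‖ ≤ 10 * ε := by
  obtain ⟨V, hV, h0, hG⟩ := h
  have c1 := continuous_matHom (kronL (Fin p × Fin q) (Fin p × Fin q))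
  have c2 := continuous_matHom (kronR (Fin p × Fin q) (Fin p × Fin q))
  have c3 : Continuous fun z : unitInterval × unitInterval => (legs (hV 1)).mid z.1 z.2 :=
    Legs.continuous_mid _ (by fun_prop) (by fun_prop)
  have c4 : Continuous fun z : unitInterval × unitInterval =>
      kronR _ _ (V z.2) * (legs (hV 1)).mid z.1 z.2 * star (kronL _ _ (V z.1)) :=
    ((c2.comp (V.continuous.comp continuous_snd)).mul c3).mul
      (c1.comp (V.continuous.comp continuous_fst)).star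
  refine ⟨⟨_, c4⟩, fun z => mul_mem (mul_mem (map_unitary _ (hV _)) (Legs.mid_unitary _ _ _))
      (Unitary.star_mem (map_unitary _ (hV _))), fun z => mem_fib2 (legs_mem V hV h0 z.1 z.2),
    fun g hg z => ?_⟩
  have ht : ∀ t, Tw ε (V t) (g.1 0) (g.1 t) := fun t => Tw.of_near (hV t) (hG g hg t)
  have hε : 0 ≤ ε := (norm_nonneg _).trans (ht 0).2
  exact (tw_legs V hV g ht z.1 z.2).2.trans (by linarith)

end Vale.Agent.P101.JS
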