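import Vale.Agent.P101.JBasic

/-! Extension of homomorphisms, separability. -/

namespace Vale.Agent.P101.JS
open TopologicalSpace

/-- Extension of a bounded star homomorphism along a map with dense range. -/
theorem extend_hom {R D C : Type*} [Ring R] [Algebra ℂ R] [StarRing R] [CStarAlgebra D]
    [CStarAlgebra C] (κ : R →⋆ₐ[ℂ] D) (hκ : DenseRange κ) (lam : R →⋆ₐ[ℂ] C) (K : ℝ)
    (h : ∀ x, ‖lam x‖ ≤ K * ‖κ x‖) : ∃ ρ : D →⋆ₐ[ℂ] C, ∀ x, ρ (κ x) = lam x := by
  let L : D →L[ℂ] C := lam.toAlgHom.toLinearMap.extendOfNorm κ.toAlgHom.toLinearMap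
  have hL : ∀ x, L (κ x) = lam x := fun x =>
    LinearMap.extendOfNorm_eq (f := lam.toAlgHom.toLinearMap) (e := κ.toAlgHom.toLinearMap) hκ
      ⟨K, h⟩ x
  have hc := L.continuous
  refine ⟨{ toFun := L
            map_one' := by rw [← map_one κ, hL, map_one]
            map_mul' := fun x y => ?_
            map_zero' := map_zero L
            map_add' := map_add L
            commutes' := fun c => by rw [← AlgHomClass.commutes κ, hL, AlgHomClass.commutes]
            map_star' := fun x => ?_ }, hL⟩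
  · refine hκ.induction_on₂ (p := fun x y => L (x * y) = L x * L y)
      (isClosed_eq (by fun_prop) (by fun_prop)) (fun a b => ?_) x y
    rw [← map_mul, hL, hL, hL, map_mul]
  · refine hκ.induction_on (p := fun x => L (star x) = star (L x)) x
      (isClosed_eq (by fun_prop) (by fun_prop)) fun a => ?_
    rw [← map_star, hL, hL, map_star]

instance separable_dimDrop (p q : ℕ) : SeparableSpace (DimDrop p q) :=
  haveI : SecondCountableTopology (Mat p q) :=
    inferInstanceAs (SecondCountableTopology ((Fin p × Fin q) → (Fin p × Fin q) → ℂ))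
  inferInstance

theorem IsDropLimit.separable {Z : Type*} [CStarAlgebra Z] (h : IsDropLimit Z) :
    SeparableSpace Z := by
  obtain ⟨p, q, ψ, -, -, -, hd⟩ := h
  rw [← isSeparable_univ_iff, ← hd.closure_eq]
  exact (IsSeparable.iUnion fun n => isSeparable_range (hom_cont (ψ n))).closure

theorem IsDropLimit.nontrivial {Z : Type*} [CStarAlgebra Z] (h : IsDropLimit Z) :
    Nontrivial Z := by
  obtain ⟨p, q, ψ, hp, hi, -, -⟩ := h
  refine ⟨ψ 0 0, ψ 0 1, fun e => ?_⟩
  have := congrArg (fun f : DimDrop (p 0) (q 0) =>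
    f.1 0 (⟨0, (hp 0).1⟩, ⟨0, (hp 0).2.1⟩) (⟨0, (hp 0).1⟩, ⟨0, (hp 0).2.1⟩)) (hi 0 e)
  simp at this

end Vale.Agent.P101.JS
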