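import Vale.Agent.P101.JSqNorm
import Vale.Agent.P101.JSqDense
import Vale.Agent.P101.JSqFlip
import Vale.Agent.P101.JTools

/-! Local flatness gives the approximately inner half flip. -/

namespace Vale.Agent.P101.JS
open scoped TensorProduct Matrix.Norms.L2Operator

universe u

theorem LocFlat.maxFlip {Z : Type u} [CStarAlgebra Z] (h : LocFlat Z) : MaxFlip Z := by
  intro E _ β γ hc s ε hε
  have hδ : 0 < ε / 13 := by positivity
  obtain ⟨p, q, ψ, g, hp, hq, hg, hF⟩ := h s _ hδ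
  obtain ⟨u, hu, hfib, hflip⟩ := hF.exists_unitary
  let W := (sqHom p q).range.topologicalClosure
  haveI : IsClosed (W : Set C(unitInterval × unitInterval, Mat2 p q)) :=
    StarSubalgebra.isClosed_topologicalClosure _
  letI : CStarAlgebra W := StarSubalgebra.cstarAlgebra W
  let κ : DimDrop p q ⊗[ℂ] DimDrop p q →⋆ₐ[ℂ] W :=
    (sqHom p q).codRestrict W fun x => StarSubalgebra.le_topologicalClosure _ ⟨x, rfl⟩
  have hκ : DenseRange κ := by
    intro w
    rw [closure_subtype]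
    refine closure_mono ?_ w.2
    rintro _ ⟨x, rfl⟩
    exact ⟨κ x, ⟨x, rfl⟩, rfl⟩
  have hcm : ∀ f f', Commute ((β.comp ψ) f) ((γ.comp ψ) f') := fun f f' => hc _ _
  obtain ⟨Θ, hΘ⟩ := extend_hom κ hκ (starLift (β.comp ψ) (γ.comp ψ) hcm) 1 fun x => by
    rw [one_mul]
    exact norm_starLift_le hp hq _ _ hcm x
  let w : W := ⟨u, mem_closure_sqHom u hfib⟩
  have w1 : star w * w = 1 := Subtype.ext (ContinuousMap.ext fun z => (hu z).1)
  have w2 : w * star w = 1 := Subtype.ext (ContinuousMap.ext fun z => (hu z).2)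
  have hv : Θ w ∈ unitary E :=
    ⟨by rw [← map_star, ← map_mul, w1, map_one], by rw [← map_star, ← map_mul, w2, map_one]⟩
  refine ⟨Θ w, hv, fun z hz => ?_⟩
  have h1 : Θ (κ (g z ⊗ₜ 1)) = β (ψ (g z)) := by rw [hΘ, starLift_tmul, map_one, mul_one]; rfl
  have h2 : Θ (κ (1 ⊗ₜ g z)) = γ (ψ (g z)) := by rw [hΘ, starLift_tmul, map_one, one_mul]; rfl
  have h3 : ‖Θ w * β (ψ (g z)) * star (Θ w) - γ (ψ (g z))‖ ≤ 10 * (ε / 13) := by
    rw [← h1, ← h2, ← map_star, ← map_mul, ← map_mul, ← map_sub]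
    refine (NonUnitalStarAlgHom.norm_apply_le Θ _).trans
      ((ContinuousMap.norm_le _ (by positivity)).2 fun y => ?_)
    have := hflip (g z) ⟨z, hz, rfl⟩ y
    change ‖u y * sqHom p q (g z ⊗ₜ 1) y * star (u y) - sqHom p q (1 ⊗ₜ g z) y‖ ≤ _
    rw [sqHom_tmul, sqHom_tmul]
    exact this
  have h4 : ‖Θ w * β (ψ (g z) - z) * star (Θ w)‖ < ε / 13 := by
    rw [CStarRing.norm_mul_mem_unitary _ (Unitary.star_mem hv),
      CStarRing.norm_mem_unitary_mul _ hv]
    exact (NonUnitalStarAlgHom.norm_apply_le β _).trans_lt (hg z hz)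
  have h5 : ‖γ (ψ (g z) - z)‖ < ε / 13 :=
    (NonUnitalStarAlgHom.norm_apply_le γ _).trans_lt (hg z hz)
  have e : Θ w * β z * star (Θ w) - γ z = (Θ w * β (ψ (g z)) * star (Θ w) - γ (ψ (g z))) -
      Θ w * β (ψ (g z) - z) * star (Θ w) + γ (ψ (g z) - z) := by
    simp only [map_sub]
    noncomm_ring
  rw [e]
  have := norm_add_le ((Θ w * β (ψ (g z)) * star (Θ w) - γ (ψ (g z))) -
      Θ w * β (ψ (g z) - z) * star (Θ w)) (γ (ψ (g z) - z))
  have := norm_sub_le (Θ w * β (ψ (g z)) * star (Θ w) - γ (ψ (g z)))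
      (Θ w * β (ψ (g z) - z) * star (Θ w))
  linarith

end Vale.Agent.P101.JS
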