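import Vale.Agent.P101.JBasic
import Vale.Agent.P101.Exist

/-! States, representations and completions. -/

namespace Vale.Agent.P101.JS
open scoped InnerProductSpace ComplexOrder
open UniformSpace

universe u
variable {B : Type u} [CStarAlgebra B]

lemma exists_gns_aux (φ : B →ₗ[ℂ] ℂ) (hpos : ∀ x, 0 ≤ φ (star x * x)) :
    ∃ (H : Type u) (_ : NormedAddCommGroup H) (_ : InnerProductSpace ℂ H) (_ : CompleteSpace H)
      (π : B →⋆ₐ[ℂ] (H →L[ℂ] H)) (v : B → H), DenseRange v ∧ (∀ a b, π a (v b) = v (a * b)) ∧
      ∀ a b, ⟪v a, v b⟫_ℂ = φ (star a * b) := by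
  let _ := CStarAlgebra.spectralOrder B
  have := CStarAlgebra.spectralOrderedRing B
  let f : B →ₚ[ℂ] ℂ := PositiveLinearMap.mk₀ φ fun x hx => by
    obtain ⟨y, rfl⟩ := CStarAlgebra.nonneg_iff_eq_star_mul_self.1 hx
    exact hpos y
  refine ⟨f.GNS, inferInstance, inferInstance, inferInstance, f.gnsStarAlgHom,
    fun b => ((f.toPreGNS b : f.PreGNS) : f.GNS),
    Completion.denseRange_coe.comp f.toPreGNS.surjective.denseRange (Completion.continuous_coe _),
    fun a b => f.gnsNonUnitalStarAlgHom_apply_coe, fun a b => Completion.inner_coe _ _⟩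

/-- The GNS representation of a state given as a positive unital linear functional. -/
theorem exists_gns_pos (φ : B →ₗ[ℂ] ℂ) (h1 : φ 1 = 1) (hpos : ∀ x, 0 ≤ φ (star x * x)) :
    ∃ (H : Type u) (_ : NormedAddCommGroup H) (_ : InnerProductSpace ℂ H) (_ : CompleteSpace H)
      (π : B →⋆ₐ[ℂ] (H →L[ℂ] H)) (ξ : H), ‖ξ‖ = 1 ∧ (∀ b, ⟪ξ, π b ξ⟫_ℂ = φ b) ∧
      ∀ x, (∀ b, φ (star (x * b) * (x * b)) = 0) → π x = 0 := by
  obtain ⟨H, _, _, _, π, v, hv, h2, h3⟩ := exists_gns_aux φ hpos
  refine ⟨H, _, _, _, π, v 1, ?_, fun b => by rw [h2, h3, star_one, one_mul, mul_one],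
    fun x hx => ContinuousLinearMap.ext fun w => ?_⟩
  · have := h3 1 1
    rw [star_one, one_mul, h1, inner_self_eq_norm_sq_to_K] at this
    exact (pow_eq_one_iff_of_nonneg (norm_nonneg _) two_ne_zero).1 
      (Complex.ofReal_injective (by simpa using this))
  · refine hv.induction_on w (isClosed_eq (π x).continuous continuous_const) fun b => ?_
    rw [h2, zero_apply, ← inner_self_eq_zero (𝕜 := ℂ), h3, hx]

/-- A unital contractive functional is positive. -/
theorem pos_of_norm_le (φ : B →L[ℂ] ℂ) (hφ : ‖φ‖ ≤ 1) (h1 : φ 1 = 1) (x : B) :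
    0 ≤ φ (star x * x) := by
  have : Nontrivial B := ⟨⟨1, 0, fun h => by rw [h, map_zero] at h1; exact zero_ne_one h1⟩⟩
  let _ := CStarAlgebra.spectralOrder B
  have := CStarAlgebra.spectralOrderedRing B
  refine state_pos φ (le_antisymm hφ ?_) h1 (star_mul_self_nonneg x)
  simpa [h1] using φ.le_opNorm 1

/-- A state is contractive. -/
theorem norm_state_le (φ : B →ₗ[ℂ] ℂ) (h1 : φ 1 = 1) (hpos : ∀ x, 0 ≤ φ (star x * x)) (x : B) :
    ‖φ x‖ ≤ ‖x‖ := by
  obtain ⟨H, _, _, _, π, ξ, hξ, h, -⟩ := exists_gns_pos φ h1 hpos
  rw [← h]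
  refine (norm_inner_le_norm _ _).trans ?_
  rw [hξ, one_mul]
  refine ((π x).le_opNorm ξ).trans ?_
  rw [hξ, mul_one]
  exact NonUnitalStarAlgHom.norm_apply_le π x

/-- Cauchy-Schwarz inequality for states. -/
theorem state_cauchy_schwarz (φ : B →ₗ[ℂ] ℂ) (_h1 : φ 1 = 1) (hpos : ∀ x, 0 ≤ φ (star x * x))
    (x y : B) : ‖φ (star x * y)‖ ^ 2 ≤ ‖φ (star x * x)‖ * ‖φ (star y * y)‖ := by
  obtain ⟨H, _, _, _, π, v, -, -, h3⟩ := exists_gns_aux φ hpos
  rw [← h3, ← h3, ← h3, inner_self_eq_norm_sq_to_K, inner_self_eq_norm_sq_to_K, norm_pow, norm_pow,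
    ← mul_pow, RCLike.norm_ofReal, RCLike.norm_ofReal, abs_norm, abs_norm]
  exact pow_le_pow_left₀ (norm_nonneg _) (norm_inner_le_norm _ _) 2

section Completion
variable {R : Type u} [SeminormedRing R] [NormedAlgebra ℂ R] [StarRing R] [StarModule ℂ R]

lemma exists_completion_aux (hstar : ∀ x : R, ‖star x‖ = ‖x‖)
    (hc : ∀ x : R, ‖x‖ * ‖x‖ ≤ ‖star x * x‖) :
    ∃ (C : Type u) (_ : CStarAlgebra C) (Φ : R →⋆ₐ[ℂ] C), DenseRange Φ ∧ ∀ x, ‖Φ x‖ = ‖x‖ := by
  have hu : UniformContinuous (star : R → R) :=
    (AddMonoidHomClass.isometry_of_norm (starAddEquiv : R ≃+ R) hstar).uniformContinuous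
  have hs : ∀ x : R, Completion.map star (x : Completion R) = (star x : R) :=
    Completion.map_coe hu
  have hcont : Continuous (Completion.map star : Completion R → Completion R) :=
    Completion.continuous_map
  let iS : StarRing (Completion R) :=
    { star := Completion.map star
      star_involutive := fun x => Completion.induction_on x
        (isClosed_eq (hcont.comp hcont) continuous_id) fun x => by
          change Completion.map star (Completion.map star (x : Completion R)) = _
          rw [hs, hs, star_star]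
      star_mul := fun x y => Completion.induction_on₂ x y
        (isClosed_eq (hcont.comp continuous_mul)
          ((hcont.comp continuous_snd).mul (hcont.comp continuous_fst))) fun x y => by
          change Completion.map star (x * y : Completion R) =
            Completion.map star (y : Completion R) * Completion.map star (x : Completion R)
          rw [← Completion.coe_mul, hs, hs, hs, star_mul, Completion.coe_mul]
      star_add := fun x y => Completion.induction_on₂ x y
        (isClosed_eq (hcont.comp continuous_add)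
          ((hcont.comp continuous_fst).add (hcont.comp continuous_snd))) fun x y => by
          change Completion.map star (x + y : Completion R) =
            Completion.map star (x : Completion R) + Completion.map star (y : Completion R)
          rw [← Completion.coe_add, hs, hs, hs, star_add, Completion.coe_add] }
  have hs' : ∀ x : R, star (x : Completion R) = (star x : R) := hs
  have hcont' : Continuous (star : Completion R → Completion R) := hcont
  let iA : NormedAlgebra ℂ (Completion R) :=
    { Completion.algebra R ℂ with norm_smul_le := norm_smul_le }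
  let iC : CStarAlgebra (Completion R) :=
    { norm_mul_self_le := fun x => Completion.induction_on x
        (isClosed_le (continuous_norm.mul continuous_norm) (hcont'.mul continuous_id).norm)
        fun x => by
          rw [hs', ← Completion.coe_mul, Completion.norm_coe, Completion.norm_coe]
          exact hc x
      star_smul := fun c x => Completion.induction_on x
        (isClosed_eq (hcont'.comp (continuous_const_smul c)) (hcont'.const_smul (star c))) fun x => by
          rw [← Completion.coe_smul, hs', hs', star_smul, Completion.coe_smul] }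
  refine ⟨Completion R, iC,
    { toFun := fun x => (x : Completion R)
      map_one' := Completion.coe_one R
      map_mul' := Completion.coe_mul
      map_zero' := Completion.coe_zero
      map_add' := Completion.coe_add
      commutes' := fun c => (Completion.algebraMap_def R ℂ c).symm
      map_star' := fun x => (hs' x).symm }, Completion.denseRange_coe, Completion.norm_coe⟩

end Completion

/-- The completion of a star algebra in a C*-seminorm. -/
theorem exists_completion {R : Type u} [Ring R] [Algebra ℂ R] [StarRing R] [StarModule ℂ R]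
    (N : R → ℝ) (hadd : ∀ x y, N (x + y) ≤ N x + N y) (hsmul : ∀ (c : ℂ) x, N (c • x) = ‖c‖ * N x)
    (hmul : ∀ x y, N (x * y) ≤ N x * N y) (hstar : ∀ x, N (star x) = N x)
    (hc : ∀ x, N x * N x ≤ N (star x * x)) :
    ∃ (C : Type u) (_ : CStarAlgebra C) (Φ : R →⋆ₐ[ℂ] C), DenseRange Φ ∧ ∀ x, ‖Φ x‖ = N x := by
  let n : AddGroupSeminorm R :=
    { toFun := N
      map_zero' := by simpa using hsmul 0 0
      add_le' := hadd
      neg' := fun x => by simpa using hsmul (-1) x }
  let i1 : SeminormedAddCommGroup R := n.toSeminormedAddCommGroup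
  let i2 : SeminormedRing R := { ‹Ring R›, i1 with norm_mul_le := hmul }
  let i3 : NormedAlgebra ℂ R := { ‹Algebra ℂ R› with norm_smul_le := fun c x => (hsmul c x).le }
  exact exists_completion_aux hstar hc

end Vale.Agent.P101.JS
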