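import Vale.Agent.P101.JBuild
import Vale.Agent.P101.JTools
import Vale.Agent.P101.JStates

/-! A locally flat inductive limit of prime dimension drop algebras. -/

namespace Vale.Agent.P101.JS
open Filter Topology TopologicalSpace

namespace JLimitAux

variable {A : ℕ → Type} [∀ n, CStarAlgebra (A n)] (φ : ∀ n, A n →⋆ₐ[ℂ] A (n + 1))

/-- The composite connecting maps. -/
noncomputable def tr {n m : ℕ} (h : n ≤ m) : A n →⋆ₐ[ℂ] A m :=
  Nat.leRec (motive := fun m _ => A n →⋆ₐ[ℂ] A m) (StarAlgHom.id ℂ (A n))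
    (fun k _ f => (φ k).comp f) h

lemma tr_self (n : ℕ) (z : A n) : tr φ (le_refl n) z = z := by
  rw [tr, Nat.leRec_self]
  rfl

lemma tr_succ {n m : ℕ} (h : n ≤ m) (z : A n) :
    tr φ (Nat.le_succ_of_le h) z = φ m (tr φ h z) := by
  rw [tr, Nat.leRec_succ _ _ h]
  rfl

/-- Eventually coherent sequences. -/
def Coh : StarSubalgebra ℂ (∀ n, A n) where
  carrier := {x | ∀ᶠ n in atTop, x (n + 1) = φ n (x n)}
  mul_mem' := fun {x y} hx hy => (hx.and hy).mono fun n h => by
    rw [Pi.mul_apply, Pi.mul_apply, map_mul, h.1, h.2]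
  add_mem' := fun {x y} hx hy => (hx.and hy).mono fun n h => by
    rw [Pi.add_apply, Pi.add_apply, map_add, h.1, h.2]
  algebraMap_mem' := fun c => Eventually.of_forall fun n => by
    simp [Algebra.algebraMap_eq_smul_one]
  star_mem' := fun {x} hx => hx.mono fun n h => by
    rw [Pi.star_apply, Pi.star_apply, map_star, h]

lemma coh_tr (x : Coh φ) : ∃ n, ∀ m (h : n ≤ m), x.1 m = tr φ h (x.1 n) := by
  obtain ⟨n, hn⟩ := eventually_atTop.1 x.2
  refine ⟨n, fun m h => ?_⟩
  induction m, h using Nat.le_induction with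
  | base => rw [tr_self]
  | succ m h ih => rw [tr_succ φ h, ← ih, hn m h]

/-- The sequence generated by an element of one stage. -/
noncomputable def emb (n : ℕ) (z : A n) : Coh φ :=
  ⟨fun m => if h : n ≤ m then tr φ h z else 0, eventually_atTop.2 ⟨n, fun m h => by
    simp only [dif_pos h, dif_pos (Nat.le_succ_of_le h), tr_succ φ h]⟩⟩

lemma emb_apply {n m : ℕ} (h : n ≤ m) (z : A n) : (emb φ n z).1 m = tr φ h z := dif_pos h

variable {φ}

lemma norm_tr (hφ : ∀ n, Function.Injective (φ n)) {n m : ℕ} (h : n ≤ m) (z : A n) :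
    ‖tr φ h z‖ = ‖z‖ := by
  induction m, h using Nat.le_induction with
  | base => rw [tr_self]
  | succ m h ih => rw [tr_succ φ h, NonUnitalStarAlgHom.norm_map (φ m) (hφ m), ih]

theorem exists_limit (hφ : ∀ n, Function.Injective (φ n)) :
    ∃ (Z : Type) (_ : CStarAlgebra Z) (ψ : ∀ n, A n →⋆ₐ[ℂ] Z), (∀ n, Function.Injective (ψ n)) ∧
      (∀ n z, ψ (n + 1) (φ n z) = ψ n z) ∧ Dense (⋃ n, Set.range (ψ n)) := by
  have hN : ∀ x : Coh φ, ∃ c, Tendsto (fun n => ‖x.1 n‖) atTop (𝓝 c) := fun x => by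
    obtain ⟨n, hn⟩ := coh_tr φ x
    exact ⟨‖x.1 n‖, tendsto_const_nhds.congr' (eventually_atTop.2 ⟨n, fun m h => by
      simp only [hn m h, norm_tr hφ]⟩)⟩
  choose N hN using hN
  obtain ⟨Z, _, Φ, hd, hΦ⟩ := exists_completion N
    (fun x y => le_of_tendsto_of_tendsto' (hN _) ((hN x).add (hN y)) fun n => norm_add_le _ _)
    (fun c x => tendsto_nhds_unique (hN _) (((hN x).const_mul ‖c‖).congr fun n =>
      (norm_smul c (x.1 n)).symm))
    (fun x y => le_of_tendsto_of_tendsto' (hN _) ((hN x).mul (hN y)) fun n => norm_mul_le _ _)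
    (fun x => tendsto_nhds_unique (hN _) ((hN x).congr fun n => (norm_star (x.1 n)).symm))
    (fun x => le_of_tendsto_of_tendsto' ((hN x).mul (hN x)) (hN _) fun n =>
      CStarRing.norm_star_mul_self.ge)
  have key : ∀ (x y : Coh φ) (n : ℕ), (∀ m, n ≤ m → x.1 m = y.1 m) → Φ x = Φ y := by
    intro x y n h
    rw [← sub_eq_zero, ← map_sub, ← norm_eq_zero, hΦ]
    refine tendsto_nhds_unique (hN _) (tendsto_const_nhds.congr' (eventually_atTop.2
      ⟨n, fun m hm => ?_⟩))
    change 0 = ‖x.1 m - y.1 m‖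
    rw [h m hm, sub_self, norm_zero]
  let ψ : ∀ n, A n →⋆ₐ[ℂ] Z := fun n =>
    { toFun := fun z => Φ (emb φ n z)
      map_one' := by
        rw [← map_one Φ]
        exact key _ _ n fun m h => by rw [emb_apply φ h, map_one]; rfl
      map_mul' := fun x y => by
        rw [← map_mul]
        refine key _ _ n fun m h => ?_
        change _ = (emb φ n x).1 m * (emb φ n y).1 m
        rw [emb_apply φ h, emb_apply φ h, emb_apply φ h, map_mul]
      map_zero' := by
        rw [← map_zero Φ]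
        exact key _ _ n fun m h => by rw [emb_apply φ h, map_zero]; rfl
      map_add' := fun x y => by
        rw [← map_add]
        refine key _ _ n fun m h => ?_
        change _ = (emb φ n x).1 m + (emb φ n y).1 m
        rw [emb_apply φ h, emb_apply φ h, emb_apply φ h, map_add]
      commutes' := fun c => by
        rw [← AlgHomClass.commutes Φ]
        exact key _ _ n fun m h => by rw [emb_apply φ h, AlgHomClass.commutes]; rfl
      map_star' := fun x => by
        rw [← map_star]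
        refine key _ _ n fun m h => ?_
        change _ = star ((emb φ n x).1 m)
        rw [emb_apply φ h, emb_apply φ h, map_star] }
  have hψ : ∀ n z, ψ n z = Φ (emb φ n z) := fun _ _ => rfl
  refine ⟨Z, inferInstance, ψ, fun n => ?_, fun n z => ?_, hd.mono ?_⟩
  · refine (injective_iff_map_eq_zero _).2 fun z hz => ?_
    have h1 : N (emb φ n z) = ‖z‖ :=
      tendsto_nhds_unique (hN _) (tendsto_const_nhds.congr' (eventually_atTop.2 ⟨n, fun m h => by
        simp only [emb_apply φ h, norm_tr hφ]⟩))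
    rw [← norm_eq_zero, ← h1, ← hΦ, ← hψ, hz, norm_zero]
  · refine key _ _ (n + 1) fun m h => ?_
    rw [emb_apply φ h, emb_apply φ (Nat.le_of_succ_le h)]
    induction m, h using Nat.le_induction with
    | base => rw [tr_self, tr_succ φ (le_refl n), tr_self]
    | succ m h ih => rw [tr_succ φ h, ih, tr_succ φ (Nat.le_of_succ_le h)]
  · rintro _ ⟨x, rfl⟩
    obtain ⟨n, hn⟩ := coh_tr φ x
    exact Set.mem_iUnion.2 ⟨n, x.1 n, key _ _ n fun m h => by rw [emb_apply φ h, hn m h]⟩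

/-- One stage of the construction. -/
structure St where
  p : ℕ
  q : ℕ
  hp : 0 < p
  hq : 0 < q
  hpq : Nat.Coprime p q
  d : ℕ → ℕ → DimDrop p q

lemma step (n : ℕ) (S : St) : ∃ (S' : St) (φ : DimDrop S.p S.q →⋆ₐ[ℂ] DimDrop S'.p S'.q),
    Function.Injective φ ∧ Flat (φ '' {x | ∃ k ≤ n, ∃ j ≤ n, x = S.d k j}) (1 / (n + 1)) ∧
    (∀ k j, k ≠ n + 1 → S'.d k j = φ (S.d k j)) ∧ DenseRange (S'.d (n + 1)) := by
  classical
  obtain ⟨p', q', φ, hp, hq, hpq, hφ, hF⟩ := exists_flat_step S.hp S.hq S.hpq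
    ((Finset.range (n + 1) ×ˢ Finset.range (n + 1)).image fun z => S.d z.1 z.2)
    (ε := 1 / (n + 1)) (by positivity)
  refine ⟨⟨p', q', hp, hq, hpq, fun k j => if k = n + 1 then denseSeq _ j else φ (S.d k j)⟩, φ,
    hφ, ?_, fun k j h => if_neg h, ?_⟩
  · obtain ⟨V, h1, h2, h3⟩ := hF
    refine ⟨V, h1, h2, ?_⟩
    rintro _ ⟨_, ⟨k, hk, j, hj, rfl⟩, rfl⟩
    refine h3 _ ⟨_, ?_, rfl⟩
    simp only [Finset.coe_image, Finset.coe_product, Finset.coe_range]
    exact ⟨(k, j), ⟨Nat.lt_succ_of_le hk, Nat.lt_succ_of_le hj⟩, rfl⟩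
  · simpa using denseRange_denseSeq (DimDrop p' q')

end JLimitAux

open JLimitAux in
theorem exists_flat_limit : ∃ (Z : Type) (_ : CStarAlgebra Z), IsDropLimit Z ∧ LocFlat Z := by
  choose next φ hinj hflat hd hdense using step
  let S : ℕ → St := fun n => Nat.rec ⟨1, 1, one_pos, one_pos, Nat.coprime_one_left 1,
    fun _ _ => 0⟩ (fun n S => next n S) n
  obtain ⟨Z, _, ψ, h1, h2, h3⟩ := exists_limit (A := fun n => DimDrop (S n).p (S n).q)
    (φ := fun n => φ n (S n)) fun n => hinj n (S n)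
  have hr : ∀ n, Set.range (ψ n) ⊆ Set.range (ψ (n + 1)) := by
    rintro n _ ⟨z, rfl⟩
    exact ⟨_, h2 n z⟩
  refine ⟨Z, inferInstance, ⟨fun n => (S n).p, fun n => (S n).q, ψ,
    fun n => ⟨(S n).hp, (S n).hq, (S n).hpq⟩, h1, hr, h3⟩, fun s ε hε => ?_⟩
  have hs : ∀ k j m, k ≤ m → ψ m ((S m).d k j) = ψ k ((S k).d k j) := by
    intro k j m h
    induction m, h using Nat.le_induction with
    | base => rfl
    | succ m h ih => rw [← ih, ← h2 m, ← hd m (S m) k j (by omega)]
  have happ : ∀ z : Z, ∃ k j, ‖ψ k ((S k).d k j) - z‖ < ε := by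
    intro z
    obtain ⟨y, hy, hz⟩ := h3.exists_dist_lt z (half_pos hε)
    obtain ⟨n, hn⟩ := Set.mem_iUnion.1 hy
    obtain ⟨x, rfl⟩ := hr n hn
    obtain ⟨j, hj⟩ := (hdense n (S n)).exists_dist_lt x (half_pos hε)
    refine ⟨n + 1, j, ?_⟩
    have h4 : ‖ψ (n + 1) ((S (n + 1)).d (n + 1) j) - ψ (n + 1) x‖ < ε / 2 := by
      rw [← map_sub]
      refine (NonUnitalStarAlgHom.norm_apply_le (ψ (n + 1)) _).trans_lt ?_
      rwa [← dist_eq_norm, dist_comm]
    rw [dist_comm, dist_eq_norm] at hz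
    have := norm_sub_le_norm_sub_add_norm_sub (ψ (n + 1) ((S (n + 1)).d (n + 1) j))
      (ψ (n + 1) x) z
    linarith
  choose k j hkj using happ
  obtain ⟨m0, hm0⟩ := exists_nat_one_div_lt hε
  set m := m0 + s.sup k + s.sup j with hm
  have hk : ∀ z ∈ s, k z ≤ m := fun z hz => by have := Finset.le_sup (f := k) hz; omega
  have hj : ∀ z ∈ s, j z ≤ m := fun z hz => by have := Finset.le_sup (f := j) hz; omega
  refine ⟨_, _, ψ (m + 1), fun z => φ m (S m) ((S m).d (k z) (j z)), (S (m + 1)).hp,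
    (S (m + 1)).hq, fun z hz => ?_, ?_⟩
  · rw [h2 m, hs _ _ _ (hk z hz)]
    exact hkj z
  · obtain ⟨V, v1, v2, v3⟩ := hflat m (S m)
    refine ⟨V, v1, v2, ?_⟩
    rintro _ ⟨z, hz, rfl⟩ t
    refine (v3 _ ⟨_, ⟨k z, hk z hz, j z, hj z hz, rfl⟩, rfl⟩ t).trans (le_trans ?_ hm0.le)
    exact Nat.one_div_le_one_div (by omega)

end Vale.Agent.P101.JS
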