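import Vale.Agent.P101.JFlat
import Vale.Agent.P101.JLimit
import Vale.Agent.P101.JFlatFlip

/-! The Jiang-Su algebra exists and has approximately inner half flip. -/

namespace Vale.Agent.P101.JS

universe u

theorem isJiangSu_of_maxFlip {Z : Type u} [CStarAlgebra Z] (h : IsDropLimit Z) (hf : MaxFlip Z) :
    IsJiangSu Z := by
  classical
  have := h.separable
  obtain ⟨C, _, i, j, hm⟩ := exists_minTensor Z Z
  choose v hv hz using fun n : ℕ => hf C i j hm.commute
    ((Finset.range (n + 1)).image (TopologicalSpace.denseSeq Z)) (1 / (n + 1)) (by positivity)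
  refine ⟨?_, C, inferInstance, i, j, hm, fun n => ⟨v n, hv n⟩, fun d => ?_⟩
  · obtain ⟨p, q, ψ, h1, h2, h3, h4⟩ := h
    exact ⟨p, q, ψ, fun n => ⟨(h1 n).1, (h1 n).2.1, (h1 n).2.2, h2 n, h3 n⟩, h4⟩
  · refine Metric.tendsto_atTop.2 fun ε hε => ?_
    have hδ : 0 < ε / 3 := by positivity
    obtain ⟨k, hk⟩ := (TopologicalSpace.denseRange_denseSeq Z).exists_dist_lt d hδ
    obtain ⟨m, hm⟩ := exists_nat_one_div_lt hδ
    refine ⟨max k m, fun n hn => ?_⟩
    set y := TopologicalSpace.denseSeq Z k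
    rw [dist_eq_norm] at hk ⊢
    have h1 := (hz n y (Finset.mem_image.2 ⟨k, Finset.mem_range.2 (by omega), rfl⟩)).trans
      ((Nat.one_div_le_one_div (by omega : m ≤ n)).trans_lt hm)
    have h2 : ‖v n * i (d - y) * star (v n)‖ < ε / 3 := by
      rw [CStarRing.norm_mul_mem_unitary _ (Unitary.star_mem (hv n)),
        CStarRing.norm_mem_unitary_mul _ (hv n)]
      exact (NonUnitalStarAlgHom.norm_apply_le i _).trans_lt hk
    have h3 : ‖j (d - y)‖ < ε / 3 := (NonUnitalStarAlgHom.norm_apply_le j _).trans_lt hk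
    have e : v n * i d * star (v n) - j d =
        (v n * i y * star (v n) - j y) + v n * i (d - y) * star (v n) - j (d - y) := by
      simp only [map_sub]
      noncomm_ring
    change ‖v n * i d * star (v n) - j d‖ < ε
    rw [e]
    have := norm_sub_le ((v n * i y * star (v n) - j y) + v n * i (d - y) * star (v n)) (j (d - y))
    have := norm_add_le (v n * i y * star (v n) - j y) (v n * i (d - y) * star (v n))
    linarith

theorem IsJS.isJiangSu {Z : Type u} [CStarAlgebra Z] (h : IsJS Z) : IsJiangSu Z :=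
  isJiangSu_of_maxFlip h.limit h.locFlat.maxFlip

theorem exists_isJS : ∃ (Z : Type) (_ : CStarAlgebra Z), IsJS Z :=
  have ⟨Z, i, h, hf⟩ := exists_flat_limit
  ⟨Z, i, h.isJS hf.maxFlip⟩

end Vale.Agent.P101.JS
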