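import Vale.Agent.P101.JBasic

/-! A continuous path of representations that are all close to a fixed one up to unitary
equivalence. -/

namespace Vale.Agent.P101.JS
open scoped Matrix.Norms.L2Operator

namespace PathAux
open Complex selfAdjoint Unitary Set Filter Topology Metric

variable {A : Type*} [CStarAlgebra A]

lemma exp_arg (u : unitary A) (h : (spectrum ℂ (u : A)).Finite) :
    expUnitary (argSelfAdjoint u) = u := by
  ext
  have : ContinuousOn arg (spectrum ℂ (u : A)) := h.continuousOn _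
  rw [expUnitary_coe, argSelfAdjoint_coe, ← CFC.exp_eq_normedSpace_exp (𝕜 := ℂ),
    ← cfc_comp_smul .., ← cfc_comp' ..]
  conv_rhs => rw [← cfc_id' ℂ (u : A)]
  refine cfc_congr fun y hy ↦ ?_
  have hy₁ : ‖y‖ = 1 := spectrum.norm_eq_one_of_unitary u.2 hy
  have : I * y.arg = log y :=
    Complex.ext (by simp [log_re, spectrum.norm_eq_one_of_unitary u.2 hy]) (by simp [log_im])
  simpa [← exp_eq_exp_ℂ, this] using exp_log (by aesop)

lemma joined_comm (u : unitary A) (h : (spectrum ℂ (u : A)).Finite) :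
    JoinedIn {v : unitary A | ∀ x, Commute (u : A) x → Commute (v : A) x} 1 u := by
  refine ⟨(expUnitaryPathToOne (argSelfAdjoint u)).cast rfl (exp_arg u h).symm, fun t x hx => ?_⟩
  have h2 : Commute (star (u : A)) x := Commute.units_inv_left (u := Unitary.toUnits u) hx
  change Commute (expUnitary ((t : ℝ) • argSelfAdjoint u) : A) x
  rw [expUnitary_coe]
  exact (((hx.cfc h2 _).smul_left (t : ℝ)).smul_left I).exp_left

lemma norm_conj (W : unitary A) (x : A) : ‖W * x * star (W : A)‖ = ‖x‖ := by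
  rw [← Unitary.coe_star, CStarRing.norm_mul_coe_unitary, CStarRing.norm_coe_unitary_mul]

lemma norm_conj_sub (W V : unitary A) (x : A) :
    ‖W * x * star (W : A) - V * x * star (V : A)‖ ≤ 2 * ‖x‖ * dist W V := by
  have : W * x * star (W : A) - V * x * star (V : A) =
      (W - V : A) * x * star (W : A) + V * x * star (W - V : A) := by
    simp only [star_sub]; noncomm_ring
  rw [this, Subtype.dist_eq, dist_eq_norm]
  refine (norm_add_le _ _).trans ?_
  rw [← Unitary.coe_star, CStarRing.norm_mul_coe_unitary, mul_assoc, CStarRing.norm_coe_unitary_mul]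
  have h1 := norm_mul_le (W - V : A) x
  have h2 := norm_mul_le x (star (W - V : A))
  rw [norm_star] at h2
  linarith

theorem path [CompactSpace (unitary A)] (hA : ∀ u : A, (spectrum ℂ u).Finite) {C : Type*}
    (φ : C → C(unitInterval, A)) {Ξ : Type*} [MetricSpace Ξ] [CompactSpace Ξ]
    (D : Ξ → C → A) (hD : ∀ f, Continuous fun ξ => D ξ f)
    (h₁ : ∀ t, ∃ ξ, ∃ W ∈ unitary A, ∀ f, φ f t = W * D ξ f * star W)
    (h₂ : ∀ ξ ξ', ∀ W ∈ unitary A, (∀ f, D ξ f = W * D ξ' f * star W) → ξ = ξ')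
    (F : Finset C) {ε : ℝ} (hε : 0 < ε) (h₃ : ∀ ξ ξ', ∀ f ∈ F, ‖D ξ f - D ξ' f‖ ≤ ε) :
    ∃ V : C(unitInterval, A), (∀ t, V t ∈ unitary A) ∧ V 0 = 1 ∧
      ∀ f ∈ F, ∀ t, ‖φ f t - V t * φ f 0 * star (V t)‖ ≤ 5 * ε := by
  obtain ⟨ξ₀, W₀, hW₀, h₀⟩ := h₁ 0
  let S : unitInterval → Set (unitary A) := fun t => {W | ∃ ξ, ∀ f, φ f t = W * D ξ f * star (W : A)}
  have S0 : ∀ t, (S t).Nonempty := fun t => let ⟨ξ, W, hW, h⟩ := h₁ t; ⟨⟨W, hW⟩, ξ, h⟩
  have S1 : ∀ t, ∀ W ∈ S t, ∀ W' ∈ S t, JoinedIn (S t) W W' := by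
    rintro t W ⟨ξ, h⟩ W' ⟨ξ', h'⟩
    have e : ∀ f, D ξ f = (star W * W' : unitary A) * D ξ' f * star ((star W * W' : unitary A) : A) :=
      fun f => by
        have : star (W : A) * (W * D ξ f * star (W : A)) * W = D ξ f := by
          simp [mul_assoc, ← mul_assoc (star (W : A))]
        rw [← this, ← h, h']
        simp [mul_assoc]
    obtain rfl := h₂ _ _ _ (star W * W').2 e
    have := (joined_comm (star W * W') (hA _)).map (continuous_const_mul W)
    rw [mul_one, ← mul_assoc, Unitary.mul_star_self, one_mul] at this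
    refine this.mono ?_
    rintro _ ⟨v, hv, rfl⟩
    refine ⟨ξ, fun f => ?_⟩
    have c := hv (D ξ f) (by
      have := congrArg (· * ((star W * W' : unitary A) : A)) (e f)
      simp only [mul_assoc, Unitary.star_mul_self_of_mem (star W * W').2, mul_one] at this
      exact this.symm)
    rw [h, Submonoid.coe_mul, star_mul, mul_assoc (W : A) v, c.eq]
    simp [mul_assoc, ← mul_assoc (v : A)]
  set M := ∑ f ∈ F, ‖D ξ₀ f‖ with hM
  have M0 : 0 ≤ M := by positivity
  set δ := min 1 (ε / (M + 1)) with hδ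
  have δ0 : 0 < δ := by positivity
  let T : unitInterval → Set (unitary A) := fun t => {W | ∃ W' ∈ S t, dist W W' < δ}
  have T1 : ∀ t, ∀ W ∈ T t, ∀ W' ∈ T t, JoinedIn (T t) W W' := by
    have j : ∀ t, ∀ W, ∀ V ∈ S t, dist W V < δ → JoinedIn (T t) W V := fun t W V hV h =>
      ((isPathConnected_ball V δ δ0 ((min_le_left _ _).trans_lt one_lt_two)).joinedIn W h V
        (mem_ball_self δ0)).mono fun U hU => ⟨V, hV, hU⟩
    rintro t W ⟨V, hV, h⟩ W' ⟨V', hV', h'⟩
    exact ((j t W V hV h).trans ((S1 t V hV V' hV').mono fun U hU =>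
      ⟨U, hU, by simpa using δ0⟩)).trans (j t W' V' hV' h').symm
  let G : unitInterval → unitary A → Prop := fun t W =>
    ∀ f ∈ F, ‖φ f t - W * D ξ₀ f * star (W : A)‖ ≤ 5 * ε
  have loc : ∀ t, ∀ᶠ s in 𝓝 t, S s ⊆ T t ∧ ∀ W ∈ T t, G s W := fun t => by
    refine Eventually.and ?_ ?_
    · have := (isCompact_univ (X := Ξ × unitary A)).eventually_forall_of_forall_eventually (x₀ := t)
        (P := fun s y => (∀ f, φ f s = y.2 * D y.1 f * star (y.2 : A)) → y.2 ∈ T t) fun y _ => by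
          by_cases h : ∀ f, φ f t = y.2 * D y.1 f * star (y.2 : A)
          · have : ∀ᶠ z : unitInterval × Ξ × unitary A in 𝓝 (t, y), dist z.2.2 y.2 < δ :=
              (continuous_snd.snd.dist continuous_const).continuousAt.eventually_lt
                continuousAt_const (by simpa using δ0)
            exact this.mono fun z hz _ => ⟨y.2, ⟨y.1, h⟩, hz⟩
          · obtain ⟨f, hf⟩ := not_forall.mp h
            have := hD f
            have : ∀ᶠ z : unitInterval × Ξ × unitary A in 𝓝 (t, y),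
                φ f z.1 ≠ z.2.2 * D z.2.1 f * star (z.2.2 : A) :=
              (isOpen_ne_fun (by fun_prop) (by fun_prop)).mem_nhds hf
            exact this.mono fun z hz h => (hz (h f)).elim
      exact this.mono fun s hs W ⟨ξ, h⟩ => hs (ξ, W) trivial h
    · have : ∀ᶠ s in 𝓝 t, ∀ f ∈ F, ‖φ f s - φ f t‖ < ε := (eventually_all_finset F).mpr fun f _ =>
        ((φ f).continuous.sub continuous_const).norm.continuousAt.eventually_lt continuousAt_const
          (by simpa using hε)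
      filter_upwards [this] with s hs W ⟨V, ⟨ξ, h⟩, hV⟩ f hf
      have a1 := norm_conj V (D ξ f - D ξ₀ f)
      rw [mul_sub, sub_mul, ← h] at a1
      have a2 := norm_conj_sub V W (D ξ₀ f)
      have a3 : ‖D ξ₀ f‖ ≤ M := Finset.single_le_sum (f := fun f => ‖D ξ₀ f‖)
        (fun _ _ => norm_nonneg _) hf
      have a4 := (lt_div_iff₀ (by positivity)).mp (hV.trans_le (min_le_right _ _))
      have a5 := norm_sub_le_norm_sub_add_norm_sub (φ f s) (φ f t) (W * D ξ₀ f * star (W : A))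
      have a6 := norm_sub_le_norm_sub_add_norm_sub (φ f t) (V * D ξ₀ f * star (V : A))
        (W * D ξ₀ f * star (W : A))
      rw [dist_comm] at a2
      nlinarith [hs f hf, h₃ ξ ξ₀ f hf, dist_nonneg (x := W) (y := V)]
  obtain ⟨t, t0, t1, ⟨m, t2⟩, t3⟩ := exists_monotone_Icc_subset_open_cover_unitInterval
    (c := fun t => interior {s | S s ⊆ T t ∧ ∀ W ∈ T t, G s W}) (fun _ => isOpen_interior)
    fun t _ => mem_iUnion.mpr ⟨t, mem_interior_iff_mem_nhds.mpr (loc t)⟩
  have key : ∀ k, ∃ γ : unitInterval → unitary A, Continuous γ ∧ γ 0 = ⟨W₀, hW₀⟩ ∧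
      γ (t k) ∈ S (t k) ∧ ∀ s ≤ t k, G s (γ s) := fun k => by
    induction k with
    | zero =>
      refine ⟨fun _ => ⟨W₀, hW₀⟩, continuous_const, rfl, t0 ▸ ⟨ξ₀, h₀⟩, fun s hs f _ => ?_⟩
      obtain rfl : s = 0 := le_antisymm (t0 ▸ hs) s.2.1
      simp [h₀, hε.le]
    | succ k ih =>
      obtain ⟨γ, g1, g2, g3, g4⟩ := ih
      rcases (t1 k.le_succ).eq_or_lt with h | h
      · exact ⟨γ, g1, g2, h ▸ g3, h ▸ g4⟩
      obtain ⟨i, hi⟩ := t3 k
      replace hi := hi.trans interior_subset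
      obtain ⟨W, hW⟩ := S0 (t (k + 1))
      obtain ⟨p, hp⟩ := T1 i _ ((hi ⟨le_rfl, h.le⟩).1 g3) W ((hi ⟨h.le, le_rfl⟩).1 hW)
      refine ⟨fun s => if s ≤ t k then γ s else p.extend ((s - t k) / (t (k + 1) - t k)),
        g1.if_le (by fun_prop) continuous_id continuous_const fun s hs => by simp [hs],
        (if_pos (t k).2.1).trans g2, ?_, fun s hs => ?_⟩
      · have : (t (k + 1) - t k : ℝ) ≠ 0 := sub_ne_zero.mpr (Subtype.coe_lt_coe.mpr h).ne'
        simp only [if_neg h.not_ge, div_self this, Path.extend_one]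
        exact hW
      · by_cases h' : s ≤ t k
        · simpa only [if_pos h'] using g4 s h'
        · simp only [if_neg h']
          exact (hi ⟨(not_le.mp h').le, hs⟩).2 _ (hp _)
  obtain ⟨γ, g1, g2, -, g4⟩ := key m
  refine ⟨⟨fun s => γ s * star W₀, by fun_prop⟩, fun s => mul_mem (γ s).2 (Unitary.star_mem hW₀),
    by simp [g2, Unitary.mul_star_self_of_mem hW₀], fun f hf s => ?_⟩
  have := g4 s (t2 m le_rfl ▸ s.2.2) f hf
  simpa [h₀, mul_assoc, ← mul_assoc (star W₀), Unitary.star_mul_self_of_mem hW₀] using this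

end PathAux

theorem exists_path {n : Type} [Fintype n] [DecidableEq n] {C : Type*}
    (φ : C → C(unitInterval, Matrix n n ℂ)) {Ξ : Type*} [MetricSpace Ξ] [CompactSpace Ξ]
    (D : Ξ → C → Matrix n n ℂ) (hD : ∀ f, Continuous fun ξ => D ξ f)
    (h₁ : ∀ t, ∃ ξ, ∃ W ∈ unitary (Matrix n n ℂ), ∀ f, φ f t = W * D ξ f * star W)
    (h₂ : ∀ ξ ξ', ∀ W ∈ unitary (Matrix n n ℂ), (∀ f, D ξ f = W * D ξ' f * star W) → ξ = ξ')
    (F : Finset C) {ε : ℝ} (hε : 0 < ε) (h₃ : ∀ ξ ξ', ∀ f ∈ F, ‖D ξ f - D ξ' f‖ ≤ ε) :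
    ∃ V : C(unitInterval, Matrix n n ℂ), (∀ t, V t ∈ unitary (Matrix n n ℂ)) ∧ V 0 = 1 ∧
      ∀ f ∈ F, ∀ t, ‖φ f t - V t * φ f 0 * star (V t)‖ ≤ 5 * ε := by
  have : CompactSpace (unitary (Matrix n n ℂ)) := isCompact_iff_compactSpace.mp
    ((isCompact_closedBall (0 : Matrix n n ℂ) 1).of_isClosed_subset isClosed_unitary fun u hu => by
      nontriviality Matrix n n ℂ
      simpa using (CStarRing.norm_of_mem_unitary hu).le)
  exact PathAux.path (A := Matrix n n ℂ) (fun u => Matrix.finite_spectrum u) φ D hD h₁ h₂ F hε h₃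

end Vale.Agent.P101.JS
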