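import Vale.Agent.P101.JStdDefs

/-! Comparison of standard representations through their traces. -/

namespace Vale.Agent.P101.JS
open scoped Matrix.Norms.L2Operator

variable {p q : ℕ} [NeZero p] [NeZero q] {r₀ N r₁ : ℕ}

namespace SortedAux

lemma trace_blocks {m n : Type} [Fintype m] [Fintype n] (a : Matrix m m ℂ) (b : Matrix n n ℂ) :
    Matrix.trace (Matrix.fromBlocks a 0 0 b) = a.trace + b.trace := by
  simp [Matrix.trace, Fintype.sum_sum_type]

lemma count {ξ ξ' : Fin N → unitInterval} (h : Monotone ξ) (h' : Monotone ξ') (i : Fin N)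
    {g g' : unitInterval → ℝ} (g0 : ∀ t, 0 ≤ g t) (g1 : ∀ t ≤ ξ i, 1 ≤ g t) (g2 : ∀ t, g' t ≤ 1)
    (g3 : ∀ t, ξ' i ≤ t → g' t ≤ 0) : ∑ m, g' (ξ' m) < ∑ m, g (ξ m) :=
  calc ∑ m, g' (ξ' m) ≤ ∑ m, if m < i then (1 : ℝ) else 0 := Finset.sum_le_sum fun m _ => by
        split_ifs with hm
        exacts [g2 _, g3 _ (h' (not_lt.mp hm))]
    _ < ∑ m, if m ≤ i then (1 : ℝ) else 0 := Finset.sum_lt_sum (fun m _ => by
        by_cases hm : m < i
        · rw [if_pos hm, if_pos hm.le]
        · rw [if_neg hm]; positivity) ⟨i, Finset.mem_univ _, by simp⟩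
    _ ≤ _ := Finset.sum_le_sum fun m _ => by
        split_ifs with hm
        exacts [g1 _ (h hm), g0 _]

end SortedAux
open SortedAux

theorem trace_block_scal (ξ : Fin N → unitInterval) (g : C(unitInterval, ℂ)) :
    Matrix.trace (block p q r₀ r₁ ξ (scal p q g)) =
      (p * r₀ : ℕ) * g 0 + (p * q : ℕ) * ∑ m, g (ξ m) + (q * r₁ : ℕ) * g 1 := by
  have h0 : left p q (scal p q g) = g 0 • 1 := by
    ext i j
    change (g 0 • (1 : Mat p q)) (i, 0) (j, 0) = _
    simp [Matrix.one_apply]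
  have h1 : right p q (scal p q g) = g 1 • 1 := by
    ext i j
    change (g 1 • (1 : Mat p q)) (0, i) (0, j) = _
    simp [Matrix.one_apply]
  rw [block_apply, trace_blocks, trace_blocks, Matrix.trace_kronecker, Matrix.trace_kronecker,
    Matrix.trace_blockDiagonal, h0, h1]
  simp [← Finset.sum_mul]
  ring

theorem eq_of_trace_eq {ξ ξ' : Fin N → unitInterval} (h : Monotone ξ) (h' : Monotone ξ')
    (H : ∀ g, Matrix.trace (block p q r₀ r₁ ξ (scal p q g)) =
      Matrix.trace (block p q r₀ r₁ ξ' (scal p q g))) : ξ = ξ' := by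
  have key : ∀ {ξ ξ' : Fin N → unitInterval}, Monotone ξ → Monotone ξ' →
      (∀ g : C(unitInterval, ℂ), ∑ m, g (ξ m) = ∑ m, g (ξ' m)) → ∀ i, ξ' i ≤ ξ i :=
    fun {ξ ξ'} h h' H i => not_lt.mp fun hi => by
      have hi : (0 : ℝ) < ξ' i - ξ i := sub_pos.mpr hi
      have := H ⟨fun t => ((max 0 (min 1 ((ξ' i - t) / (ξ' i - ξ i))) : ℝ) : ℂ), by fun_prop⟩
      simp only [ContinuousMap.coe_mk, ← Complex.ofReal_sum, Complex.ofReal_inj] at this
      exact (count h h' i (g := fun t => max 0 (min 1 ((ξ' i - t) / (ξ' i - ξ i))))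
        (g' := fun t => max 0 (min 1 ((ξ' i - t) / (ξ' i - ξ i))))
        (fun _ => le_max_left _ _) (fun t ht => le_max_of_le_right (le_min le_rfl
        ((one_le_div hi).mpr (sub_le_sub_left (Subtype.coe_le_coe.mpr ht) _)))) (fun _ => max_le zero_le_one (min_le_left _ _))
        fun t ht => max_le le_rfl (min_le_of_right_le
          (div_nonpos_of_nonpos_of_nonneg (sub_nonpos.mpr (Subtype.coe_le_coe.mpr ht)) hi.le))).ne' this
  have e : ∀ g : C(unitInterval, ℂ), ∑ m, g (ξ m) = ∑ m, g (ξ' m) := fun g => by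
    have := H g
    rw [trace_block_scal, trace_block_scal, add_left_inj, add_right_inj] at this
    exact mul_left_cancel₀ (Nat.cast_ne_zero.mpr (mul_ne_zero (NeZero.ne p) (NeZero.ne q))) this
  exact funext fun i => le_antisymm (key h' h (fun g => (e g).symm) i) (key h h' e i)

theorem le_of_trace_lt {ξ ξ' : Fin N → unitInterval} (h : Monotone ξ) (h' : Monotone ξ')
    {K : ℕ} (hK : 0 < K)
    (H : ∀ k, k + 2 ≤ K → (Matrix.trace (block p q r₀ r₁ ξ (scal p q (ramp K k)))).re <
      (Matrix.trace (block p q r₀ r₁ ξ' (scal p q (ramp K (k + 1))))).re) (i : Fin N) :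
    (ξ' i : ℝ) ≤ ξ i + 3 / K := by
  refine not_lt.mp fun hi => ?_
  have K0 : (0 : ℝ) < K := Nat.cast_pos.mpr hK
  set k := ⌈(K : ℝ) * ξ i⌉₊ with hk
  have a1 : (K : ℝ) * ξ i ≤ k := Nat.le_ceil _
  have a2 : (k : ℝ) < K * ξ i + 1 := Nat.ceil_lt_add_one (mul_nonneg K0.le (ξ i).2.1)
  have a3 : (k : ℝ) + 2 < K * ξ' i := by
    have := mul_lt_mul_of_pos_left hi K0
    rw [mul_add, mul_div_cancel₀ _ K0.ne'] at this
    linarith
  have a4 : (k : ℝ) + 2 ≤ K := a3.le.trans (mul_le_of_le_one_right K0.le (ξ' i).2.2)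
  have k0 : (0 : ℝ) ≤ k := k.cast_nonneg
  have := H k (by exact_mod_cast a4)
  simp only [trace_block_scal, ramp_apply, ← Complex.ofReal_sum, ← Complex.ofReal_natCast,
    ← Complex.ofReal_mul, ← Complex.ofReal_add, Complex.ofReal_re, Set.Icc.coe_zero,
    Set.Icc.coe_one, mul_zero, sub_zero, mul_one, Nat.cast_succ] at this
  rw [min_eq_left (by linarith), min_eq_left (a := 1) (b := (k : ℝ) + 1 + 1) (by linarith),
    max_eq_left (b := min 1 ((k : ℝ) + 1 - K)) (min_le_of_right_le (by linarith)),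
    max_eq_left (b := min 1 ((k : ℝ) + 1 + 1 - K)) (min_le_of_right_le (by linarith)),
    add_lt_add_iff_right, add_lt_add_iff_left] at this
  refine (lt_of_mul_lt_mul_left this (Nat.cast_nonneg _)).not_gt (count h h' i
    (g := fun t => max 0 (min 1 (k + 1 - K * t))) (g' := fun t => max 0 (min 1 (k + 1 + 1 - K * t)))
    (fun _ => le_max_left _ _) (fun t ht => le_max_of_le_right (le_min le_rfl ?_))
    (fun _ => max_le zero_le_one (min_le_left _ _)) fun t ht => max_le le_rfl (min_le_of_right_le ?_))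
  · linarith [mul_le_mul_of_nonneg_left (Subtype.coe_le_coe.mpr ht) K0.le]
  · linarith [mul_le_mul_of_nonneg_left (Subtype.coe_le_coe.mpr ht) K0.le]

theorem norm_block_sub_le {ξ ξ' : Fin N → unitInterval} (f : DimDrop p q) {ε : ℝ} (hε : 0 ≤ ε)
    (h : ∀ i, ‖f.1 (ξ i) - f.1 (ξ' i)‖ ≤ ε) :
    ‖block p q r₀ r₁ ξ f - block p q r₀ r₁ ξ' f‖ ≤ ε := by
  have : block p q r₀ r₁ ξ f - block p q r₀ r₁ ξ' f = blockSum _ _ (0, blockSum _ _
      (blockPi _ _ fun i => f.1 (ξ i) - f.1 (ξ' i), 0)) := by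
    rw [block_apply, block_apply]
    ext (i | i | i) (j | j | j) <;> simp [Matrix.blockDiagonal_apply]
    split_ifs <;> simp
  rw [this]
  refine (NonUnitalStarAlgHom.norm_apply_le _ _).trans ?_
  rw [Prod.norm_def, norm_zero]
  refine max_le hε ((NonUnitalStarAlgHom.norm_apply_le _ _).trans ?_)
  rw [Prod.norm_def, norm_zero]
  exact max_le ((NonUnitalStarAlgHom.norm_apply_le _ _).trans
    ((pi_norm_le_iff_of_nonneg hε).mpr h)) hε

theorem continuous_block (f : DimDrop p q) :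
    Continuous fun ξ : Fin N → unitInterval => block p q r₀ r₁ ξ f := by
  simp only [block_apply]
  exact continuous_const.matrix_fromBlocks continuous_const continuous_const
    ((Continuous.matrix_blockDiagonal (by fun_prop)).matrix_fromBlocks continuous_const
      continuous_const continuous_const)

end Vale.Agent.P101.JS
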