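import Vale.Agent.P101.JTools
import Vale.Agent.P101.JStates
import Vale.Agent.P101.Nuc
import Vale.Agent.P101.Exist

/-! Simplicity and uniqueness of the trace from the half flip. -/

namespace Vale.Agent.P101.JS
open Filter Topology
open scoped InnerProductSpace ComplexOrder TensorProduct

universe u
variable {Z : Type u} [CStarAlgebra Z]

theorem MaxFlip.simple [TopologicalSpace.SeparableSpace Z] (hf : MaxFlip Z) (I : TwoSidedIdeal Z)
    (hI : IsClosed (I : Set Z)) : I = ⊥ ∨ I = ⊤ := by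
  by_cases ht : I = ⊤
  · exact Or.inr ht
  left
  let J : Ideal Z := I.asIdeal
  haveI hJ : IsClosed (J : Set Z) := hI
  haveI : IsStarIdeal J := isStarIdeal_of_closed J hI
  haveI : Nontrivial (Z ⧸ J) := ⟨⟨1, 0, fun h => ht (I.eq_top (by
    have : Ideal.Quotient.mk J 1 = 0 := h
    exact Ideal.Quotient.eq_zero_iff_mem.1 this))⟩⟩
  haveI : TopologicalSpace.SeparableSpace (Z ⧸ J) :=
    (Ideal.Quotient.mk_surjective (I := J)).denseRange.separableSpace (hom_cont (qmk J))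
  obtain ⟨C, _, i, j, hij⟩ := exists_minTensor Z (Z ⧸ J)
  refine eq_bot_iff.2 fun x hx => ?_
  have h0 : qmk J x = 0 := Ideal.Quotient.eq_zero_iff_mem.2 hx
  have h1 : i x = 0 := by
    refine norm_le_zero_iff.1 (le_of_forall_pos_le_add fun ε hε => ?_)
    obtain ⟨v, hv, h⟩ := hf C i (j.comp (qmk J)) (fun a b => hij.commute a _) {x} ε hε
    have h2 := h x (Finset.mem_singleton_self x)
    rw [StarAlgHom.comp_apply, h0, map_zero, sub_zero, CStarRing.norm_mul_mem_unitary _ (Unitary.star_mem hv),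
      CStarRing.norm_mem_unitary_mul _ hv] at h2
    linarith
  exact hij.injective_left (h1.trans (map_zero i).symm)

theorem MaxFlip.trace_unique (hf : MaxFlip Z) {τ τ' : Z →ₗ[ℂ] ℂ} (h : IsTracialState τ)
    (h' : IsTracialState τ') : τ = τ' := by
  obtain ⟨H, _, _, _, π, ξ, hξ, hπ, -⟩ := exists_gns_pos τ h.1 h.2.1
  obtain ⟨K, _, _, _, ρ, ζ, hζ, hρ, -⟩ := exists_gns_pos τ' h'.1 h'.2.1
  obtain ⟨I, J, hIJ, hk⟩ := exists_pair π ρ
  obtain ⟨C, _, i, j, σ, h1, h2, h3⟩ := exists_generated (A := Z) (B := Z)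
    (E := UniformSpace.Completion (H ⊗[ℂ] K) →L[ℂ] UniformSpace.Completion (H ⊗[ℂ] K)) I J hIJ
  have hc : ∀ a b, Commute (i a) (j b) := fun a b => h2 (by
    have e1 := h3 a 1
    have e2 := h3 1 b
    simp only [map_one, mul_one, one_mul] at e1 e2
    rw [map_mul, map_mul, e1, e2, hIJ])
  let η : UniformSpace.Completion (H ⊗[ℂ] K) := ((ξ ⊗ₜ[ℂ] ζ : H ⊗[ℂ] K) : _)
  let Φ : C →L[ℂ] ℂ :=
    { toFun := fun c => ⟪η, σ c η⟫_ℂ
      map_add' := fun a b => by simp [inner_add_right]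
      map_smul' := fun a b => by simp [inner_smul_right]
      cont := by
        have := hom_cont σ
        fun_prop }
  have hΦ : ∀ a b, Φ (i a * j b) = τ a * τ' b := fun a b => by
    change ⟪η, σ (i a * j b) η⟫_ℂ = _
    rw [h3, hk, UniformSpace.Completion.inner_coe, TensorProduct.inner_tmul, hπ, hρ]
  have ext : ∀ f g : C →L[ℂ] ℂ, (∀ a b, f (i a * j b) = g (i a * j b)) → f = g := fun f g e =>
    ContinuousLinearMap.ext_on h1 (by rintro _ ⟨a, b, rfl⟩; exact e a b)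
  have tr : ∀ x y, Φ (x * y) = Φ (y * x) := by
    intro x y
    have e := ext (Φ.comp (ContinuousLinearMap.mul ℂ C x))
      (Φ.comp ((ContinuousLinearMap.mul ℂ C).flip x)) fun a b => by
        have e := ext (Φ.comp ((ContinuousLinearMap.mul ℂ C).flip (i a * j b)))
          (Φ.comp (ContinuousLinearMap.mul ℂ C (i a * j b))) fun c d => by
            have m : ∀ a b c d, i a * j b * (i c * j d) = i (a * c) * j (b * d) := fun a b c d => by
              rw [map_mul, map_mul, mul_assoc, ← mul_assoc (j b), ← (hc c b).eq]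
              simp only [mul_assoc]
            change Φ (i c * j d * (i a * j b)) = Φ (i a * j b * (i c * j d))
            rw [m, m, hΦ, hΦ, h.2.2 c, h'.2.2 d]
        exact congrArg (fun f : C →L[ℂ] ℂ => f x) e
    exact congrArg (fun f : C →L[ℂ] ℂ => f y) e
  ext z
  have e1 : Φ (i z) = τ z := by simpa [h'.1] using hΦ z 1
  have e2 : Φ (j z) = τ' z := by simpa [h.1] using hΦ 1 z
  refine eq_of_norm_sub_le_zero (le_of_forall_pos_le_add fun ε hε => ?_)
  obtain ⟨v, hv, hz⟩ := hf C i j hc {z} (ε / (‖Φ‖ + 1)) (by positivity)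
  have h4 := hz z (Finset.mem_singleton_self z)
  have e3 : Φ (v * i z * star v) = τ z := by
    rw [tr, ← mul_assoc, hv.1, one_mul, e1]
  rw [← e3, ← e2, ← map_sub, zero_add]
  refine (Φ.le_opNorm _).trans ?_
  rw [lt_div_iff₀ (by positivity)] at h4
  nlinarith [norm_nonneg (v * i z * star v - j z)]

theorem IsDropLimit.infinite (h : IsDropLimit Z) : ¬ FiniteDimensional ℂ Z := by
  intro hZ
  obtain ⟨p, q, ψ, hpq, hinj, -⟩ := h
  refine Polynomial.not_finite (R := ℂ) (FiniteDimensional.of_injective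
    ((ψ 0).toAlgHom.comp ((scal (p 0) (q 0)).toAlgHom.comp (Polynomial.aeval coord))).toLinearMap
    ((injective_iff_map_eq_zero _).2 fun f hf => ?_))
  have h1 : scal (p 0) (q 0) (Polynomial.aeval coord f) = 0 := hinj 0 (hf.trans (map_zero _).symm)
  haveI : Infinite unitInterval := Set.infinite_coe_iff.2 (Set.Icc_infinite zero_lt_one)
  refine Polynomial.eq_zero_of_infinite_isRoot f
    (Set.infinite_of_injective_forall_mem (f := fun t : unitInterval => ((t : ℝ) : ℂ))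
      (fun s t e => Subtype.ext (Complex.ofReal_injective e)) fun t => ?_)
  have h2 := congrArg (fun g : DimDrop (p 0) (q 0) =>
    g.1 t (⟨0, (hpq 0).1⟩, ⟨0, (hpq 0).2.1⟩) (⟨0, (hpq 0).1⟩, ⟨0, (hpq 0).2.1⟩)) h1
  simpa [Polynomial.aeval_continuousMap_apply] using h2

theorem exists_ext {A : Type*} [CStarAlgebra A] (ψ : A →⋆ₐ[ℂ] Z) (hinj : Function.Injective ψ)
    (σ : A →ₗ[ℂ] ℂ) (hσ : ∀ x, ‖σ x‖ ≤ ‖x‖) :
    ∃ φ : Z →L[ℂ] ℂ, ‖φ‖ ≤ 1 ∧ ∀ x, φ (ψ x) = σ x := by
  let L : A →ₗ[ℂ] Z := ψ.toAlgHom.toLinearMap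
  let e := LinearEquiv.ofInjective L hinj
  have hb : ∀ x : LinearMap.range L, ‖(σ ∘ₗ e.symm.toLinearMap) x‖ ≤ 1 * ‖x‖ := by
    intro x
    obtain ⟨y, rfl⟩ := e.surjective x
    simp only [LinearMap.comp_apply, LinearEquiv.coe_coe, LinearEquiv.symm_apply_apply, one_mul]
    exact (hσ y).trans (NonUnitalStarAlgHom.norm_map ψ hinj y).ge
  obtain ⟨g, h1, h2⟩ := exists_extension_norm_eq (LinearMap.range L)
    ((σ ∘ₗ e.symm.toLinearMap).mkContinuous 1 hb)
  refine ⟨g, h2 ▸ LinearMap.mkContinuous_norm_le _ zero_le_one _, fun x => ?_⟩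
  exact (h1 (e x)).trans (congrArg σ (e.symm_apply_apply x))

/-- An ultralimit of tracial states on the building blocks is a tracial state on the limit. -/
theorem exists_trace_of_seq {p q : ℕ → ℕ} (ψ : ∀ n, DimDrop (p n) (q n) →⋆ₐ[ℂ] Z)
    (hinj : ∀ n, Function.Injective (ψ n)) (hmono : ∀ n, Set.range (ψ n) ⊆ Set.range (ψ (n + 1)))
    (hd : Dense (⋃ n, Set.range (ψ n))) (m : ℕ → ℕ) (hm : ∀ k, k ≤ m k)
    (σ : ∀ k, DimDrop (p (m k)) (q (m k)) →ₗ[ℂ] ℂ) (hσ : ∀ k, IsTracialState (σ k)) :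
    ∃ τ : Z →ₗ[ℂ] ℂ, IsTracialState τ ∧ ∀ (z : Z) (y : ∀ k, DimDrop (p (m k)) (q (m k))),
      (∀ᶠ k in Filter.atTop, ψ (m k) (y k) = z) →
        Filter.Tendsto (fun k => σ k (y k)) (Filter.hyperfilter ℕ) (nhds (τ z)) := by
  choose φ hφ1 hφ2 using fun k => exists_ext (ψ (m k)) (hinj _) (σ k)
    (norm_state_le (σ k) (hσ k).1 (hσ k).2.1)
  have hb : ∀ k z, ‖φ k z‖ ≤ ‖z‖ := fun k z =>
    ((φ k).le_opNorm z).trans (mul_le_of_le_one_left (norm_nonneg _) (hφ1 k))
  have hl : ∀ z, ∃ c, Tendsto (fun k => φ k z) (hyperfilter ℕ) (𝓝 c) := fun z => by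
    obtain ⟨c, -, hc⟩ := (isCompact_closedBall (0 : ℂ) ‖z‖).ultrafilter_le_nhds
      ((hyperfilter ℕ).map fun k => φ k z) (by
        rw [Ultrafilter.coe_map, le_principal_iff, mem_map]
        exact Eventually.of_forall fun k => mem_closedBall_zero_iff.2 (hb k z))
    exact ⟨c, hc⟩
  choose t ht using hl
  let τ : Z →ₗ[ℂ] ℂ :=
    { toFun := t
      map_add' := fun x y => tendsto_nhds_unique (ht (x + y)) (by
        simpa only [map_add] using (ht x).add (ht y))
      map_smul' := fun c x => tendsto_nhds_unique (ht (c • x)) (by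
        simpa only [map_smul, RingHom.id_apply] using (ht x).const_smul c) }
  have hτ : ∀ z, Tendsto (fun k => φ k z) (hyperfilter ℕ) (𝓝 (τ z)) := ht
  have hcont : Continuous τ := (τ.mkContinuous 1 fun z => by
    rw [one_mul]
    exact le_of_tendsto (hτ z).norm (Eventually.of_forall fun k => hb k z)).continuous
  have hle : (hyperfilter ℕ : Filter ℕ) ≤ atTop := Nat.hyperfilter_le_atTop
  have hmon : Monotone fun n => Set.range (ψ n) := monotone_nat_of_le_succ hmono
  have hev : ∀ z ∈ ⋃ n, Set.range (ψ n), ∀ᶠ k in hyperfilter ℕ, z ∈ Set.range (ψ (m k)) := by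
    intro z hz
    obtain ⟨n, hn⟩ := Set.mem_iUnion.1 hz
    exact hle ((eventually_ge_atTop n).mono fun k hk => hmon (hk.trans (hm k)) hn)
  refine ⟨τ, ⟨?_, fun x => ?_, fun x y => ?_⟩, fun z y hy => ?_⟩
  · refine tendsto_nhds_unique (hτ 1) ?_
    have : ∀ k, φ k 1 = 1 := fun k => by rw [← map_one (ψ (m k)), hφ2, (hσ k).1]
    simp only [this]
    exact tendsto_const_nhds
  · refine hd.induction (P := fun x => 0 ≤ τ (star x * x)) (fun z hz => ?_)
      (isClosed_le continuous_const (by fun_prop)) x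
    refine ge_of_tendsto (hτ _) ((hev z hz).mono ?_)
    rintro k ⟨a, rfl⟩
    rw [← map_star, ← map_mul, hφ2]
    exact (hσ k).2.1 a
  · refine hd.induction (P := fun x => τ (x * y) = τ (y * x)) (fun z hz => ?_)
      (isClosed_eq (by fun_prop) (by fun_prop)) x
    refine hd.induction (P := fun y => τ (z * y) = τ (y * z)) (fun w hw => ?_)
      (isClosed_eq (by fun_prop) (by fun_prop)) y
    refine tendsto_nhds_unique (hτ _) ((hτ _).congr' (((hev z hz).and (hev w hw)).mono ?_))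
    rintro k ⟨⟨a, rfl⟩, b, rfl⟩
    simp only [← map_mul, hφ2]
    exact (hσ k).2.2 b a
  · refine (hτ z).congr' (hle (hy.mono fun k hk => ?_))
    simp only [← hk, hφ2]

/-- The normalized trace at a point of the interval. -/
noncomputable def trAt (p q : ℕ) (t : unitInterval) : DimDrop p q →ₗ[ℂ] ℂ :=
  ((p * q : ℕ) : ℂ)⁻¹ • (Matrix.traceLinearMap (Fin p × Fin q) ℂ ℂ ∘ₗ (ev p q t).toAlgHom.toLinearMap)

lemma trAt_apply {p q : ℕ} (t : unitInterval) (f : DimDrop p q) :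
    trAt p q t f = ((p * q : ℕ) : ℂ)⁻¹ * Matrix.trace (f.1 t) := rfl

theorem isTracialState_trAt {p q : ℕ} (hp : 0 < p) (hq : 0 < q) (t : unitInterval) :
    IsTracialState (trAt p q t) := by
  refine ⟨?_, fun x => ?_, fun x y => ?_⟩
  · have : ((p * q : ℕ) : ℂ) ≠ 0 := Nat.cast_ne_zero.2 (Nat.mul_pos hp hq).ne'
    rw [trAt_apply]
    change _ * Matrix.trace (1 : Mat p q) = 1
    rw [Matrix.trace_one, Fintype.card_prod, Fintype.card_fin, Fintype.card_fin,
      inv_mul_cancel₀ this]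
  · rw [trAt_apply]
    refine mul_nonneg (inv_nonneg.2 (Nat.cast_nonneg _)) ?_
    exact (Matrix.posSemidef_conjTranspose_mul_self (x.1 t)).trace_nonneg
  · rw [trAt_apply, trAt_apply]
    exact congrArg _ (Matrix.trace_mul_comm (x.1 t) (y.1 t))

theorem IsDropLimit.exists_trace (h : IsDropLimit Z) : ∃ τ : Z →ₗ[ℂ] ℂ, IsTracialState τ := by
  obtain ⟨p, q, ψ, hpq, hinj, hmono, hd⟩ := h
  obtain ⟨τ, hτ, -⟩ := exists_trace_of_seq ψ hinj hmono hd id (fun _ => le_rfl)
    (fun k => trAt (p k) (q k) 0) fun k => isTracialState_trAt (hpq k).1 (hpq k).2.1 0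
  exact ⟨τ, hτ⟩

theorem IsDropLimit.isJS (h : IsDropLimit Z) (hf : MaxFlip Z) : IsJS Z :=
  ⟨h, h.infinite, fun I hI => have := h.separable; hf.simple I hI, h.exists_trace.elim fun τ hτ =>
    ⟨τ, hτ, fun _ hτ' => hf.trace_unique hτ' hτ⟩⟩

end Vale.Agent.P101.JS
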