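import Vale.Agent.P101.JStd
import Vale.Agent.P101.JSorted
import Vale.Agent.P101.JPath
import Vale.Agent.P101.JTrace

/-! The Jiang-Su algebra is locally flat. -/

namespace Vale.Agent.P101.JS
open Filter
open scoped Matrix.Norms.L2Operator ComplexOrder

universe u
variable {Z : Type u} [CStarAlgebra Z]

theorem IsJS.faithful (h : IsJS Z) {τ : Z →ₗ[ℂ] ℂ} (hτ : IsTracialState τ) {z : Z}
    (hz : τ (star z * z) = 0) : z = 0 := by
  have hc : Continuous τ := AddMonoidHomClass.continuous_of_bound τ 1 fun x => by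
    rw [one_mul]; exact norm_state_le τ hτ.1 hτ.2.1 x
  let I : TwoSidedIdeal Z := TwoSidedIdeal.mk' {z | ∀ x, τ (x * z) = 0} (by simp)
    (fun {a b} ha hb x => by rw [mul_add, map_add, ha x, hb x, add_zero])
    (fun {a} ha x => by rw [mul_neg, map_neg, ha x, neg_zero])
    (fun {a b} hb x => by rw [← mul_assoc]; exact hb _)
    (fun {a b} ha x => by rw [← mul_assoc, hτ.2.2, ← mul_assoc]; exact ha _)
  have hI : ∀ z, z ∈ I ↔ ∀ x, τ (x * z) = 0 := fun z => TwoSidedIdeal.mem_mk' _ _ _ _ _ _ _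
  have hcl : IsClosed (I : Set Z) := by
    have : (I : Set Z) = ⋂ x, {z | τ (x * z) = 0} := by
      ext z
      simp only [SetLike.mem_coe, hI, Set.mem_iInter, Set.mem_ofPred_eq]
    rw [this]
    exact isClosed_iInter fun x => isClosed_eq (hc.comp (continuous_const_mul x)) continuous_const
  rcases h.simple I hcl with h0 | h0
  · have hm : z ∈ I := (hI z).2 fun x => by
      have := state_cauchy_schwarz τ hτ.1 hτ.2.1 (star x) z
      rw [star_star, hz, norm_zero, mul_zero] at this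
      exact norm_eq_zero.1 (pow_eq_zero_iff two_ne_zero |>.1 (le_antisymm this (sq_nonneg _)))
    rw [h0] at hm
    exact (TwoSidedIdeal.mem_bot _).1 hm
  · have := (hI 1).1 (h0 ▸ TwoSidedIdeal.mem_top _) 1
    rw [mul_one, hτ.1] at this
    exact absurd this one_ne_zero

/-- With a unique tracial state, the point traces converge uniformly. -/
theorem trAt_uniform {p q : ℕ → ℕ} (hp : ∀ n, 0 < p n) (hq : ∀ n, 0 < q n)
    (ψ : ∀ n, DimDrop (p n) (q n) →⋆ₐ[ℂ] Z)
    (hinj : ∀ n, Function.Injective (ψ n)) (hmono : ∀ n, Set.range (ψ n) ⊆ Set.range (ψ (n + 1)))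
    (hd : Dense (⋃ n, Set.range (ψ n))) {τ : Z →ₗ[ℂ] ℂ}
    (hτ : ∀ τ', IsTracialState τ' → τ' = τ) (z : Z) {η : ℝ} (hη : 0 < η) :
    ∀ᶠ m in atTop, ∀ y, ψ m y = z → ∀ t, ‖trAt (p m) (q m) t y - τ z‖ < η := by
  by_contra hcon
  rw [not_eventually, frequently_atTop] at hcon
  push Not at hcon
  choose m hm y hy t ht using hcon
  obtain ⟨τ', h1, h2⟩ := exists_trace_of_seq ψ hinj hmono hd m hm
    (fun k => trAt (p (m k)) (q (m k)) (t k)) fun k => isTracialState_trAt (hp _) (hq _) _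
  have h3 := h2 z y (Eventually.of_forall hy)
  rw [hτ τ' h1] at h3
  have h4 := ge_of_tendsto' (h3.sub_const (τ z)).norm ht
  rw [sub_self, norm_zero] at h4
  exact absurd hη (not_lt.2 h4)

theorem trace_conj {n : Type} [Fintype n] [DecidableEq n] {U : Matrix n n ℂ}
    (hU : U ∈ unitary (Matrix n n ℂ)) (x : Matrix n n ℂ) :
    Matrix.trace (U * x * star U) = Matrix.trace x := by
  rw [Matrix.trace_mul_cycle, hU.1, one_mul]

/-- A unital map whose point traces interlace on the ramp functions is flat. -/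
theorem flat_of_trace {p q p' q' : ℕ} (hp : 0 < p) (hq : 0 < q) (hpq : Nat.Coprime p q)
    (hp' : 0 < p') (hq' : 0 < q') (φ : DimDrop p q →⋆ₐ[ℂ] DimDrop p' q') (F : Finset (DimDrop p q))
    {ε : ℝ} (hε : 0 < ε) {K : ℕ} (hK : 0 < K)
    (hF : ∀ f ∈ F, ∀ s t : unitInterval, |(s : ℝ) - t| ≤ 6 / K → ‖f.1 s - f.1 t‖ ≤ ε)
    (htr : ∀ k, k + 2 ≤ K → ∀ s t, (trAt p' q' s (φ (scal p q (ramp K k)))).re <
      (trAt p' q' t (φ (scal p q (ramp K (k + 1))))).re) : Flat (φ '' F) (5 * ε) := by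
  have : NeZero p := ⟨hp.ne'⟩
  have : NeZero q := ⟨hq.ne'⟩
  obtain ⟨r₀, N, r₁, e, -, -, h₀, h₁, -⟩ := exists_std ((ev p' q' 0).comp φ)
  let R' : Mat p' q' →⋆ₐ[ℂ] Matrix (BIdx p q r₀ N r₁) (BIdx p q r₀ N r₁) ℂ :=
    (reindexStar e.symm : _ ≃⋆ₐ[ℂ] _)
  choose ξ W hξ hW hρ using fun t => exists_std_same hpq h₀ h₁ (R'.comp ((ev p' q' t).comp φ))
  let R : Matrix (BIdx p q r₀ N r₁) (BIdx p q r₀ N r₁) ℂ →⋆ₐ[ℂ] Mat p' q' :=
    (reindexStar e : _ ≃⋆ₐ[ℂ] _)
  have hR : ∀ x, Matrix.trace (R x) = Matrix.trace x := fun x =>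
    (e.symm.sum_comp fun i => x i i :)
  have hW' : ∀ t, R (W t) ∈ unitary (Mat p' q') := fun t =>
    ⟨by rw [← map_star, ← map_mul, (hW t).1, map_one],
      by rw [← map_star, ← map_mul, (hW t).2, map_one]⟩
  have hρ' : ∀ t f, (φ f).1 t = R (W t) * R (block p q r₀ r₁ (ξ t) f) * star (R (W t)) := by
    intro t f
    rw [← map_star, ← map_mul, ← map_mul, ← hρ t f]
    ext i j
    simp [R, R']
  have htr' : ∀ t f, trAt p' q' t (φ f) =
      (((p' * q' : ℕ) : ℝ)⁻¹ : ℝ) * Matrix.trace (block p q r₀ r₁ (ξ t) f) := by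
    intro t f
    rw [trAt_apply, hρ', trace_conj (hW' t), hR]
    simp
  have hle : ∀ s t i, (ξ t i : ℝ) ≤ ξ s i + 3 / K := fun s t =>
    le_of_trace_lt (p := p) (q := q) (r₀ := r₀) (r₁ := r₁) (hξ s) (hξ t) hK fun k hk => by
      have := htr k hk s t
      rw [htr', htr', Complex.re_ofReal_mul, Complex.re_ofReal_mul] at this
      exact lt_of_mul_lt_mul_left this (by positivity)
  let S : Set (Fin N → unitInterval) := {x | Monotone x ∧ ∀ i, |(x i : ℝ) - ξ 0 i| ≤ 3 / K}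
  have hS : IsClosed S := by
    simp only [S, Monotone, Set.ofPred_and, Set.ofPred_forall]
    exact (isClosed_iInter fun a => isClosed_iInter fun b => isClosed_iInter fun _ =>
      isClosed_le (continuous_apply a) (continuous_apply b)).inter
      (isClosed_iInter fun i => isClosed_le (by fun_prop) continuous_const)
  have : CompactSpace S := isCompact_iff_compactSpace.1 hS.isCompact
  obtain ⟨V, h1, h2, h3⟩ := exists_path (fun f => (φ f).1) (Ξ := S)
    (fun x f => R (block p q r₀ r₁ x.1 f))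
    (fun f => (continuous_matHom R).comp ((continuous_block f).comp continuous_subtype_val))
    (fun t => ⟨⟨ξ t, hξ t, fun i => abs_le.2
      ⟨by have := hle t 0 i; linarith, by have := hle 0 t i; linarith⟩⟩, _, hW' t, hρ' t⟩)
    (fun x x' U hU h => Subtype.ext (eq_of_trace_eq (p := p) (q := q) (r₀ := r₀) (r₁ := r₁)
      x.2.1 x'.2.1 fun g => by rw [← hR, h, trace_conj hU, hR])) F hε
    fun x x' f hf => by
      rw [← map_sub]
      refine (NonUnitalStarAlgHom.norm_apply_le R _).trans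
        (norm_block_sub_le f hε.le fun i => hF f hf _ _ ?_)
      have a1 := abs_le.1 (x.2.2 i)
      have a2 := abs_le.1 (x'.2.2 i)
      have a3 : (6 : ℝ) / K = 3 / K + 3 / K := by ring
      exact abs_le.2 ⟨by linarith, by linarith⟩
  refine ⟨V, h1, h2, ?_⟩
  rintro _ ⟨f, hf, rfl⟩ t
  exact h3 f hf t

theorem exists_factor_incl {A B : Type*} [CStarAlgebra A] [CStarAlgebra B] (ψ : A →⋆ₐ[ℂ] Z)
    (ψ' : B →⋆ₐ[ℂ] Z) (hinj : Function.Injective ψ') (h : Set.range ψ ⊆ Set.range ψ') :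
    ∃ φ : A →⋆ₐ[ℂ] B, ∀ a, ψ' (φ a) = ψ a := by
  choose φ hφ using fun a => h ⟨a, rfl⟩
  exact ⟨{ toFun := φ
           map_one' := hinj (by simp [hφ])
           map_mul' := fun _ _ => hinj (by simp [hφ])
           map_zero' := hinj (by simp [hφ])
           map_add' := fun _ _ => hinj (by simp [hφ])
           commutes' := fun _ => hinj (by rw [hφ, AlgHomClass.commutes, AlgHomClass.commutes])
           map_star' := fun _ => hinj (by simp [hφ, map_star]) }, hφ⟩

theorem scal_injective {p q : ℕ} (hp : 0 < p) (hq : 0 < q) : Function.Injective (scal p q) :=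
  fun g g' h => ContinuousMap.ext fun t => by
    have := congrArg (fun f : DimDrop p q => f.1 t (⟨0, hp⟩, ⟨0, hq⟩) (⟨0, hp⟩, ⟨0, hq⟩)) h
    simpa using this

theorem exists_ramp_sqrt {K k : ℕ} (hk : k + 2 ≤ K) :
    ∃ g : C(unitInterval, ℂ), g ≠ 0 ∧ star g * g = ramp K (k + 1) - ramp K k := by
  have hK : (0 : ℝ) < K := by exact_mod_cast (show 0 < K by omega)
  have hk' : (k : ℝ) + 2 ≤ K := by exact_mod_cast hk
  have key : star (⟨fun t : unitInterval => (√(max 0 (min 1 (((k + 1 : ℕ) : ℝ) + 1 - K * (t : ℝ))) -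
      max 0 (min 1 ((k : ℝ) + 1 - K * (t : ℝ)))) : ℝ), by fun_prop⟩ : C(unitInterval, ℂ)) *
      ⟨fun t : unitInterval => (√(max 0 (min 1 (((k + 1 : ℕ) : ℝ) + 1 - K * (t : ℝ))) -
      max 0 (min 1 ((k : ℝ) + 1 - K * (t : ℝ)))) : ℝ), by fun_prop⟩ =
      ramp K (k + 1) - ramp K k := by
    ext t
    simp only [ContinuousMap.mul_apply, ContinuousMap.star_apply, ContinuousMap.coe_mk,
      ContinuousMap.sub_apply, ramp_apply, Complex.star_def, Complex.conj_ofReal]
    rw [← Complex.ofReal_mul, ← Complex.ofReal_sub, Real.mul_self_sqrt]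
    refine sub_nonneg.2 (max_le_max le_rfl (min_le_min le_rfl ?_))
    push_cast
    linarith
  refine ⟨_, fun h0 => ?_, key⟩
  rw [h0, mul_zero] at key
  have := congrArg (fun g : C(unitInterval, ℂ) => g ⟨(k + 1) / K, by positivity,
    (div_le_one hK).2 (by linarith)⟩) key
  simp only [ContinuousMap.zero_apply, ContinuousMap.sub_apply, ramp_apply,
    mul_div_cancel₀ _ hK.ne'] at this
  norm_num at this

theorem IsJS.locFlat (h : IsJS Z) : LocFlat Z := by
  classical
  intro s ε hε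
  obtain ⟨p, q, ψ, hpq, hinj, hmono, hd⟩ := h.limit
  obtain ⟨τ, hτ, huniq⟩ := h.trace
  have hmono' : Monotone fun n => Set.range (ψ n) := monotone_nat_of_le_succ hmono
  have h1 : ∀ᶠ n in atTop, ∀ z ∈ s, ∃ y, ‖ψ n y - z‖ < ε := by
    refine (eventually_all_finset s).2 fun z _ => ?_
    obtain ⟨w, hw, hz⟩ := Metric.mem_closure_iff.1 (hd z) ε hε
    obtain ⟨n, hn⟩ := Set.mem_iUnion.1 hw
    filter_upwards [eventually_ge_atTop n] with m hm
    obtain ⟨y, rfl⟩ := hmono' hm hn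
    exact ⟨y, by rwa [← dist_eq_norm, dist_comm]⟩
  obtain ⟨n, hn⟩ := h1.exists
  choose! f hf using hn
  have h2 : ∀ᶠ K : ℕ in atTop, ∀ g ∈ s.image f, ∀ a b : unitInterval,
      |(a : ℝ) - b| ≤ 6 / K → ‖g.1 a - g.1 b‖ ≤ ε / 5 := by
    refine (eventually_all_finset _).2 fun g _ => ?_
    obtain ⟨δ, hδ, hg⟩ := Metric.uniformContinuous_iff.1
      (CompactSpace.uniformContinuous_of_continuous g.1.continuous) (ε / 5) (by positivity)
    filter_upwards [(tendsto_const_div_atTop_nhds_zero_nat (6 : ℝ)).eventually (gt_mem_nhds hδ)]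
      with K hK a b hab
    rw [← dist_eq_norm]
    exact (hg (hab.trans_lt hK)).le
  obtain ⟨K, hK, hK0⟩ := (h2.and (eventually_gt_atTop 0)).exists
  have h3 : ∀ᶠ m in atTop, ∀ k ∈ Finset.range K, k + 2 ≤ K → ∀ y y',
      ψ m y = ψ n (scal _ _ (ramp K k)) → ψ m y' = ψ n (scal _ _ (ramp K (k + 1))) → ∀ a b,
        (trAt (p m) (q m) a y).re < (trAt (p m) (q m) b y').re := by
    refine (eventually_all_finset _).2 fun k _ => ?_
    by_cases hk : k + 2 ≤ K
    swap
    · exact Eventually.of_forall fun _ h => absurd h hk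
    obtain ⟨g, hg0, hg⟩ := exists_ramp_sqrt hk
    have hz : ψ n (scal _ _ g) ≠ 0 := fun h0 => hg0 (scal_injective (hpq n).1 (hpq n).2.1
      (hinj n (by rw [h0, map_zero, map_zero])))
    have e1 := hτ.2.1 (ψ n (scal _ _ g))
    have e2 := lt_of_le_of_ne e1 fun h0 => hz (h.faithful hτ h0.symm)
    rw [← map_star, ← map_star, ← map_mul, ← map_mul, hg, map_sub, map_sub, map_sub] at e2
    have e3 := (Complex.lt_def.1 e2).1
    rw [Complex.zero_re, Complex.sub_re] at e3
    have hu := fun z => trAt_uniform (fun n => (hpq n).1) (fun n => (hpq n).2.1) ψ hinj hmono hd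
      huniq z (half_pos e3)
    filter_upwards [hu (ψ n (scal _ _ (ramp K k))), hu (ψ n (scal _ _ (ramp K (k + 1))))]
      with m a1 a2 _ y y' hy hy' a b
    have b1 := abs_lt.1 ((Complex.abs_re_le_norm _).trans_lt (a1 y hy a))
    have b2 := abs_lt.1 ((Complex.abs_re_le_norm _).trans_lt (a2 y' hy' b))
    rw [Complex.sub_re] at b1 b2
    linarith
  obtain ⟨m, hm, hnm⟩ := (h3.and (eventually_ge_atTop n)).exists
  obtain ⟨φ, hφ⟩ := exists_factor_incl (ψ n) (ψ m) (hinj m) (hmono' hnm)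
  obtain ⟨V, v1, v2, v3⟩ := flat_of_trace (hpq n).1 (hpq n).2.1 (hpq n).2.2 (hpq m).1 (hpq m).2.1
    φ (s.image f) (by positivity : 0 < ε / 5) hK0 hK fun k hk =>
      hm k (Finset.mem_range.2 (by omega)) hk _ _ (hφ _) (hφ _)
  refine ⟨p m, q m, ψ m, fun z => φ (f z), (hpq m).1, (hpq m).2.1,
    fun z hz => by rw [hφ]; exact hf z hz, V, v1, v2, ?_⟩
  rintro _ ⟨z, hz, rfl⟩ t
  exact (v3 _ ⟨f z, Finset.mem_coe.2 (Finset.mem_image_of_mem f hz), rfl⟩ t).trans_eq (by ring)

end Vale.Agent.P101.JS
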