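import Vale.Agent.P101.JSqFlip

/-! Homomorphisms that kill a scalar function, and interpolation in the fibres. -/

namespace Vale.Agent.P101.JS
open scoped Matrix.Norms.L2Operator

variable {p q : ℕ}

lemma norm_le_of_forall (f : DimDrop p q) {c : ℝ} (hc : 0 ≤ c) (h : ∀ t, ‖f.1 t‖ ≤ c) :
    ‖f‖ ≤ c := (ContinuousMap.norm_le f.1 hc).2 h

lemma norm_apply_le (f : DimDrop p q) (t : unitInterval) : ‖f.1 t‖ ≤ ‖f‖ :=
  f.1.norm_coe_le_norm t

/-- A homomorphism killing a scalar function kills every function vanishing on its zero set. -/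
theorem kill {B : Type*} [CStarAlgebra B] (κ : DimDrop p q →⋆ₐ[ℂ] B) {g : C(unitInterval, ℂ)}
    (hg : κ (scal p q g) = 0) {f : DimDrop p q} (hf : ∀ t, g t = 0 → f.1 t = 0) : κ f = 0 := by
  refine norm_le_zero_iff.1 (le_of_forall_pos_le_add fun η hη => ?_)
  obtain ⟨c, hc, hcg⟩ : ∃ c : ℝ, 0 < c ∧ ∀ t, η ≤ ‖f.1 t‖ → c ≤ ‖g t‖ ^ 2 := by
    have hK : IsCompact {t | η ≤ ‖f.1 t‖} :=
      (isClosed_le continuous_const f.1.continuous.norm).isCompact
    rcases Set.eq_empty_or_nonempty {t | η ≤ ‖f.1 t‖} with h | h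
    · exact ⟨1, one_pos, fun t ht => (Set.eq_empty_iff_forall_notMem.1 h t ht).elim⟩
    · obtain ⟨t, ht, hm⟩ := hK.exists_isMinOn h (g.continuous.norm.pow 2).continuousOn
      refine ⟨‖g t‖ ^ 2, pow_pos (norm_pos_iff.2 fun h0 => ?_) 2, fun s hs => hm hs⟩
      have : η ≤ ‖f.1 t‖ := ht
      rw [hf t h0, norm_zero] at this
      linarith
  set ε := η * c / (‖f‖ + 1) with hε
  have hε0 : 0 < ε := by positivity
  have hd : ∀ t, (0 : ℝ) < ‖g t‖ ^ 2 + ε := fun t => by positivity
  let k : C(unitInterval, ℂ) := ⟨fun t => star (g t) / ((‖g t‖ ^ 2 + ε : ℝ) : ℂ),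
    Continuous.div (by fun_prop) (by fun_prop) fun t => Complex.ofReal_ne_zero.2 (hd t).ne'⟩
  have h1 : κ f = κ (f - scal p q k * scal p q g * f) := by
    rw [map_sub, map_mul, map_mul, hg, mul_zero, zero_mul, sub_zero]
  rw [h1, zero_add]
  refine (NonUnitalStarAlgHom.norm_apply_le κ _).trans (norm_le_of_forall _ hη.le fun t => ?_)
  have h2 : (f - scal p q k * scal p q g * f).1 t = ((ε / (‖g t‖ ^ 2 + ε) : ℝ) : ℂ) • f.1 t := by
    have h3 : k t * g t = 1 - ((ε / (‖g t‖ ^ 2 + ε) : ℝ) : ℂ) := by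
      have h4 : star (g t) * g t = ((‖g t‖ ^ 2 : ℝ) : ℂ) := by
        rw [Complex.star_def, mul_comm, Complex.mul_conj, Complex.normSq_eq_norm_sq]
      have h5 := Complex.ofReal_ne_zero.2 (hd t).ne'
      change star (g t) / _ * g t = _
      rw [div_mul_eq_mul_div, h4, Complex.ofReal_div, eq_sub_iff_add_eq, ← add_div,
        ← Complex.ofReal_add, div_self h5]
    change f.1 t - (k t • (1 : Mat p q)) * (g t • (1 : Mat p q)) * f.1 t = _
    rw [smul_mul_smul_comm, one_mul, smul_mul_assoc, one_mul, h3, sub_smul, one_smul,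
      sub_sub_cancel]
  rw [h2, norm_smul, Complex.norm_real, Real.norm_of_nonneg (by positivity)]
  rcases le_total η ‖f.1 t‖ with h | h
  · have h3 : ε / (‖g t‖ ^ 2 + ε) ≤ ε / c := by gcongr; linarith [hcg t h]
    calc _ ≤ ε / c * (‖f‖ + 1) := by gcongr; linarith [norm_apply_le f t]
      _ = η := by rw [hε]; field_simp
  · exact (mul_le_of_le_one_left (norm_nonneg _)
      ((div_le_one (hd t)).2 (by nlinarith [sq_nonneg ‖g t‖]))).trans h

/-- A finite dimensional representation is supported on a finite set. -/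
theorem exists_support {n : Type} [Fintype n] [DecidableEq n]
    (ρ : DimDrop p q →⋆ₐ[ℂ] Matrix n n ℂ) :
    ∃ T : Finset unitInterval, ∀ f : DimDrop p q, (∀ t ∈ T, f.1 t = 0) → ρ f = 0 := by
  let χ := (ρ (scal p q coord)).charpoly
  have hχ : χ ≠ 0 := (Matrix.charpoly_monic _).ne_zero
  have hfin : {t : unitInterval | χ.IsRoot ((t : ℝ) : ℂ)}.Finite :=
    (Polynomial.finite_setOfPred_isRoot hχ).preimage
      (f := fun t : unitInterval => ((t : ℝ) : ℂ))
      (Complex.ofReal_injective.comp Subtype.val_injective).injOn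
  refine ⟨hfin.toFinset, fun f hf => kill ρ (g := Polynomial.aeval coord χ) ?_ fun t ht => ?_⟩
  · have := Polynomial.aeval_algHom_apply (ρ.comp (scal p q)) coord χ
    exact this.symm.trans (Matrix.aeval_self_charpoly _)
  · refine hf t (hfin.mem_toFinset.2 ?_)
    have := Polynomial.aeval_algHom_apply (ContinuousMap.evalStarAlgHom ℂ ℂ t) coord χ
    change χ.eval _ = 0
    rw [← Polynomial.coe_aeval_eq_eval]
    exact this.trans ht

lemma val_mem_fib (f : DimDrop p q) (t : unitInterval) : f.1 t ∈ fib p q t := by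
  unfold fib
  split_ifs with h0 h1
  · obtain ⟨x, hx⟩ := f.2.1
    exact ⟨x, by rw [h0, hx]; rfl⟩
  · obtain ⟨x, hx⟩ := f.2.2
    exact ⟨x, by rw [h1, hx]; rfl⟩
  · trivial

/-- An element with a prescribed value at one point of a finite set, vanishing at the others. -/
theorem exists_bump (T : Finset unitInterval) (t : unitInterval) {y : Mat p q}
    (hy : y ∈ fib p q t) : ∃ f : DimDrop p q, f.1 t = y ∧ ∀ s ∈ T, s ≠ t → f.1 s = 0 := by
  classical
  obtain ⟨g, hg⟩ := exists_val hy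
  let δ : C(unitInterval, ℂ) := ⟨fun s => ∏ r ∈ T.erase t,
    ((((s : ℝ) : ℂ) - (r : ℝ)) / (((t : ℝ) : ℂ) - (r : ℝ))), by fun_prop⟩
  refine ⟨scal p q δ * g, ?_, fun s hs hst => ?_⟩
  · have : δ t = 1 := Finset.prod_eq_one fun r hr => div_self (sub_ne_zero.2 fun h =>
      (Finset.ne_of_mem_erase hr) (Subtype.ext (Complex.ofReal_injective h)).symm)
    change (δ t • (1 : Mat p q)) * g.1 t = y
    rw [this, one_smul, one_mul, hg]
  · have : δ s = 0 := Finset.prod_eq_zero (Finset.mem_erase.2 ⟨hst, hs⟩) (by simp)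
    change (δ s • (1 : Mat p q)) * g.1 s = 0
    rw [this, zero_smul, zero_mul]

end Vale.Agent.P101.JS
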