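import Vale.Agent.P101.JSqDefs
import Vale.Agent.P101.JStates

/-! Every C*-seminorm on the tensor square of a dimension drop algebra is dominated by the
supremum norm on the square. -/

namespace Vale.Agent.P101.JS
open scoped TensorProduct Kronecker Matrix.Norms.L2Operator ComplexOrder
open WeakDual

/-- The norm of an element of a commuting star closed family is attained at states that are
multiplicative on the family. -/
lemma norm_le_of_mul_states {B : Type*} [CStarAlgebra B] (S : Set B)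
    (hS : ∀ x ∈ S ∪ star S, ∀ y ∈ S ∪ star S, x * y = y * x) {a : B} (ha : a ∈ S) {M : ℝ}
    (hM : 0 ≤ M) (h : ∀ φ : B →L[ℂ] ℂ, φ 1 = 1 → (∀ z ∈ S, ∀ b, φ (z * b) = φ z * φ b) →
      ‖φ a‖ ≤ M) : ‖a‖ ≤ M := by
  let A : StarSubalgebra ℂ B :=
    StarSubalgebra.centralizer ℂ (StarSubalgebra.centralizer ℂ S : Set B)
  have hA : (A : Set B) = (S ∪ star S).centralizer.centralizer :=
    StarSubalgebra.coe_centralizer_centralizer ℂ S
  have hcl : IsClosed (A : Set B) := hA ▸ Set.isClosed_centralizer _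
  have hSA : ∀ z ∈ S, z ∈ A := fun z hz => by
    rw [← SetLike.mem_coe, hA]
    exact Set.subset_centralizer_centralizer (Or.inl hz)
  let _ : CommCStarAlgebra A :=
    { StarSubalgebra.cstarAlgebra A with
      mul_comm := fun x y => Subtype.ext
        (Set.centralizer_centralizer_comm_of_comm hS _ (hA ▸ x.2) _ (hA ▸ y.2)) }
  change ‖(⟨a, hSA a ha⟩ : A)‖ ≤ M
  rw [← (gelfandTransform_isometry A).norm_map_of_map_zero (map_zero _),
    ContinuousMap.norm_le _ hM]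
  intro χ
  obtain ⟨φ, hφ, hn⟩ := exists_extension_norm_eq (Subalgebra.toSubmodule A.toSubalgebra)
    (CharacterSpace.toCLM χ)
  have hφ' : ∀ z : A, φ z = χ z := hφ
  have h1 : φ 1 = 1 := (hφ' 1).trans (map_one χ)
  have hn1 : ‖φ‖ ≤ 1 := hn.trans_le ((CharacterSpace.norm_le_norm_one χ).trans
    (IsStarProjection.norm_le _ (IsStarProjection.one _)))
  have hpos := pos_of_norm_le φ hn1 h1
  refine (congrArg _ (hφ' ⟨a, hSA a ha⟩).symm).trans_le (h φ h1 fun z hz b => ?_)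
  let w : A := ⟨z, hSA z hz⟩ - χ ⟨z, hSA z hz⟩ • 1
  have hw : χ w = 0 := by simp [w]
  have h2 := state_cauchy_schwarz φ.toLinearMap h1 hpos (star (w : B)) b
  have h3 : φ ((w : B) * star (w : B)) = 0 := by
    refine (hφ' (w * star w)).trans ?_
    rw [map_mul, hw, zero_mul]
  simp only [star_star, ContinuousLinearMap.coe_coe, h3, norm_zero, zero_mul] at h2
  have h4 : φ ((w : B) * b) = 0 := by simpa using h2
  have h5 : (w : B) * b = z * b - χ ⟨z, hSA z hz⟩ • b := by simp [w, sub_mul]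
  rw [h5, map_sub, map_smul, sub_eq_zero, ← hφ'] at h4
  exact h4

lemma le_of_pow_le_mul {u v K : ℝ} (hv : 0 ≤ v) (h : ∀ n : ℕ, u ^ n ≤ K * v ^ n) : u ≤ v := by
  by_contra hc
  push Not at hc
  have hu : 0 < u := hv.trans_lt hc
  have h1 := (tendsto_pow_atTop_nhds_zero_of_lt_one (div_nonneg hv hu.le)
    ((div_lt_one hu).2 hc)).const_mul K
  rw [mul_zero] at h1
  refine absurd (ge_of_tendsto' h1 fun n => ?_) (not_le.2 one_pos)
  rw [div_pow, ← mul_div_assoc, le_div_iff₀ (pow_pos hu n), one_mul]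
  exact h n

lemma exists_point {B : Type*} [CStarAlgebra B] {p q : ℕ} (j : DimDrop p q →⋆ₐ[ℂ] B)
    (φ : B →L[ℂ] ℂ) (h1 : φ 1 = 1)
    (h : ∀ g b, φ (j (scal p q g) * b) = φ (j (scal p q g)) * φ b) :
    ∃ s : unitInterval, ∀ f : DimDrop p q, f.1 s = 0 → ∀ b, φ (j f * b) = 0 := by
  let χ : C(unitInterval, ℂ) →ₐ[ℂ] ℂ :=
    { toFun := fun g => φ (j (scal p q g))
      map_one' := by simp [h1]
      map_mul' := fun g g' => by rw [map_mul, map_mul, h]
      map_zero' := by simp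
      map_add' := fun g g' => by simp
      commutes' := fun c => by
        rw [AlgHomClass.commutes, AlgHomClass.commutes, Algebra.algebraMap_eq_smul_one, map_smul,
          h1, Algebra.algebraMap_eq_smul_one] }
  obtain ⟨s, hs⟩ := (CharacterSpace.continuousMapEval_bijective unitInterval ℂ).2
    (CharacterSpace.equivAlgHom.symm χ)
  have hs' : ∀ g, φ (j (scal p q g)) = g s := fun g => (DFunLike.congr_fun hs g).symm
  refine ⟨s, fun f hf b => norm_le_zero_iff.1 (le_of_forall_pos_le_add fun ε hε => ?_)⟩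
  have hK : 0 < ‖φ‖ * ‖b‖ + 1 := by positivity
  set δ := ε / (‖φ‖ * ‖b‖ + 1) with hδ
  have hδ0 : 0 < δ := div_pos hε hK
  let g : C(unitInterval, ℂ) := ⟨fun t => ((min 1 (‖f.1 t‖ / δ) : ℝ) : ℂ), by fun_prop⟩
  have hg : g s = 0 := by simp [g, hf]
  have h2 : ‖f - scal p q g * f‖ ≤ δ := by
    change ‖f.1 - (scal p q g).1 * f.1‖ ≤ δ
    rw [ContinuousMap.norm_le _ hδ0.le]
    intro t
    have e : (f.1 - (scal p q g).1 * f.1) t = ((1 - min 1 (‖f.1 t‖ / δ) : ℝ) : ℂ) • f.1 t := by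
      simp [g, sub_smul]
    rw [e, norm_smul, Complex.norm_real, Real.norm_of_nonneg (sub_nonneg.2 (min_le_left _ _))]
    rcases le_total 1 (‖f.1 t‖ / δ) with h3 | h3
    · rw [min_eq_left h3, sub_self, zero_mul]
      exact hδ0.le
    · rw [min_eq_right h3]
      rw [div_le_one hδ0] at h3
      have : 0 ≤ ‖f.1 t‖ / δ * ‖f.1 t‖ := by positivity
      linarith
  have h3 : φ (j f * b) = φ (j (f - scal p q g * f) * b) := by
    rw [map_sub, map_mul j, sub_mul, map_sub, mul_assoc, h, hs', hg, zero_mul, sub_zero]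
  rw [h3, zero_add]
  calc _ ≤ ‖φ‖ * (δ * ‖b‖) := (φ.le_opNorm _).trans (mul_le_mul_of_nonneg_left
        ((norm_mul_le _ _).trans (mul_le_mul_of_nonneg_right
          ((NonUnitalStarAlgHom.norm_apply_le j _).trans h2) (norm_nonneg _))) (norm_nonneg _))
    _ ≤ δ * (‖φ‖ * ‖b‖ + 1) := by nlinarith
    _ = ε := div_mul_cancel₀ _ hK.ne'

lemma exists_quasi_inverse {V W : Type*} [AddCommGroup V] [Module ℂ V] [AddCommGroup W]
    [Module ℂ W] (e : V →ₗ[ℂ] W) : ∃ R : W →ₗ[ℂ] V, ∀ v, e (R (e v)) = e v := by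
  obtain ⟨r, hr⟩ := e.rangeRestrict.exists_rightInverse_of_surjective e.range_rangeRestrict
  obtain ⟨R, hR⟩ := r.exists_extend
  refine ⟨R, fun v => ?_⟩
  have h1 : R (e v) = r (e.rangeRestrict v) := LinearMap.congr_fun hR (e.rangeRestrict v)
  rw [h1]
  exact congrArg Subtype.val (LinearMap.congr_fun hr (e.rangeRestrict v))

lemma scal_commute {p q : ℕ} (g : C(unitInterval, ℂ)) (f : DimDrop p q) :
    Commute (scal p q g) f :=
  Subtype.ext (ContinuousMap.ext fun t => by simp)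

lemma exists_factor {B : Type*} [CStarAlgebra B] {p q : ℕ} (j₁ j₂ : DimDrop p q →⋆ₐ[ℂ] B)
    (h : ∀ f g, Commute (j₁ f) (j₂ g)) (φ : B →L[ℂ] ℂ) {s t : unitInterval}
    (hs : ∀ f : DimDrop p q, f.1 s = 0 → ∀ b, φ (j₁ f * b) = 0)
    (ht : ∀ f : DimDrop p q, f.1 t = 0 → ∀ b, φ (j₂ f * b) = 0) :
    ∃ Λ : Mat2 p q →ₗ[ℂ] ℂ, ∀ y, φ (starLift j₁ j₂ h y) = Λ (sqHom p q y (s, t)) := by
  obtain ⟨R₁, hR₁⟩ := exists_quasi_inverse (ev p q s).toAlgHom.toLinearMap
  obtain ⟨R₂, hR₂⟩ := exists_quasi_inverse (ev p q t).toAlgHom.toLinearMap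
  obtain ⟨Λ, e⟩ : ∃ Λ : Mat2 p q →ₗ[ℂ] ℂ, ∀ X Y, Λ (X ⊗ₖ Y) = φ (j₁ (R₁ X) * j₂ (R₂ Y)) :=
    ⟨φ.toLinearMap ∘ₗ (starLift j₁ j₂ h).toAlgHom.toLinearMap ∘ₗ
      TensorProduct.map R₁ R₂ ∘ₗ (kroneckerLinearEquiv _ _ _ _ ℂ).symm.toLinearMap,
      fun X Y => by simp⟩
  refine ⟨Λ, fun y => ?_⟩
  induction y with
  | zero => simp
  | tmul f g =>
    have e1 := hs (f - R₁ (f.1 s)) (sub_eq_zero.2 (hR₁ f).symm) (j₂ g)
    have e2 := ht (g - R₂ (g.1 t)) (sub_eq_zero.2 (hR₂ g).symm) (j₁ (R₁ (f.1 s)))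
    rw [map_sub, sub_mul, map_sub, sub_eq_zero] at e1 e2
    rw [sqHom_tmul, e, starLift_tmul, e1, (h _ _).eq, e2, (h _ _).eq]
  | add y y' hy hy' =>
    rw [map_add (starLift j₁ j₂ h), map_add φ, hy, hy', map_add (sqHom p q),
      ContinuousMap.add_apply, map_add Λ]

lemma le_of_factor {R B C : Type*} [Ring R] [Ring B] [NormedRing C] [NormOneClass C]
    (α : R →* B) (β : R →* C) (φ : B → ℂ) (h1 : φ 1 = 1) {K : ℝ} (hK : 0 ≤ K)
    (h : ∀ y, ‖φ (α y)‖ ≤ K * ‖β y‖) (x : R) (hx : ∀ b, φ (α x * b) = φ (α x) * φ b) :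
    ‖φ (α x)‖ ≤ ‖β x‖ := by
  have hpow : ∀ n : ℕ, φ (α x ^ n) = φ (α x) ^ n := fun n => by
    induction n with
    | zero => simpa using h1
    | succ n ih => rw [pow_succ', hx, ih, pow_succ']
  refine le_of_pow_le_mul (K := K) (norm_nonneg _) fun n => ?_
  rw [← norm_pow, ← hpow, ← map_pow]
  refine (h _).trans (mul_le_mul_of_nonneg_left ?_ hK)
  rw [map_pow]
  exact norm_pow_le _ _

lemma norm_le_of_central {R B : Type*} [Ring R] [Algebra ℂ R] [StarRing R] [CStarAlgebra B]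
    (α : R →⋆ₐ[ℂ] B) (Z : Set R) (hZ : ∀ z ∈ Z, ∀ y, Commute z y) (hZs : ∀ z ∈ Z, star z ∈ Z)
    {a : R} (ha : star a = a) {M : ℝ} (hM : 0 ≤ M)
    (h : ∀ φ : B →L[ℂ] ℂ, φ 1 = 1 → (∀ z ∈ insert a Z, ∀ b, φ (α z * b) = φ (α z) * φ b) →
      ‖φ (α a)‖ ≤ M) : ‖α a‖ ≤ M := by
  have hsub : ∀ z ∈ α '' insert a Z ∪ star (α '' insert a Z), ∃ w ∈ insert a Z, z = α w := by
    rintro z (⟨w, hw, rfl⟩ | ⟨w, hw, e⟩)
    · exact ⟨w, hw, rfl⟩
    · refine ⟨star w, ?_, by rw [map_star, e, star_star]⟩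
      rcases hw with rfl | hw
      · exact Or.inl ha
      · exact Or.inr (hZs w hw)
  refine norm_le_of_mul_states (α '' insert a Z) (fun z hz w hw => ?_)
    ⟨a, Set.mem_insert _ _, rfl⟩ hM fun φ h1 hφ => h φ h1 fun z hz => hφ _ ⟨z, hz, rfl⟩
  obtain ⟨z, hz', rfl⟩ := hsub z hz
  obtain ⟨w, hw', rfl⟩ := hsub w hw
  refine (Commute.map ?_ α).eq
  rcases hz' with rfl | hz'
  · rcases hw' with rfl | hw'
    · rfl
    · exact (hZ w hw' _).symm
  · exact hZ z hz' _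

lemma le_of_star_mul {R B C : Type*} [Ring R] [Algebra ℂ R] [StarRing R] [CStarAlgebra B]
    [NormedRing C] [Algebra ℂ C] [StarRing C] [NormedStarGroup C] (α : R →⋆ₐ[ℂ] B)
    (β : R →⋆ₐ[ℂ] C) (x : R) (h : ‖α (star x * x)‖ ≤ ‖β (star x * x)‖) : ‖α x‖ ≤ ‖β x‖ := by
  rw [map_mul, map_mul, map_star, map_star, CStarRing.norm_star_mul_self] at h
  refine nonneg_le_nonneg_of_sq_le_sq (norm_nonneg _) (h.trans ((norm_mul_le _ _).trans_eq ?_))
  rw [norm_star]

theorem norm_starLift_le {B : Type*} [CStarAlgebra B] {p q : ℕ} (hp : 0 < p) (hq : 0 < q)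
    (j₁ j₂ : DimDrop p q →⋆ₐ[ℂ] B) (h : ∀ f g, Commute (j₁ f) (j₂ g))
    (x : DimDrop p q ⊗[ℂ] DimDrop p q) : ‖starLift j₁ j₂ h x‖ ≤ ‖sqHom p q x‖ := by
  let Z : Set (DimDrop p q ⊗[ℂ] DimDrop p q) :=
    Set.range (fun g => scal p q g ⊗ₜ 1) ∪ Set.range fun g => 1 ⊗ₜ scal p q g
  have hZ : ∀ z ∈ Z, ∀ y, Commute z y := by
    intro z hz y
    induction y with
    | zero => exact Commute.zero_right _
    | tmul f f' =>
      rcases hz with ⟨g, rfl⟩ | ⟨g, rfl⟩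
      · exact (scal_commute g f).tmul (Commute.one_left _)
      · exact (Commute.one_left _).tmul (scal_commute g f')
    | add y y' hy hy' => exact hy.add_right hy'
  have hZs : ∀ z ∈ Z, star z ∈ Z := by
    rintro _ (⟨g, rfl⟩ | ⟨g, rfl⟩)
    · exact Or.inl ⟨star g, by simp only [map_star, TensorProduct.star_tmul, star_one]⟩
    · exact Or.inr ⟨star g, by simp only [map_star, TensorProduct.star_tmul, star_one]⟩
  have key : ‖starLift j₁ j₂ h (star x * x)‖ ≤ ‖sqHom p q (star x * x)‖ := by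
    refine norm_le_of_central _ Z hZ hZs (by rw [star_mul, star_star]) (norm_nonneg _)
      fun φ h1 hφ => ?_
    obtain ⟨s, hs⟩ := exists_point j₁ φ h1 fun g => by
      simpa using hφ _ (Or.inr (Or.inl ⟨g, rfl⟩))
    obtain ⟨t, ht⟩ := exists_point j₂ φ h1 fun g => by
      simpa using hφ _ (Or.inr (Or.inr ⟨g, rfl⟩))
    obtain ⟨Λ, hΛ⟩ := exists_factor j₁ j₂ h φ hs ht
    have : Nonempty (Fin p × Fin q) := ⟨(⟨0, hp⟩, ⟨0, hq⟩)⟩
    refine le_of_factor (starLift j₁ j₂ h).toAlgHom.toRingHom.toMonoidHom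
      (sqHom p q).toAlgHom.toRingHom.toMonoidHom φ h1
      (norm_nonneg (LinearMap.toContinuousLinearMap Λ)) (fun y => ?_) _
      (hφ _ (Set.mem_insert _ _))
    exact (congrArg norm (hΛ y)).trans_le (((LinearMap.toContinuousLinearMap Λ).le_opNorm _).trans
      (mul_le_mul_of_nonneg_left (ContinuousMap.norm_coe_le_norm _ _) (norm_nonneg _)))
  exact le_of_star_mul _ _ x key

end Vale.Agent.P101.JS
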