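import Vale.Agent.P101.JStdA

/-! Every finite dimensional representation is unitarily equivalent to a standard one. -/

namespace Vale.Agent.P101.JS
open scoped Kronecker Matrix.Norms.L2Operator Matrix

variable {p q : ℕ} [NeZero p] [NeZero q]

/-- Lifts of the matrix units of the fibres over a finite set. -/
structure Lifts (p q : ℕ) [NeZero p] [NeZero q] (T : Finset unitInterval) where
  x : unitInterval → Fin p × Fin q → DimDrop p q
  self : ∀ t a, (x t a).1 t = mu t a (0, 0)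
  other : ∀ t a, ∀ s ∈ T, s ≠ t → (x t a).1 s = 0

lemma exists_lifts (T : Finset unitInterval) : Nonempty (Lifts p q T) := by
  choose x h1 h2 using fun t (a : Fin p × Fin q) => exists_bump T t (mu_mem t a (0, 0))
  exact ⟨⟨x, h1, h2⟩⟩

section
variable {T : Finset unitInterval} (L : Lifts p q T) {n : Type} [Fintype n] [DecidableEq n]
  {ρ : DimDrop p q →⋆ₐ[ℂ] Matrix n n ℂ} (hρ : ∀ f : DimDrop p q, (∀ t ∈ T, f.1 t = 0) → ρ f = 0)
include hρ

omit [NeZero p] [NeZero q] in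
lemma rep_congr {f g : DimDrop p q} (h : ∀ t ∈ T, f.1 t = g.1 t) : ρ f = ρ g := by
  rw [← sub_eq_zero, ← map_sub]
  exact hρ _ fun t ht => sub_eq_zero.2 (h t ht)

lemma Lifts.same {t : unitInterval} {a : Fin p × Fin q} (ha : a ∈ act p q t) :
    (ρ (L.x t a))ᴴ * ρ (L.x t a) = ρ (L.x t (0, 0)) := by
  rw [← Matrix.star_eq_conjTranspose, ← map_star, ← map_mul]
  refine rep_congr hρ fun s hs => ?_
  change star ((L.x t a).1 s) * (L.x t a).1 s = _
  by_cases h : s = t
  · rw [h, L.self, L.self, star_mu, mu_mul _ _ ha ha, if_pos rfl]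
  · rw [L.other t a s hs h, L.other t _ s hs h, mul_zero]

lemma Lifts.orth {a b : Σ _ : unitInterval, Fin p × Fin q} (ha : a ∈ T.sigma (act p q))
    (hb : b ∈ T.sigma (act p q)) (hab : b ≠ a) : (ρ (L.x a.1 a.2))ᴴ * ρ (L.x b.1 b.2) = 0 := by
  obtain ⟨t, a⟩ := a
  obtain ⟨t', b⟩ := b
  rw [← Matrix.star_eq_conjTranspose, ← map_star, ← map_mul]
  refine hρ _ fun s hs => ?_
  change star ((L.x t a).1 s) * (L.x t' b).1 s = _
  by_cases h : s = t
  · by_cases h' : s = t'
    · subst h h'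
      rw [L.self, L.self, star_mu, mu_mul _ _ (Finset.mem_sigma.1 ha).2 (Finset.mem_sigma.1 hb).2,
        if_neg]
      rintro rfl
      exact hab rfl
    · rw [L.other t' b s hs h', mul_zero]
  · rw [L.other t a s hs h, star_zero, zero_mul]

lemma Lifts.absorb (t : unitInterval) (a : Fin p × Fin q) :
    ρ (L.x t a) * ρ (L.x t (0, 0)) = ρ (L.x t a) := by
  rw [← map_mul]
  refine rep_congr hρ fun s hs => ?_
  change (L.x t a).1 s * (L.x t (0, 0)).1 s = _
  by_cases h : s = t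
  · rw [h, L.self, L.self, mu_mul _ _ (zero_mem_act t) (zero_mem_act t), if_pos rfl]
  · rw [L.other t a s hs h, zero_mul]

lemma Lifts.total : ∑ a ∈ T.sigma (act p q), ρ (L.x a.1 a.2) * (ρ (L.x a.1 a.2))ᴴ = 1 := by
  simp only [← Matrix.star_eq_conjTranspose, ← map_star, ← map_mul, ← map_sum]
  rw [← map_one ρ]
  refine rep_congr hρ fun s hs => ?_
  change ev p q s _ = 1
  rw [map_sum, Finset.sum_sigma, Finset.sum_eq_single_of_mem s hs, ← sum_mu s]
  · refine Finset.sum_congr rfl fun a _ => ?_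
    rw [map_mul, map_star, ev_apply, L.self, star_mu, mu_mul _ _ (zero_mem_act s) (zero_mem_act s),
      if_pos rfl]
  · refine fun t _ hts => Finset.sum_eq_zero fun a _ => ?_
    rw [map_mul, ev_apply, L.other t a s hs hts.symm, zero_mul]

lemma Lifts.expand (f : DimDrop p q) {t : unitInterval} {a : Fin p × Fin q}
    (ha : a ∈ act p q t) : ρ f * ρ (L.x t a) = ∑ b ∈ act p q t, f.1 t b a • ρ (L.x t b) := by
  simp only [← map_smul, ← map_mul, ← map_sum]
  refine rep_congr hρ fun s hs => ?_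
  rw [← ev_apply, ← ev_apply]
  simp only [map_mul, map_sum, map_smul, ev_apply]
  by_cases h : s = t
  · simp only [h, L.self]
    exact mul_mu (val_mem_fib f t) ha _
  · simp only [L.other t _ s hs h, mul_zero, smul_zero, Finset.sum_const_zero]

end

/-- Representations with the same multiplicities are unitarily equivalent. -/
lemma Lifts.equiv {T : Finset unitInterval} (L : Lifts p q T) {n n' : Type} [Fintype n]
    [DecidableEq n] [Fintype n'] [DecidableEq n'] {ρ : DimDrop p q →⋆ₐ[ℂ] Matrix n n ℂ}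
    {ρ' : DimDrop p q →⋆ₐ[ℂ] Matrix n' n' ℂ}
    (hρ : ∀ f : DimDrop p q, (∀ t ∈ T, f.1 t = 0) → ρ f = 0)
    (hρ' : ∀ f : DimDrop p q, (∀ t ∈ T, f.1 t = 0) → ρ' f = 0)
    (h : ∀ t ∈ T, (ρ (L.x t (0, 0))).trace = (ρ' (L.x t (0, 0))).trace) :
    ∃ W : Matrix n n' ℂ, W * Wᴴ = 1 ∧ Wᴴ * W = 1 ∧ ∀ f, ρ f = W * ρ' f * Wᴴ := by
  choose! v h1 h2 using fun t (ht : t ∈ T) =>
    exists_pi (L.same hρ (zero_mem_act t)) (L.same hρ' (zero_mem_act t)) (h t ht)
  have k1 := sum_mul_conj (T.sigma (act p q)) (fun a => ρ (L.x a.1 a.2))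
    (fun a => ρ' (L.x a.1 a.2)) (fun a => v a.1) (fun a ha b hb => L.orth hρ' ha hb)
    (fun a ha => by
      rw [L.same hρ' (Finset.mem_sigma.1 ha).2, h2 _ (Finset.mem_sigma.1 ha).1])
    (fun a ha => by rw [h1 _ (Finset.mem_sigma.1 ha).1, L.absorb hρ]) (L.total hρ)
  have k2 := sum_mul_conj (T.sigma (act p q)) (fun a => ρ' (L.x a.1 a.2))
    (fun a => ρ (L.x a.1 a.2)) (fun a => (v a.1)ᴴ) (fun a ha b hb => L.orth hρ ha hb)
    (fun a ha => by
      rw [L.same hρ (Finset.mem_sigma.1 ha).2, Matrix.conjTranspose_conjTranspose,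
        h1 _ (Finset.mem_sigma.1 ha).1])
    (fun a ha => by
      rw [Matrix.conjTranspose_conjTranspose, h2 _ (Finset.mem_sigma.1 ha).1, L.absorb hρ'])
    (L.total hρ')
  set W := ∑ a ∈ T.sigma (act p q), ρ (L.x a.1 a.2) * v a.1 * (ρ' (L.x a.1 a.2))ᴴ with hW
  have k3 : ∑ a ∈ T.sigma (act p q), ρ' (L.x a.1 a.2) * (v a.1)ᴴ * (ρ (L.x a.1 a.2))ᴴ = Wᴴ := by
    simp only [hW, Matrix.conjTranspose_sum, Matrix.conjTranspose_mul,
      Matrix.conjTranspose_conjTranspose, Matrix.mul_assoc]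
  rw [k3, Matrix.conjTranspose_conjTranspose] at k2
  refine ⟨W, k1, k2, fun f => ?_⟩
  have k4 : ρ f * W = W * ρ' f := by
    rw [hW, Matrix.mul_sum, Matrix.sum_mul, Finset.sum_sigma, Finset.sum_sigma]
    refine Finset.sum_congr rfl fun t _ => ?_
    have e1 : ∀ a ∈ act p q t, ρ f * (ρ (L.x t a) * v t * (ρ' (L.x t a))ᴴ) =
        ∑ b ∈ act p q t, f.1 t b a • (ρ (L.x t b) * v t * (ρ' (L.x t a))ᴴ) := fun a ha => by
      rw [← Matrix.mul_assoc, ← Matrix.mul_assoc, L.expand hρ f ha, Matrix.sum_mul, Matrix.sum_mul]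
      simp only [Matrix.smul_mul]
    have e2 : ∀ b ∈ act p q t, ρ (L.x t b) * v t * (ρ' (L.x t b))ᴴ * ρ' f =
        ∑ a ∈ act p q t, f.1 t b a • (ρ (L.x t b) * v t * (ρ' (L.x t a))ᴴ) := fun b hb => by
      have := congrArg Matrix.conjTranspose (L.expand hρ' (star f) hb)
      rw [Matrix.conjTranspose_mul, map_star, Matrix.star_eq_conjTranspose,
        Matrix.conjTranspose_conjTranspose, Matrix.conjTranspose_sum] at this
      rw [Matrix.mul_assoc, this, Matrix.mul_sum]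
      refine Finset.sum_congr rfl fun a _ => ?_
      rw [Matrix.conjTranspose_smul, Matrix.mul_smul]
      congr 1
      exact star_star _
    rw [Finset.sum_congr rfl e1, Finset.sum_congr rfl e2, Finset.sum_comm]
  rw [← k4, Matrix.mul_assoc, k1, Matrix.mul_one]

lemma exists_sorted (T : Finset unitInterval) (c : unitInterval → ℕ) :
    ∃ (N : ℕ) (ξ : Fin N → unitInterval), Monotone ξ ∧ (∀ i, ξ i ∈ T) ∧
      ∀ g : unitInterval → ℂ, ∑ i, g (ξ i) = ∑ t ∈ T, c t * g t := by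
  let e := Fintype.equivFin (Σ t : T, Fin (c t))
  let η : Fin _ → unitInterval := fun i => (e.symm i).1.1
  refine ⟨_, η ∘ Tuple.sort η, Tuple.monotone_sort η, fun i => (e.symm _).1.2, fun g => ?_⟩
  rw [show ∑ i, g ((η ∘ Tuple.sort η) i) = ∑ i, g (η i) from
    Equiv.sum_comp (Tuple.sort η) fun i => g (η i), e.symm.sum_comp fun z => g z.1.1, Fintype.sum_sigma,
    ← Finset.sum_coe_sort T]
  simp

lemma trace_fromBlocks' {m n : Type} [Fintype m] [Fintype n] (A : Matrix m m ℂ)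
    (D : Matrix n n ℂ) : (Matrix.fromBlocks A 0 0 D).trace = A.trace + D.trace := by
  simp [Matrix.trace, Fintype.sum_sum_type]

lemma trace_block {r₀ N r₁ : ℕ} (ξ : Fin N → unitInterval) (f : DimDrop p q) :
    (block p q r₀ r₁ ξ f).trace =
      (left p q f).trace * r₀ + (∑ i, (f.1 (ξ i)).trace + (right p q f).trace * r₁) := by
  rw [block_apply, trace_fromBlocks', trace_fromBlocks', Matrix.trace_kronecker,
    Matrix.trace_kronecker, Matrix.trace_blockDiagonal]
  simp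

omit [NeZero p] in
lemma trace_left (f : DimDrop p q) : (left p q f).trace * q = (f.1 0).trace := by
  rw [left_spec, Matrix.trace_kronecker]; simp

omit [NeZero q] in
lemma trace_right (f : DimDrop p q) : (right p q f).trace * p = (f.1 1).trace := by
  rw [right_spec, Matrix.trace_kronecker, mul_comm]; simp

open Classical in
lemma trace_mu (t : unitInterval) :
    (mu t ((0, 0) : Fin p × Fin q) (0, 0)).trace = if t = 0 then q else if t = 1 then p else 1 := by
  unfold mu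
  split_ifs <;> simp [Matrix.trace_kronecker]

theorem exists_std' {n : Type} [Fintype n] [DecidableEq n]
    (ρ : DimDrop p q →⋆ₐ[ℂ] Matrix n n ℂ) :
    ∃ (r₀ N r₁ : ℕ) (ξ : Fin N → unitInterval) (W : Matrix n (BIdx p q r₀ N r₁) ℂ),
      r₀ < q ∧ r₁ < p ∧ Monotone ξ ∧ W * Wᴴ = 1 ∧ Wᴴ * W = 1 ∧
        ∀ f, ρ f = W * block p q r₀ r₁ ξ f * Wᴴ := by
  classical
  obtain ⟨T₀, hT₀⟩ := exists_support ρ
  let T := insert 0 (insert 1 T₀)
  have h0 : (0 : unitInterval) ∈ T := Finset.mem_insert_self _ _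
  have h1 : (1 : unitInterval) ∈ T := Finset.mem_insert_of_mem (Finset.mem_insert_self _ _)
  have hρ : ∀ f : DimDrop p q, (∀ t ∈ T, f.1 t = 0) → ρ f = 0 := fun f hf =>
    hT₀ f fun t ht => hf t (Finset.mem_insert_of_mem (Finset.mem_insert_of_mem ht))
  obtain ⟨L⟩ := exists_lifts (p := p) (q := q) T
  choose m _ _ _ hm using fun t => exists_isometry (L.same hρ (zero_mem_act t))
  obtain ⟨N, ξ, hξ, hξT, hs⟩ := exists_sorted T fun t =>
    if t = 0 then m t / q else if t = 1 then m t / p else m t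
  have hp : (p : ℂ) ≠ 0 := Nat.cast_ne_zero.2 (NeZero.ne p)
  have hq : (q : ℂ) ≠ 0 := Nat.cast_ne_zero.2 (NeZero.ne q)
  obtain ⟨W, h⟩ := L.equiv (ρ' := block p q (m 0 % q) (m 1 % p) ξ) hρ (fun f hf => by
    have e0 : left p q f = 0 := by
      ext i j
      change f.1 0 (i, 0) (j, 0) = 0
      rw [hf 0 h0]; rfl
    have e1 : right p q f = 0 := by
      ext i j
      change f.1 1 (0, i) (0, j) = 0
      rw [hf 1 h1]; rfl
    rw [block_apply, e0, e1]
    simp [hf _ (hξT _), ← Pi.zero_def]) fun t ht => by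
    rw [hm, trace_block, hs fun s => ((L.x t (0, 0)).1 s).trace, Finset.sum_eq_single_of_mem t ht
      (fun s hs hst => by rw [L.other t _ s hs hst, Matrix.trace_zero, mul_zero]), L.self, trace_mu]
    have e0 := trace_left (L.x t (0, 0))
    have e1 := trace_right (L.x t (0, 0))
    split_ifs with k0 k1
    · subst k0
      rw [L.self, trace_mu, if_pos rfl, mul_left_eq_self₀, or_iff_left hq] at e0
      rw [L.other _ _ _ h1 one_ne_zero, Matrix.trace_zero, mul_eq_zero, or_iff_left hp] at e1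
      rw [e0, e1]
      exact_mod_cast (by simp [Nat.mod_add_div'])
    · subst k1
      rw [L.self, trace_mu, if_neg k0, if_pos rfl, mul_left_eq_self₀, or_iff_left hp] at e1
      rw [L.other _ _ _ h0 zero_ne_one, Matrix.trace_zero, mul_eq_zero, or_iff_left hq] at e0
      rw [e0, e1]
      exact_mod_cast (by simp [Nat.div_add_mod'])
    · rw [L.other _ _ _ h0 (Ne.symm k0), Matrix.trace_zero, mul_eq_zero, or_iff_left hq] at e0
      rw [L.other _ _ _ h1 (Ne.symm k1), Matrix.trace_zero, mul_eq_zero, or_iff_left hp] at e1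
      rw [e0, e1]
      simp
  exact ⟨_, N, _, ξ, W, Nat.mod_lt _ (NeZero.pos q), Nat.mod_lt _ (NeZero.pos p), hξ, h⟩

lemma card_eq_of_unitary {n n' : Type} [Fintype n] [DecidableEq n] [Fintype n'] [DecidableEq n']
    {W : Matrix n n' ℂ} (h1 : W * Wᴴ = 1) (h2 : Wᴴ * W = 1) : Fintype.card n' = Fintype.card n := by
  have := Matrix.trace_mul_comm W Wᴴ
  rw [h1, h2, Matrix.trace_one, Matrix.trace_one] at this
  exact_mod_cast this.symm

theorem exists_std {n : Type} [Fintype n] [DecidableEq n] (ρ : DimDrop p q →⋆ₐ[ℂ] Matrix n n ℂ) :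
    ∃ (r₀ N r₁ : ℕ) (e : BIdx p q r₀ N r₁ ≃ n) (ξ : Fin N → unitInterval) (W : Matrix n n ℂ),
      r₀ < q ∧ r₁ < p ∧ Monotone ξ ∧ W ∈ unitary (Matrix n n ℂ) ∧
        ∀ f, ρ f = W * Matrix.reindex e e (block p q r₀ r₁ ξ f) * star W := by
  obtain ⟨r₀, N, r₁, ξ, W, h0, h1, hξ, k1, k2, h⟩ := exists_std' ρ
  let e := Fintype.equivOfCardEq (card_eq_of_unitary k1 k2)
  have k3 : W.submatrix id e.symm * star (W.submatrix id e.symm) = 1 := by
    rw [Matrix.star_eq_conjTranspose, Matrix.conjTranspose_submatrix, Matrix.submatrix_mul_equiv,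
      k1, Matrix.submatrix_id_id]
  refine ⟨r₀, N, r₁, e, ξ, W.submatrix id e.symm, h0, h1, hξ, ⟨mul_eq_one_comm.1 k3, k3⟩,
    fun f => ?_⟩
  rw [Matrix.reindex_apply, Matrix.submatrix_mul_equiv, Matrix.star_eq_conjTranspose,
    Matrix.conjTranspose_submatrix, Matrix.submatrix_mul_equiv, Matrix.submatrix_id_id, h]

omit [NeZero p] [NeZero q] in
lemma shape_eq (hpq : Nat.Coprime p q) {r₀ N r₁ r₀' N' r₁' : ℕ} (h₀ : r₀ < q) (h₁ : r₁ < p)
    (h₀' : r₀' < q) (h₁' : r₁' < p)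
    (h : p * r₀ + (p * q * N + q * r₁) = p * r₀' + (p * q * N' + q * r₁')) :
    r₀ = r₀' ∧ N = N' ∧ r₁ = r₁' := by
  have e0 : r₀ = r₀' := by
    refine Nat.ModEq.eq_of_lt_of_lt (Nat.ModEq.cancel_left_of_coprime hpq.symm ?_) h₀ h₀'
    have : p * r₀ + q * (p * N + r₁) = p * r₀' + q * (p * N' + r₁') := by linarith
    have h2 := congrArg (· % q) this
    simpa [Nat.ModEq] using h2
  have e1 : r₁ = r₁' := by
    refine Nat.ModEq.eq_of_lt_of_lt (Nat.ModEq.cancel_left_of_coprime hpq ?_) h₁ h₁'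
    have : q * r₁ + p * (q * N + r₀) = q * r₁' + p * (q * N' + r₀') := by linarith
    have h2 := congrArg (· % p) this
    simpa [Nat.ModEq] using h2
  subst e0 e1
  refine ⟨rfl, Nat.eq_of_mul_eq_mul_left (Nat.mul_pos (by omega) (by omega) : 0 < p * q) ?_, rfl⟩
  omega

/-- For coprime sizes the shape is determined by the dimension. -/
theorem exists_std_same (hpq : Nat.Coprime p q) {r₀ N r₁ : ℕ} (h₀ : r₀ < q) (h₁ : r₁ < p)
    (ρ : DimDrop p q →⋆ₐ[ℂ] Matrix (BIdx p q r₀ N r₁) (BIdx p q r₀ N r₁) ℂ) :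
    ∃ (ξ : Fin N → unitInterval) (W : Matrix (BIdx p q r₀ N r₁) (BIdx p q r₀ N r₁) ℂ),
      Monotone ξ ∧ W ∈ unitary _ ∧ ∀ f, ρ f = W * block p q r₀ r₁ ξ f * star W := by
  obtain ⟨r₀', N', r₁', ξ, W, h0, h1, hξ, k1, k2, h⟩ := exists_std' ρ
  have hc := card_eq_of_unitary k1 k2
  simp only [Fintype.card_sum, Fintype.card_prod, Fintype.card_fin] at hc
  obtain ⟨rfl, rfl, rfl⟩ := shape_eq hpq h0 h1 h₀ h₁ hc
  exact ⟨ξ, W, hξ, ⟨k2, k1⟩, h⟩

end Vale.Agent.P101.JS
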