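import Vale.Agent.P101.JSqDefs

/-! Standard finite dimensional representations of a dimension drop algebra. -/

namespace Vale.Agent.P101.JS
open scoped Kronecker Matrix.Norms.L2Operator

/-- The index set of a standard representation. -/
abbrev BIdx (p q r₀ N r₁ : ℕ) : Type :=
  (Fin p × Fin r₀) ⊕ ((Fin p × Fin q) × Fin N) ⊕ (Fin q × Fin r₁)

/-- The block diagonal embedding of a product of two matrix algebras. -/
noncomputable def blockSum (m n : Type) [Fintype m] [DecidableEq m] [Fintype n] [DecidableEq n] :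
    Matrix m m ℂ × Matrix n n ℂ →⋆ₐ[ℂ] Matrix (m ⊕ n) (m ⊕ n) ℂ where
  toFun x := Matrix.fromBlocks x.1 0 0 x.2
  map_one' := Matrix.fromBlocks_one
  map_mul' x y := by simp [Matrix.fromBlocks_multiply]
  map_zero' := Matrix.fromBlocks_zero
  map_add' x y := by simp [Matrix.fromBlocks_add]
  commutes' c := by
    rw [Algebra.algebraMap_eq_smul_one, Algebra.algebraMap_eq_smul_one, ← Matrix.fromBlocks_one,
      Matrix.fromBlocks_smul]
    simp
  map_star' x := by simp [Matrix.star_eq_conjTranspose, Matrix.fromBlocks_conjTranspose]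

@[simp] lemma blockSum_apply {m n : Type} [Fintype m] [DecidableEq m] [Fintype n] [DecidableEq n]
    (x : Matrix m m ℂ × Matrix n n ℂ) : blockSum m n x = Matrix.fromBlocks x.1 0 0 x.2 := rfl

/-- The block diagonal embedding of a power of a matrix algebra. -/
noncomputable def blockPi (m o : Type) [Fintype m] [DecidableEq m] [Fintype o] [DecidableEq o] :
    (o → Matrix m m ℂ) →⋆ₐ[ℂ] Matrix (m × o) (m × o) ℂ where
  toFun := Matrix.blockDiagonal
  map_one' := Matrix.blockDiagonal_one
  map_mul' x y := Matrix.blockDiagonal_mul x y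
  map_zero' := Matrix.blockDiagonal_zero
  map_add' x y := Matrix.blockDiagonal_add x y
  commutes' c := by
    simp [Algebra.algebraMap_eq_smul_one, Matrix.blockDiagonal_smul, Matrix.blockDiagonal_one]
  map_star' x := (Matrix.blockDiagonal_conjTranspose x).symm

@[simp] lemma blockPi_apply {m o : Type} [Fintype m] [DecidableEq m] [Fintype o] [DecidableEq o]
    (x : o → Matrix m m ℂ) : blockPi m o x = Matrix.blockDiagonal x := rfl

/-- Evaluation at a family of points. -/
noncomputable def evPi (p q : ℕ) {o : Type} (ξ : o → unitInterval) :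
    DimDrop p q →⋆ₐ[ℂ] (o → Mat p q) where
  toFun f m := f.1 (ξ m)
  map_one' := rfl
  map_mul' _ _ := rfl
  map_zero' := rfl
  map_add' _ _ := rfl
  commutes' c := funext fun m => by simp [Algebra.algebraMap_eq_smul_one]
  map_star' _ := rfl

@[simp] lemma evPi_apply {p q : ℕ} {o : Type} (ξ : o → unitInterval) (f : DimDrop p q) (m : o) :
    evPi p q ξ f m = f.1 (ξ m) := rfl

/-- The standard representation: `r₀` copies of the value at `0`, the evaluations at the points
`ξ`, and `r₁` copies of the value at `1`. -/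
noncomputable def block (p q : ℕ) [NeZero p] [NeZero q] (r₀ : ℕ) {N : ℕ} (r₁ : ℕ)
    (ξ : Fin N → unitInterval) :
    DimDrop p q →⋆ₐ[ℂ] Matrix (BIdx p q r₀ N r₁) (BIdx p q r₀ N r₁) ℂ :=
  (blockSum _ _).comp (((kronL _ _).comp (left p q)).prod ((blockSum _ _).comp
    (((blockPi _ _).comp (evPi p q ξ)).prod ((kronL _ _).comp (right p q)))))

lemma block_apply {p q : ℕ} [NeZero p] [NeZero q] (r₀ : ℕ) {N : ℕ} (r₁ : ℕ)
    (ξ : Fin N → unitInterval) (f : DimDrop p q) :
    block p q r₀ r₁ ξ f = Matrix.fromBlocks (left p q f ⊗ₖ (1 : Matrix (Fin r₀) (Fin r₀) ℂ)) 0 0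
      (Matrix.fromBlocks (Matrix.blockDiagonal fun m => f.1 (ξ m)) 0 0
        (right p q f ⊗ₖ (1 : Matrix (Fin r₁) (Fin r₁) ℂ))) := rfl

/-- Reindexing as a star isomorphism. -/
noncomputable def reindexStar {m n : Type} [Fintype m] [DecidableEq m] [Fintype n]
    [DecidableEq n] (e : m ≃ n) : Matrix m m ℂ ≃⋆ₐ[ℂ] Matrix n n ℂ :=
  { Matrix.reindexAlgEquiv ℂ ℂ e with
    map_star' := fun _ => rfl
    map_smul' := fun _ _ => rfl }

@[simp] lemma reindexStar_apply {m n : Type} [Fintype m] [DecidableEq m] [Fintype n]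
    [DecidableEq n] (e : m ≃ n) (x : Matrix m m ℂ) :
    reindexStar e x = Matrix.reindex e e x := rfl

/-- The function equal to `1` on `[0, k / K]`, to `0` on `[(k + 1) / K, 1]`, affine between. -/
noncomputable def ramp (K k : ℕ) : C(unitInterval, ℂ) :=
  ⟨fun t => ((max 0 (min 1 ((k : ℝ) + 1 - K * (t : ℝ))) : ℝ) : ℂ), by fun_prop⟩

lemma ramp_apply (K k : ℕ) (t : unitInterval) :
    ramp K k t = ((max 0 (min 1 ((k : ℝ) + 1 - K * (t : ℝ))) : ℝ) : ℂ) := rfl

end Vale.Agent.P101.JS
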