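import Vale.Agent.P101.JKill
import Vale.Agent.P101.JStdDefs

/-! Matrix units in the fibres and unitary equivalence of representations. -/

namespace Vale.Agent.P101.JS
open scoped Kronecker Matrix.Norms.L2Operator Matrix

/-- A projection factors through an isometry. -/
lemma exists_isometry {n : Type} [Fintype n] [DecidableEq n] {P : Matrix n n ℂ} (h : Pᴴ * P = P) :
    ∃ (m : ℕ) (V : Matrix n (Fin m) ℂ), V * Vᴴ = P ∧ Vᴴ * V = 1 ∧ P.trace = m := by
  have hP : P.IsHermitian := by
    rw [Matrix.IsHermitian, ← h, Matrix.conjTranspose_mul, Matrix.conjTranspose_conjTranspose]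
  have hPP : P * P = P := by rwa [hP.eq] at h
  obtain ⟨U, hU1, hU2, d, hd⟩ : ∃ U : Matrix n n ℂ, Uᴴ * U = 1 ∧ U * Uᴴ = 1 ∧ ∃ d : n → ℂ,
      P = U * Matrix.diagonal d * Uᴴ :=
    ⟨hP.eigenvectorUnitary, hP.eigenvectorUnitary.2.1, hP.eigenvectorUnitary.2.2, _,
      hP.spectral_theorem⟩
  have hD : Matrix.diagonal d = Uᴴ * P * U := by
    rw [hd]
    calc _ = (Uᴴ * U) * Matrix.diagonal d * (Uᴴ * U) := by rw [hU1, one_mul, mul_one]
      _ = _ := by noncomm_ring
  have hdd : ∀ i, d i = 0 ∨ d i = 1 := fun i => by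
    have : Matrix.diagonal d * Matrix.diagonal d = Matrix.diagonal d := by
      rw [hD]
      calc _ = Uᴴ * P * (U * Uᴴ) * P * U := by noncomm_ring
        _ = _ := by rw [hU2, mul_one, mul_assoc Uᴴ, hPP]
    rw [Matrix.diagonal_mul_diagonal] at this
    have h1 : d i * (d i - 1) = 0 := by
      rw [mul_sub, congrFun (Matrix.diagonal_injective this) i, mul_one, sub_self]
    exact (mul_eq_zero.1 h1).imp id sub_eq_zero.1
  classical
  let e := Fintype.equivFin {i // d i = 1}
  let J : Matrix n (Fin (Fintype.card {i // d i = 1})) ℂ :=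
    Matrix.of fun i k => (1 : Matrix n n ℂ) i (e.symm k).1
  have hJ1 : Jᴴ * J = 1 := by
    ext k l
    simp [J, Matrix.mul_apply, Matrix.one_apply, Subtype.val_inj, eq_comm]
  have hJ2 : J * Jᴴ = Matrix.diagonal d := by
    ext i j
    simp only [J, Matrix.mul_apply, Matrix.conjTranspose_apply, Matrix.of_apply]
    rw [e.symm.sum_comp fun k => (1 : Matrix n n ℂ) i k.1 * star ((1 : Matrix n n ℂ) j k.1)]
    rcases hdd i with hi | hi
    · rw [Finset.sum_eq_zero, Matrix.diagonal_apply, hi, ite_self]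
      rintro ⟨k, hk⟩ -
      rw [Matrix.one_apply_ne, zero_mul]
      rintro rfl
      exact zero_ne_one (hi.symm.trans hk)
    · rw [Finset.sum_eq_single ⟨i, hi⟩ (fun k _ hk => by
        rw [Matrix.one_apply_ne, zero_mul]
        exact fun h => hk (Subtype.ext h.symm)) (by simp)]
      by_cases hij : i = j
      · subst hij
        simp [hi]
      · simp [hij, Ne.symm hij]
  have h1 : U * J * (U * J)ᴴ = P := by
    rw [Matrix.conjTranspose_mul, Matrix.mul_assoc, ← Matrix.mul_assoc J, hJ2, hd,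
      Matrix.mul_assoc]
  have h2 : (U * J)ᴴ * (U * J) = 1 := by
    rw [Matrix.conjTranspose_mul, Matrix.mul_assoc, ← Matrix.mul_assoc Uᴴ, hU1, Matrix.one_mul,
      hJ1]
  exact ⟨_, U * J, h1, h2, by rw [← h1, Matrix.trace_mul_comm, h2]; simp⟩

/-- Projections with the same trace are equivalent. -/
lemma exists_pi {n n' : Type} [Fintype n] [DecidableEq n] [Fintype n'] [DecidableEq n']
    {P : Matrix n n ℂ} {P' : Matrix n' n' ℂ} (h : Pᴴ * P = P) (h' : P'ᴴ * P' = P')
    (ht : P.trace = P'.trace) : ∃ v : Matrix n n' ℂ, v * vᴴ = P ∧ vᴴ * v = P' := by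
  obtain ⟨m, V, h1, h2, h3⟩ := exists_isometry h
  obtain ⟨m', V', h1', h2', h3'⟩ := exists_isometry h'
  obtain rfl : m = m' := by exact_mod_cast h3.symm.trans (ht.trans h3')
  refine ⟨V * V'ᴴ, ?_, ?_⟩
  · rw [Matrix.conjTranspose_mul, Matrix.conjTranspose_conjTranspose, Matrix.mul_assoc,
      ← Matrix.mul_assoc V'ᴴ, h2', Matrix.one_mul, h1]
  · rw [Matrix.conjTranspose_mul, Matrix.conjTranspose_conjTranspose, Matrix.mul_assoc,
      ← Matrix.mul_assoc Vᴴ, h2, Matrix.one_mul, h1']

lemma sum_mul_conj {α n n' : Type} [Fintype n] [DecidableEq n] [Fintype n'] [DecidableEq n']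
    (A : Finset α) (X : α → Matrix n n ℂ) (X' : α → Matrix n' n' ℂ) (v : α → Matrix n n' ℂ)
    (h' : ∀ a ∈ A, ∀ b ∈ A, b ≠ a → (X' a)ᴴ * X' b = 0)
    (hv : ∀ a ∈ A, (X' a)ᴴ * X' a = (v a)ᴴ * v a) (hv' : ∀ a ∈ A, X a * (v a * (v a)ᴴ) = X a)
    (hs : ∑ a ∈ A, X a * (X a)ᴴ = 1) :
    (∑ a ∈ A, X a * v a * (X' a)ᴴ) * (∑ a ∈ A, X a * v a * (X' a)ᴴ)ᴴ = 1 := by
  rw [← hs, Matrix.sum_mul]
  refine Finset.sum_congr rfl fun a ha => ?_
  rw [Matrix.conjTranspose_sum, Matrix.mul_sum, Finset.sum_eq_single_of_mem a ha]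
  · simp only [Matrix.conjTranspose_mul, Matrix.conjTranspose_conjTranspose]
    calc _ = X a * v a * ((X' a)ᴴ * X' a) * (v a)ᴴ * (X a)ᴴ := by simp only [Matrix.mul_assoc]
      _ = X a * (v a * (v a)ᴴ) * (v a * (v a)ᴴ) * (X a)ᴴ := by
        rw [hv a ha]; simp only [Matrix.mul_assoc]
      _ = _ := by rw [hv' a ha, hv' a ha]
  · intro b hb hba
    simp only [Matrix.conjTranspose_mul, Matrix.conjTranspose_conjTranspose]
    calc _ = X a * v a * ((X' a)ᴴ * X' b) * (v b)ᴴ * (X b)ᴴ := by simp only [Matrix.mul_assoc]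
      _ = 0 := by rw [h' a ha b hb hba, Matrix.mul_zero, Matrix.zero_mul, Matrix.zero_mul]

variable {p q : ℕ} [NeZero p] [NeZero q]

open Classical in
/-- The active indices at a point. -/
noncomputable def act (p q : ℕ) [NeZero p] [NeZero q] (t : unitInterval) :
    Finset (Fin p × Fin q) :=
  if t = 0 then Finset.univ.image fun i => (i, 0) else
    if t = 1 then Finset.univ.image fun k => (0, k) else Finset.univ

open Classical in
/-- Matrix units of the fibre. -/
noncomputable def mu (t : unitInterval) (a b : Fin p × Fin q) : Mat p q :=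
  if t = 0 then Matrix.single a.1 b.1 (1 : ℂ) ⊗ₖ (1 : Matrix (Fin q) (Fin q) ℂ) else
    if t = 1 then (1 : Matrix (Fin p) (Fin p) ℂ) ⊗ₖ Matrix.single a.2 b.2 (1 : ℂ) else
      Matrix.single a b 1

lemma zero_mem_act (t : unitInterval) : ((0, 0) : Fin p × Fin q) ∈ act p q t := by
  unfold act
  split_ifs <;> simp

omit [NeZero p] [NeZero q] in
lemma mu_mem (t : unitInterval) (a b : Fin p × Fin q) : mu t a b ∈ fib p q t := by
  unfold mu fib
  split_ifs
  · exact ⟨_, rfl⟩
  · exact ⟨_, rfl⟩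
  · trivial

omit [NeZero p] [NeZero q] in
lemma star_mu (t : unitInterval) (a b : Fin p × Fin q) : star (mu t a b) = mu t b a := by
  unfold mu
  split_ifs <;> simp [Matrix.star_eq_conjTranspose, Matrix.conjTranspose_kronecker]

lemma mu_mul {t : unitInterval} (a d : Fin p × Fin q) {b c : Fin p × Fin q} (hb : b ∈ act p q t)
    (hc : c ∈ act p q t) : mu t a b * mu t c d = if b = c then mu t a d else 0 := by
  unfold mu
  unfold act at hb hc
  split_ifs at hb hc ⊢ with h0 h h1 h h
  · rw [← Matrix.mul_kronecker_mul, h, Matrix.single_mul_single_same, one_mul, one_mul]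
  · obtain ⟨i, -, rfl⟩ := Finset.mem_image.1 hb
    obtain ⟨j, -, rfl⟩ := Finset.mem_image.1 hc
    rw [← Matrix.mul_kronecker_mul, Matrix.single_mul_single_of_ne, Matrix.zero_kronecker]
    exact fun h' => h (Prod.ext h' rfl)
  · rw [← Matrix.mul_kronecker_mul, h, Matrix.single_mul_single_same, one_mul, one_mul]
  · obtain ⟨i, -, rfl⟩ := Finset.mem_image.1 hb
    obtain ⟨j, -, rfl⟩ := Finset.mem_image.1 hc
    rw [← Matrix.mul_kronecker_mul, Matrix.single_mul_single_of_ne, Matrix.kronecker_zero]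
    exact fun h' => h (Prod.ext rfl h')
  · rw [h, Matrix.single_mul_single_same, one_mul]
  · exact Matrix.single_mul_single_of_ne _ _ _ _ h _

lemma mul_single_eq {m : Type} [Fintype m] [DecidableEq m] (x : Matrix m m ℂ) (a o : m) :
    x * Matrix.single a o 1 = ∑ b, x b a • Matrix.single b o (1 : ℂ) := by
  ext i j
  by_cases h : o = j
  · subst h
    simp [Matrix.sum_apply, Matrix.single_apply]
  · simp [Matrix.sum_apply, h, Matrix.mul_apply]

lemma sum_mu (t : unitInterval) : ∑ a ∈ act p q t, mu t a a = 1 := by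
  unfold mu act
  split_ifs
  · rw [Finset.sum_image (fun _ _ _ _ h => (Prod.mk.inj h).1)]
    have := map_sum (kronL (Fin p) (Fin q)) (fun i => Matrix.single i i (1 : ℂ)) Finset.univ
    rw [Matrix.sum_single_one, map_one] at this
    exact this.symm
  · rw [Finset.sum_image (fun _ _ _ _ h => (Prod.mk.inj h).2)]
    have := map_sum (kronR (Fin p) (Fin q)) (fun i => Matrix.single i i (1 : ℂ)) Finset.univ
    rw [Matrix.sum_single_one, map_one] at this
    exact this.symm
  · exact Matrix.sum_single_one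

lemma mul_mu {t : unitInterval} {y : Mat p q} (hy : y ∈ fib p q t) {a : Fin p × Fin q}
    (ha : a ∈ act p q t) (o : Fin p × Fin q) :
    y * mu t a o = ∑ b ∈ act p q t, y b a • mu t b o := by
  unfold mu
  unfold act at ha ⊢
  unfold fib at hy
  split_ifs at ha hy ⊢
  · obtain ⟨x, rfl⟩ := hy
    obtain ⟨i, -, rfl⟩ := Finset.mem_image.1 ha
    rw [Finset.sum_image (fun _ _ _ _ h => (Prod.mk.inj h).1)]
    have := congrArg (kronL (Fin p) (Fin q)) (mul_single_eq x i o.1)
    rw [map_mul, map_sum] at this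
    refine this.trans (Finset.sum_congr rfl fun j _ => ?_)
    rw [map_smul]
    congr 1
    change _ = x j i * (1 : Matrix (Fin q) (Fin q) ℂ) 0 0
    simp
  · obtain ⟨x, rfl⟩ := hy
    obtain ⟨i, -, rfl⟩ := Finset.mem_image.1 ha
    rw [Finset.sum_image (fun _ _ _ _ h => (Prod.mk.inj h).2)]
    have := congrArg (kronR (Fin p) (Fin q)) (mul_single_eq x i o.2)
    rw [map_mul, map_sum] at this
    refine this.trans (Finset.sum_congr rfl fun j _ => ?_)
    rw [map_smul]
    congr 1
    change _ = (1 : Matrix (Fin p) (Fin p) ℂ) 0 0 * x j i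
    simp
  · exact mul_single_eq y a o

end Vale.Agent.P101.JS
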