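import Vale.Agent.P101.Nil

/-! Merging two commuting order zero systems. -/

namespace Vale.Agent.P101
open Filter Topology TopologicalSpace Finset

universe u
variable {ν : Type} [Fintype ν] [DecidableEq ν]

theorem merge_abs {Z R : Type*} [CommRing Z] [Ring R] [Algebra Z R] (h t g s i : Z)
    (hi : i * i = -1) (E F : ν → ν → R)
    (hE : ∀ a b c d, E a b * E c d = if b = c then h • E a d else 0)
    (hF : ∀ a b c d, F a b * F c d = if b = c then t • F a d else 0)
    (sE : ∑ a, E a a = algebraMap Z R h) (sF : ∑ a, F a a = algebraMap Z R t)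
    (hc : ∀ a b c d, F a b * E c d = E c d * F a b) (N : ν → ν → R)
    (hN : ∀ a b, N a b = (g * g * h) • E a b + (s * s * t) • F a b +
      (i * g * s) • (∑ j, E j b * F a j - ∑ j, E a j * F j b)) (a b c d : ν) :
    N a b * N c d = if b = c then (g * g * h * h + s * s * t * t) • N a d else 0 := by
  have mm : ∀ a b c d a' b' c' d', E a b * F c d * (E a' b' * F c' d') =
      E a b * E a' b' * (F c d * F c' d') := fun a b c d a' b' c' d' => by
    rw [mul_assoc, ← mul_assoc (F c d), hc]; simp only [mul_assoc]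
  have m1 : ∀ a b a' b' c' d', E a b * (E a' b' * F c' d') = E a b * E a' b' * F c' d' :=
    fun _ _ _ _ _ _ => (mul_assoc _ _ _).symm
  have m2 : ∀ a b c d a' b', E a b * F c d * E a' b' = E a b * E a' b' * F c d :=
    fun a b c d a' b' => by rw [mul_assoc, hc, mul_assoc]
  have m3 : ∀ c d a' b' c' d', F c d * (E a' b' * F c' d') = E a' b' * (F c d * F c' d') :=
    fun c d a' b' c' d' => by rw [← mul_assoc, hc, mul_assoc]
  have m4 : ∀ a b c d c' d', E a b * F c d * F c' d' = E a b * (F c d * F c' d') :=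
    fun _ _ _ _ _ _ => mul_assoc _ _ _
  have LL : (∑ j, E j b * F a j) * ∑ j, E j d * F c j = (h * t) • (E c d * F a b) := by
    rw [sum_mul_sum]; simp [mm, hE, hF, smul_smul, mul_comm]
  have RR : (∑ j, E a j * F j b) * ∑ j, E c j * F j d = (h * t) • (E a b * F c d) := by
    rw [sum_mul_sum]; simp [mm, hE, hF, smul_smul, mul_comm]
  have LR : (∑ j, E j b * F a j) * ∑ j, E c j * F j d =
      if b = c then (h * h * t) • F a d else 0 := by
    rw [sum_mul_sum]
    split_ifs with hbc
    · simp [mm, hE, hF, hbc, ← smul_sum, ← sum_mul, sE, ← Algebra.smul_def, smul_smul, mul_comm, mul_left_comm]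
    · simp [mm, hE, hbc]
  have RL : (∑ j, E a j * F j b) * ∑ j, E j d * F c j =
      if b = c then (h * t * t) • E a d else 0 := by
    rw [sum_mul_sum]
    split_ifs with hbc
    · simp [mm, hE, hF, hbc, ← smul_sum, ← mul_sum, sF, ← Algebra.commutes, ← Algebra.smul_def, smul_smul, mul_comm, mul_left_comm]
    · simp [mm, hF, hbc]
  have EL : E a b * ∑ j, E j d * F c j = h • (E a d * F c b) := by
    simp [mul_sum, m1, hE]
  have RE : (∑ j, E a j * F j b) * E c d = h • (E a d * F c b) := by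
    simp [sum_mul, m2, hE]
  have ER : E a b * ∑ j, E c j * F j d = if b = c then h • ∑ j, E a j * F j d else 0 := by
    split_ifs with hbc <;> simp [mul_sum, m1, hE, hbc, smul_sum]
  have LE : (∑ j, E j b * F a j) * E c d = if b = c then h • ∑ j, E j d * F a j else 0 := by
    split_ifs with hbc <;> simp [sum_mul, m2, hE, hbc, smul_sum]
  have FL : F a b * ∑ j, E j d * F c j = if b = c then t • ∑ j, E j d * F a j else 0 := by
    split_ifs with hbc <;> simp [mul_sum, m3, hF, hbc, smul_sum]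
  have RF : (∑ j, E a j * F j b) * F c d = if b = c then t • ∑ j, E a j * F j d else 0 := by
    split_ifs with hbc <;> simp [sum_mul, m4, hF, hbc, smul_sum]
  have FR : F a b * ∑ j, E c j * F j d = t • (E c b * F a d) := by
    simp [mul_sum, m3, hF]
  have LF : (∑ j, E j b * F a j) * F c d = t • (E c b * F a d) := by
    simp [sum_mul, m4, hF]
  have ii : ∀ x : R, (i * g * s) • (i * g * s) • x = -(g * g * s * s) • x := fun x => by
    rw [smul_smul]; congr 1; linear_combination (g * g * s * s) * hi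
  simp only [hN, mul_add, add_mul, mul_sub, sub_mul, smul_mul_assoc, mul_smul_comm, LL, RR, LR, RL,
    EL, RE, ER, LE, FL, RF, FR, LF, hE, hF, hc, smul_add, smul_sub, ii]
  split_ifs <;> module

variable {B : Type u} [CStarAlgebra B]

/-- the merged system -/
noncomputable def mrg (E F : ν → ν → B) (g s : B) (a b : ν) : B :=
  g * g * (∑ j, E j j) * E a b + s * s * (∑ j, F j j) * F a b +
    algebraMap ℂ B Complex.I * g * s * (∑ j, E j b * F a j - ∑ j, E a j * F j b)

omit [DecidableEq ν] in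
theorem mrg_sum (E F : ν → ν → B) (g s : B) : ∑ a, mrg E F g s a a =
    g * g * (∑ j, E j j) * (∑ j, E j j) + s * s * (∑ j, F j j) * ∑ j, F j j := by
  simp only [mrg, sum_add_distrib, ← mul_sum, sum_sub_distrib]
  rw [sum_comm, sub_self, mul_zero, add_zero]

omit [DecidableEq ν] in
theorem mrg_comm {E F : ν → ν → B} {g s b : B} (hE : ∀ i j, Commute b (E i j))
    (hF : ∀ i j, Commute b (F i j)) (hg : Commute b g) (hs : Commute b s) (i j : ν) :
    Commute b (mrg E F g s i j) :=
  ((((hg.mul_right hg).mul_right (.sum_right _ _ _ fun _ _ => hE _ _)).mul_right (hE _ _)).add_right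
    (((hs.mul_right hs).mul_right (.sum_right _ _ _ fun _ _ => hF _ _)).mul_right (hF _ _))).add_right
    ((((Algebra.commute_algebraMap_right _ _).mul_right hg).mul_right hs).mul_right
      ((Commute.sum_right _ _ _ fun _ _ => (hE _ _).mul_right (hF _ _)).sub_right
        (.sum_right _ _ _ fun _ _ => (hE _ _).mul_right (hF _ _))))

theorem OZ.merge {E F : ν → ν → B} (hE : OZ E) (hF : OZ F)
    (hc : ∀ a b c d, Commute (F a b) (E c d)) {g s : B} (hg : IsSelfAdjoint g)
    (hs : IsSelfAdjoint s) (gE : ∀ a b, Commute g (E a b)) (gF : ∀ a b, Commute g (F a b))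
    (sE : ∀ a b, Commute s (E a b)) (sF : ∀ a b, Commute s (F a b)) (gs : Commute g s) :
    OZ (mrg E F g s) := by
  let z : Fin 5 → B := ![∑ j, E j j, ∑ j, F j j, g, s, algebraMap ℂ B Complex.I]
  have zE : ∀ k a b, Commute (z k) (E a b) := fun k a b => by
    fin_cases k
    exacts [hE.comm a b, .sum_left _ _ _ fun _ _ => hc _ _ _ _, gE a b, sE a b,
      Algebra.commute_algebraMap_left _ _]
  have zF : ∀ k a b, Commute (z k) (F a b) := fun k a b => by
    fin_cases k
    exacts [.sum_left _ _ _ fun _ _ => (hc _ _ _ _).symm, hF.comm a b, gF a b, sF a b,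
      Algebra.commute_algebraMap_left _ _]
  have z0 : ∀ k, Commute (z k) (z 0) := fun k => .sum_right _ _ _ fun _ _ => zE k _ _
  have z1 : ∀ k, Commute (z k) (z 1) := fun k => .sum_right _ _ _ fun _ _ => zF k _ _
  have z4 : ∀ k, Commute (z k) (z 4) := fun k => Algebra.commute_algebraMap_right _ _
  have zz : ∀ k l, Commute (z k) (z l) := fun k l => by
    fin_cases l
    exacts [z0 k, z1 k, by fin_cases k; exacts [(z0 2).symm, (z1 2).symm, .refl _, gs.symm,
      (z4 2).symm], by fin_cases k; exacts [(z0 3).symm, (z1 3).symm, gs, .refl _, (z4 3).symm], z4 k]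
  let R := Subring.centralizer (Set.range z)
  have mem : ∀ {x}, (∀ k, Commute (z k) x) → x ∈ R := fun h => by
    rintro _ ⟨k, rfl⟩; exact h k
  let c : Fin 5 → Subring.center R := fun k => ⟨⟨z k, mem fun l => zz l k⟩,
    Subring.mem_center_iff.2 fun x => Subtype.ext (x.2 _ ⟨k, rfl⟩).symm⟩
  have sm : ∀ (k : Subring.center R) (x : R), ((k • x : R) : B) = k.1.1 * x := fun _ _ => rfl
  refine ⟨fun a b => ?_, fun a b k l => ?_⟩
  · have c1 : ∀ x y : B, Commute x y → star (x * y) = star x * star y := fun x y h => by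
      rw [h.eq, star_mul]
    have e1 : star (∑ j, E j b * F a j - ∑ j, E a j * F j b) =
        -(∑ j, E j a * F b j - ∑ j, E b j * F j a) := by
      simp [star_sum, hE.adj, hF.adj, (hc _ _ _ _).eq]
    have cL : ∀ k, Commute (z k) (∑ j, E j b * F a j - ∑ j, E a j * F j b) := fun k =>
      (Commute.sum_right _ _ _ fun _ _ => (zE k _ _).mul_right (zF k _ _)).sub_right
        (.sum_right _ _ _ fun _ _ => (zE k _ _).mul_right (zF k _ _))
    change star (z 2 * z 2 * z 0 * E a b + z 3 * z 3 * z 1 * F a b + z 4 * z 2 * z 3 * _) = _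
    rw [star_add, star_add, c1 _ _ (((zE 2 a b).mul_left (zE 2 a b)).mul_left (zE 0 a b)),
      c1 _ _ (((zF 3 a b).mul_left (zF 3 a b)).mul_left (zF 1 a b)),
      c1 _ _ (((cL 4).mul_left (cL 2)).mul_left (cL 3)), c1 _ _ ((z0 2).mul_left (z0 2)),
      c1 _ _ ((z1 3).mul_left (z1 3)), c1 _ _ ((zz 4 3).mul_left (zz 2 3)), c1 _ _ (zz 4 2), e1]
    simp [z, mrg, hE.adj, hF.adj, hg.star_eq, hs.star_eq, star_sum, ← algebraMap_star_comm, mul_sub,
      neg_add_eq_sub]
  · have := congrArg Subtype.val (merge_abs (c 0) (c 1) (c 2) (c 3) (c 4)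
      (Subtype.ext (Subtype.ext (by simp [c, z, ← map_mul])))
      (fun a b => (⟨E a b, mem fun k => zE k a b⟩ : R)) (fun a b => ⟨F a b, mem fun k => zF k a b⟩)
      (fun a b c d => Subtype.ext (by split_ifs with h <;> simp [hE.mul, h, sm]; rfl))
      (fun a b c d => Subtype.ext (by split_ifs with h <;> simp [hF.mul, h, sm]; rfl))
      (Subtype.ext (by simp; rfl)) (Subtype.ext (by simp; rfl))
      (fun a b c d => Subtype.ext (hc a b c d)) _ (fun _ _ => rfl) a b k l)
    rw [mrg_sum]
    split_ifs at this ⊢ <;> simpa [sm, c, z, mrg, -smul_add] using this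

theorem cfc_eig {a ξ : B} (ha : IsSelfAdjoint a) {f : ℝ → ℝ} (hf : Continuous f)
    (h : a * ξ = ξ) : cfc f a * ξ = f 1 • ξ := by
  refine eq_of_forall_dist_le fun ε hε => ?_
  have hδ : 0 < ε / (‖ξ‖ + 1) := by positivity
  set δ := ε / (‖ξ‖ + 1) with hd
  obtain ⟨ρ, hρ, h1⟩ := Metric.continuousAt_iff.1 (hf.continuousAt (x := 1)) δ hδ
  let k : ℝ → ℝ := fun t => max (-δ) (min δ (f t - f 1))
  have hk : Continuous k := by fun_prop
  have h2 := vanish (S := a) (P := ξ) (y := 0) ha (θ := 1) (g := fun t => f t - f 1 - k t)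
    (by fun_prop) (by simpa using hρ) (fun t ht => not_lt.1 fun h3 => ht (by
      have := abs_lt.1 (h1 h3)
      simp only [k, min_eq_right this.2.le, max_eq_right this.1.le, sub_self]))
    (.zero_right _) (by simp [sub_mul, h])
  rw [cfc_sub _ _ a (by fun_prop) (by fun_prop), cfc_sub _ _ a (by fun_prop) (by fun_prop),
    cfc_const _ a, sub_mul, sub_mul, ← Algebra.smul_def, sub_eq_zero] at h2
  rw [dist_eq_norm, h2]
  have h3 : ‖cfc k a‖ ≤ δ := norm_cfc_le hδ.le fun t _ =>
    abs_le.2 ⟨le_max_left _ _, max_le (by linarith) (min_le_left _ _)⟩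
  refine (norm_mul_le_of_le h3 le_rfl).trans ?_
  rw [hd, div_mul_eq_mul_div, div_le_iff₀ (by positivity)]
  nlinarith

/-- cut-off function -/
noncomputable def gam (t : ℝ) : ℝ := max 0 (min 1 (2 - 2 * t))

theorem gam_cont : Continuous gam := by unfold gam; fun_prop

theorem gam_small {t : ℝ} (h : t ≤ 1 / 2) : gam t = 1 := by
  rw [gam, min_eq_left (by linarith), max_eq_right zero_le_one]

variable [PartialOrder B] [StarOrderedRing B]

theorem merge_step {E F : ν → ν → B} (hE : OZ E) (hF : OZ F)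
    (hc : ∀ a b c d, Commute (F a b) (E c d)) (H0 : 0 ≤ ∑ a, E a a) (H1 : ∑ a, E a a ≤ 1)
    (t0 : 0 ≤ ∑ a, F a a) (t1 : ∑ a, F a a ≤ 1) (o : ν) :
    ∃ N : ν → ν → B, OZ N ∧ ∑ a, N a a ≤ 1 ∧ (∑ a, E a a) * ∑ a, E a a ≤ ∑ a, N a a ∧
      (∑ a, F a a) * ∑ a, F a a ≤ ∑ a, N a a ∧
      (∀ b, (∀ i j, Commute b (E i j)) → (∀ i j, Commute b (F i j)) → ∀ i j, Commute b (N i j)) ∧
      (∀ ξ, F o o * ξ = ξ → N o o * ξ = ξ) ∧
      ∀ ξ, cfc gam (∑ a, F a a) * ξ = ξ → E o o * ξ = ξ → N o o * ξ = ξ := by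
  set H := ∑ a, E a a with hH
  set t := ∑ a, F a a with ht
  have tsa : IsSelfAdjoint t := hF.sa
  have hm : ∀ x : ℝ, 0 < max x (1 / 2) ^ 2 := fun x => pow_pos (lt_max_of_lt_right (by norm_num)) _
  let k : ℝ → ℝ := fun x => 1 / max x (1 / 2) ^ 2
  have hk : Continuous k := continuous_const.div (by fun_prop) fun x => (hm x).ne'
  have gc := gam_cont
  have g0 : ∀ x, 0 ≤ gam x := fun x => le_max_left _ _
  have g1 : ∀ x, gam x * gam x ≤ 1 := fun x =>
    mul_le_one₀ (max_le zero_le_one (min_le_left _ _)) (g0 x) (max_le zero_le_one (min_le_left _ _))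
  set g := cfc gam t with hg
  have e0 : 1 - g * g = cfc (fun x => 1 - gam x * gam x) t := by
    rw [hg, cfc_mul' gc gc, cfc_sub _ _ t (by fun_prop) (by fun_prop), cfc_const_one ℝ t]
  set τ := cfc k t * (1 - g * g) with hτ
  have eτ : τ = cfc (fun x => k x * (1 - gam x * gam x)) t := by
    rw [hτ, e0, cfc_mul' hk (by fun_prop)]
  have e1 : τ * t * t = 1 - g * g := by
    rw [eτ, e0]
    conv_lhs => arg 2; rw [← cfc_id' ℝ t]
    conv_lhs => arg 1; arg 2; rw [← cfc_id' ℝ t]
    rw [cfc_mul' (by fun_prop) (by fun_prop), cfc_mul' (by fun_prop) (by fun_prop)]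
    congr 1
    funext x
    rcases le_total x (1 / 2) with h | h
    · simp [gam_small h]
    · simp only [k, max_eq_left h]
      field_simp [show x ≠ 0 by linarith]
  have one_sub : ∀ x : B, 0 ≤ x → x ≤ 1 → 0 ≤ 1 - x * x := fun x h0 h1 => by
    rw [show 1 - x * x = (1 - x) * (1 + x) by noncomm_ring]
    exact Commute.mul_nonneg (sub_nonneg.2 h1) (add_nonneg zero_le_one h0)
      ((Commute.one_left _).sub_left ((Commute.one_right _).add_right (.refl _)))
  have hcm : ∀ b, Commute H b → Commute t b → Commute g b ∧ Commute (τ + g * g * (1 - H * H)) b :=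
    fun b h1 h2 => by
      have h3 : Commute g b := h2.cfc_real _
      exact ⟨h3, (eτ ▸ h2.cfc_real _).add_left ((h3.mul_left h3).mul_left
        ((Commute.one_left _).sub_left (h1.mul_left h1)))⟩
  have Ht : Commute H t := .sum_left _ _ _ fun _ _ => .sum_right _ _ _ fun _ _ => (hc _ _ _ _).symm
  have gH : Commute g H := (hcm H (.refl _) Ht.symm).1
  have gt : Commute g t := (hcm t Ht (.refl _)).1
  have gg : 0 ≤ g * g := (cfc_sa _ _).mul_self_nonneg
  have gg1 : 0 ≤ 1 - g * g := e0 ▸ cfc_nonneg fun x _ => sub_nonneg.2 (g1 x)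
  have cg : ∀ b, Commute g b → Commute (g * g) (1 - b * b) := fun b h =>
    (Commute.one_right _).sub_right ((h.mul_left h).mul_right (h.mul_left h))
  have p0 : 0 ≤ τ + g * g * (1 - H * H) := add_nonneg
    (eτ ▸ cfc_nonneg fun x _ => mul_nonneg (one_div_pos.2 (hm x)).le (sub_nonneg.2 (g1 x)))
    (Commute.mul_nonneg gg (one_sub H H0 H1) (cg H gH))
  set s := CFC.sqrt (τ + g * g * (1 - H * H)) with hs
  have ss : s * s = τ + g * g * (1 - H * H) := CFC.sqrt_mul_sqrt_self _
  have ssa : IsSelfAdjoint s := (CFC.sqrt_nonneg _).isSelfAdjoint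
  have hcs : ∀ b, Commute H b → Commute t b → Commute s b := fun b h1 h2 =>
    (hcm b h1 h2).2.cfcₙ_nnreal _
  have tE : ∀ i j, Commute t (E i j) := fun i j => .sum_left _ _ _ fun _ _ => hc _ _ _ _
  have HF : ∀ i j, Commute H (F i j) := fun i j => .sum_left _ _ _ fun _ _ => (hc _ _ _ _).symm
  have gE := fun i j => (hcm _ (hE.comm i j) (tE i j)).1
  have gF := fun i j => (hcm _ (HF i j) (hF.comm i j)).1
  have sE := fun i j => hcs _ (hE.comm i j) (tE i j)
  have sF := fun i j => hcs _ (HF i j) (hF.comm i j)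
  have gs : Commute g s := (hcs g gH.symm gt.symm).symm
  have e2 : ∑ a, mrg E F g s a a = 1 - g * g * (1 - H * H) * (1 - t * t) := by
    rw [mrg_sum, ← hH, ← ht, ss, add_mul, add_mul, e1]; noncomm_ring
  have cHt : Commute (1 - H * H) (1 - t * t) := (Commute.one_left _).sub_left
    ((Commute.one_right _).sub_right ((Ht.mul_left Ht).mul_right (Ht.mul_left Ht)))
  have cL : ∀ b, (∀ i j, Commute b (E i j)) → (∀ i j, Commute b (F i j)) →
      Commute b (∑ j, E j o * F o j - ∑ j, E o j * F j o) := fun b h1 h2 =>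
    (Commute.sum_right _ _ _ fun _ _ => (h1 _ _).mul_right (h2 _ _)).sub_right
      (.sum_right _ _ _ fun _ _ => (h1 _ _).mul_right (h2 _ _))
  refine ⟨mrg E F g s, hE.merge hF hc (cfc_sa _ _) ssa gE gF sE sF gs, ?_, ?_, ?_,
    fun b h1 h2 => ?_, fun ξ h => ?_, fun ξ h1 h2 => ?_⟩
  · rw [e2, sub_le_self_iff]
    exact Commute.mul_nonneg (Commute.mul_nonneg gg (one_sub H H0 H1) (cg H gH)) (one_sub t t0 t1)
      ((cg t gt).mul_left cHt)
  · rw [e2, ← sub_nonneg, show 1 - g * g * (1 - H * H) * (1 - t * t) - H * H =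
      (1 - g * g) * (1 - H * H) + g * g * (1 - H * H) * (t * t) by noncomm_ring]
    exact add_nonneg (Commute.mul_nonneg gg1 (one_sub H H0 H1)
      ((Commute.one_left _).sub_left (cg H gH))) (Commute.mul_nonneg
      (Commute.mul_nonneg gg (one_sub H H0 H1) (cg H gH)) hF.sa.mul_self_nonneg
      (((gt.mul_left gt).mul_right (gt.mul_left gt)).mul_left ((Commute.one_left _).sub_left
        ((Ht.mul_left Ht).mul_right (Ht.mul_left Ht)))))
  · rw [e2, ← sub_nonneg, show 1 - g * g * (1 - H * H) * (1 - t * t) - t * t =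
      (1 - g * g) * (1 - t * t) + g * g * (H * H) * (1 - t * t) by noncomm_ring]
    exact add_nonneg (Commute.mul_nonneg gg1 (one_sub t t0 t1)
      ((Commute.one_left _).sub_left (cg t gt))) (Commute.mul_nonneg
      (Commute.mul_nonneg gg hE.sa.mul_self_nonneg ((gH.mul_left gH).mul_right (gH.mul_left gH)))
      (one_sub t t0 t1) ((cg t gt).mul_left ((Commute.one_right _).sub_right
        ((Ht.mul_left Ht).mul_right (Ht.mul_left Ht)))))
  · have b1 : Commute H b := .sum_left _ _ _ fun _ _ => (h1 _ _).symm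
    have b2 : Commute t b := .sum_left _ _ _ fun _ _ => (h2 _ _).symm
    exact mrg_comm h1 h2 (hcm b b1 b2).1.symm (hcs b b1 b2).symm
  · have h1 := hF.fix h
    have h2 : g * ξ = 0 := by rw [hg, cfc_eig hF.sa gc h1]; simp [gam]
    have h3 : τ * ξ = ξ := by rw [eτ, cfc_eig hF.sa (by fun_prop) h1]; norm_num [gam, k]
    have kill : ∀ x, Commute g x → g * x * ξ = 0 := fun x hx => by rw [hx.eq, mul_assoc, h2, mul_zero]
    rw [mrg, ← hH, ← ht, add_mul, add_mul, mul_assoc _ (F o o), h, mul_assoc _ t, h1, ss, add_mul, h3,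
      mul_assoc g g, mul_assoc g, mul_assoc g g, mul_assoc _ g, mul_assoc _ (g * s), mul_assoc g s,
      mul_assoc (algebraMap ℂ B _), kill _ (((Commute.refl g).mul_right gH).mul_right (gE o o)),
      kill _ ((Commute.refl g).mul_right ((Commute.one_right _).sub_right (gH.mul_right gH))),
      kill _ (gs.mul_right (cL g gE gF))]
    simp
  · have h3 : H * ξ = ξ := hE.fix h2
    have h4 : s * ξ = 0 := eq_zero_of_star_mul (by
      rw [star_mul, ssa.star_eq, mul_assoc, ← mul_assoc s, ss, hτ]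
      simp [add_mul, mul_assoc, sub_mul, h1, h3])
    have kill : ∀ x, Commute s x → s * x * ξ = 0 := fun x hx => by rw [hx.eq, mul_assoc, h4, mul_zero]
    rw [mrg, ← hH, ← ht, add_mul, add_mul, mul_assoc _ (E o o), h2, mul_assoc _ H, h3, mul_assoc g g,
      h1, h1, mul_assoc s s, mul_assoc s, mul_assoc _ s, mul_assoc _ (s * _),
      kill _ (((Commute.refl s).mul_right (hcs t Ht (.refl _))).mul_right (sF o o)),
      kill _ (cL s sE sF)]
    simp

end Vale.Agent.P101
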