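import Vale.Agent.P101.Orth

/-! A full square-zero element and full order zero systems. -/

namespace Vale.Agent.P101
open Filter Topology TopologicalSpace Finset

universe u
variable {B : Type u} [CStarAlgebra B] {D : Type u} [CStarAlgebra D]

theorem Full.sq {x : B} (h : Full x) : Full (star x * x) := by
  by_contra h1
  refine one_notMem_closure h1 (h.of_mem (Metric.mem_closure_iff.2 fun ε hε => ?_))
  obtain ⟨r, k, -, -, h2, h3, -⟩ := exists_unit x (half_pos hε)
  refine ⟨x * (1 - r), ?_, ?_⟩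
  · rw [h3]
    exact Ideal.mul_mem_left _ _ (Ideal.mul_mem_left _ _ (self_mem_gen _))
  · rw [dist_eq_norm, mul_sub, mul_one, sub_sub_cancel]
    linarith

theorem Full.star {x : B} (h : Full x) : Full (star x) := by
  obtain ⟨ι, _, u, w, e⟩ := full_iff.1 h
  exact full_iff.2 ⟨ι, _, fun i => Star.star (w i), fun i => Star.star (u i), by
    simpa [star_sum, mul_assoc] using congrArg Star.star e⟩

theorem mem_of_gen (φ : D →⋆ₐ[ℂ] B) {P : B} (hc : ∀ d, Commute P (φ d)) {κ : Type*} {x : κ → D}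
    (h : (1 : D) ∈ gen x) {I : Ideal B} [I.IsTwoSided] (hx : ∀ k, φ (x k) * P ∈ I) : P ∈ I := by
  obtain ⟨ι, _, k, u, w, e⟩ := h
  rw [← one_mul P, ← map_one φ, ← e, map_sum, sum_mul]
  refine I.sum_mem fun i _ => ?_
  rw [map_mul, map_mul, mul_assoc, ← (hc _).eq, mul_assoc, ← mul_assoc (φ (x _))]
  exact I.mul_mem_left _ (I.mul_mem_right _ (hx _))

theorem Sites.pr_drop {J : Type} [Fintype J] [DecidableEq J] (S : Sites D B J) {a : J → D}
    {I : Ideal B} [I.IsTwoSided] (ha : S.pr a ∈ I) (s : Finset J) (h : ∀ j ∈ s, Full (a j)) :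
    S.pr (fun j => if j ∈ s then 1 else a j) ∈ I := by
  induction s using Finset.induction_on with
  | empty => simpa using ha
  | insert j s hj ih =>
    refine mem_of_gen (S.π j) (fun d => (S.pr_commute fun i => ?_).symm) (h j (by simp)) fun _ => ?_
    · by_cases hi : i = j
      · subst hi; simp
      · exact S.comm _ _ (Ne.symm hi) _ _
    · rw [S.mul_pr]
      convert ih fun i hi => h i (by simp [hi]) using 2
      funext i
      by_cases hi : i = j
      · subst hi; simp [hj]
      · simp [hi]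

theorem nil_full (hB : Rich B) (h : ∀ χ : B →⋆ₙₐ[ℂ] ℂ, χ = 0) : ∃ X : B, X * X = 0 ∧ Full X := by
  classical
  obtain ⟨a₀, b₀, ha₀, hb₀, hab₀, fa₀, fb₀⟩ := orth_full hB h
  obtain ⟨D, _, φ, y, h1, h2, h3, h4⟩ := hB.full ![a₀, b₀]
  have ha : IsSelfAdjoint (y 0) := sa_of_inj h1 (by rw [h2]; exact ha₀)
  have hb : IsSelfAdjoint (y 1) := sa_of_inj h1 (by rw [h2]; exact hb₀)
  have hab : y 0 * y 1 = 0 := h1 (by simpa [h2] using hab₀)
  have fa : Full (y 0) := h3 0 fa₀
  have fb : Full (y 1) := h3 1 fb₀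
  set a := y 0
  set b := y 1
  have hba : b * a = 0 := by simpa [ha.star_eq, hb.star_eq] using congrArg star hab
  obtain ⟨ι, _, u, w, e⟩ := full_iff.1 fa
  obtain ⟨ι', _, u', w', e'⟩ := full_iff.1 fb
  let x : ι × ι' → D := fun l => a * (w l.1 * u' l.2) * b
  have hx : (1 : D) ∈ gen x := ⟨ι × ι', inferInstance, id, fun l => u l.1, fun l => w' l.2, by
    have : (∑ i, u i * a * w i) * ∑ i, u' i * b * w' i = 1 := by rw [e, e', one_mul]
    simpa [sum_mul_sum, Fintype.sum_prod_type, x, mul_assoc] using this⟩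
  obtain ⟨S⟩ := h4 (Option (ι × ι'))
  let c : ι × ι' → D → Option (ι × ι') → D := fun l d j =>
    j.elim d fun i => if i = l then a else b
  refine ⟨∑ l, S.pr (c l (x l)), ?_, ?_⟩
  · rw [sum_mul_sum]
    refine sum_eq_zero fun l _ => sum_eq_zero fun l' _ => ?_
    rw [← map_mul]
    refine S.pr_zero none ?_
    simp only [c, x, Pi.mul_apply, Option.elim, mul_assoc]
    rw [← mul_assoc b a, hba]; simp
  · refine mem_of_gen (S.π none) (fun d => .one_left _) hx fun l => ?_
    have m1 := Ideal.mul_mem_left _ (S.pr (c l 1)) (self_mem_gen (∑ l, S.pr (c l (x l))))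
    have e1 : S.pr (c l 1) * ∑ l, S.pr (c l (x l)) = S.pr (c l 1 * c l (x l)) := by
      rw [mul_sum, sum_eq_single l (fun l' _ hl => by
        rw [← map_mul]; exact S.pr_zero (some l) (by simp [c, hl.symm, hab])) (by simp), map_mul]
    rw [e1] at m1
    have m2 := S.pr_drop m1 (univ.erase none) fun j hj => by
      obtain _ | j := j
      · simp at hj
      · simp only [c, Pi.mul_apply, Option.elim]
        split_ifs
        · simpa [ha.star_eq] using fa.sq
        · simpa [hb.star_eq] using fb.sq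
    rw [mul_one, ← S.pr_single]
    convert m2 using 2
    funext j
    obtain _ | j := j <;> simp [c]

variable {ν : Type} [Fintype ν] [DecidableEq ν]

/-- matrix units of an order zero map -/
structure OZ {R : Type*} [Ring R] [StarRing R] (E : ν → ν → R) : Prop where
  adj : ∀ i j, star (E i j) = E j i
  mul : ∀ i j k l, E i j * E k l = if j = k then (∑ a, E a a) * E i l else 0

theorem OZ.comm {R : Type*} [Ring R] [StarRing R] {E : ν → ν → R} (h : OZ E) (i j : ν) :
    Commute (∑ a, E a a) (E i j) := by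
  symm
  rw [Commute, SemiconjBy, mul_sum]
  simp [h.mul]

theorem OZ.sa {R : Type*} [Ring R] [StarRing R] {E : ν → ν → R} (h : OZ E) :
    IsSelfAdjoint (∑ a, E a a) := isSelfAdjoint_sum _ fun a _ => h.adj a a

theorem OZ.smul {R : Type*} [Ring R] [StarRing R] {E : ν → ν → R} (h : OZ E) {c : R}
    (hc : IsSelfAdjoint c) (hE : ∀ i j, Commute c (E i j)) : OZ fun i j => c * E i j where
  adj i j := by rw [star_mul, hc.star_eq, h.adj, (hE _ _).eq]
  mul i j k l := by
    rw [← mul_sum, (hE i j).symm.mul_mul_mul_comm, h.mul,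
      (Commute.sum_right _ _ _ fun a _ => hE a a).symm.mul_mul_mul_comm]
    split_ifs <;> simp

theorem OZ.fix {R : Type*} [Ring R] [StarRing R] {E : ν → ν → R} (h : OZ E) {o : ν} {x : R}
    (hx : E o o * x = x) : (∑ a, E a a) * x = x := by
  have := h.mul o o o o
  rw [if_pos rfl] at this
  calc _ = (∑ a, E a a) * E o o * x := by rw [mul_assoc, hx]
    _ = x := by rw [← this, mul_assoc, hx, hx]

theorem OZ.map {E : ν → ν → D} (h : OZ E) (φ : D →⋆ₐ[ℂ] B) : OZ fun i j => φ (E i j) where
  adj i j := by rw [← map_star, h.adj]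
  mul i j k l := by rw [← map_mul, h.mul]; split_ifs <;> simp

theorem oz_full (hB : Rich B) (h : ∀ χ : B →⋆ₙₐ[ℂ] ℂ, χ = 0) (o : ν) :
    ∃ x : ν → B, OZ (fun i j => x i * star (x j)) ∧ Full (x o * star (x o)) := by
  obtain ⟨X₀, hX₀, fX₀⟩ := nil_full hB h
  obtain ⟨D, _, φ, y, h1, h2, h3, h4⟩ := hB.full fun _ : Unit => X₀
  have hX : y () * y () = 0 := h1 (by simpa [h2] using hX₀)
  have fX : Full (y ()) := h3 () fX₀
  set X := y ()
  obtain ⟨S⟩ := h4 ν
  let r := cfc Real.sqrt (star X * X)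
  have hr : IsSelfAdjoint r := cfc_sa _ _
  have rr : r * r = star X * X := by
    rw [cfc_mul' (by fun_prop) (by fun_prop)]
    conv_rhs => rw [← cfc_id' ℝ (star X * X)]
    exact cfc_congr fun t ht => Real.mul_self_sqrt (spectrum_star_mul_self_nonneg t ht)
  have rX : r * X = 0 := eq_zero_of_star_mul (by
    rw [star_mul, hr.star_eq, mul_assoc, ← mul_assoc r, rr, mul_assoc, hX]; simp)
  let x := fun i => S.pr (Function.update (fun _ => r) i X)
  have key : ∀ i j, star (x i) * x j = if i = j then S.pr fun _ => star X * X else 0 := by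
    intro i j
    rw [S.pr_star, ← map_mul]
    split_ifs with hij
    · subst hij
      congr 1
      funext k
      by_cases hk : k = i
      · subst hk; simp
      · simp [hk, hr.star_eq, rr]
    · exact S.pr_zero j (by simp [Ne.symm hij, hr.star_eq, rX])
  refine ⟨x, ⟨fun i j => by simp, fun i j k l => ?_⟩, ?_⟩
  · rw [sum_mul]
    simp only [mul_assoc, ← mul_assoc (star (x _)), key]
    split_ifs <;> simp
  · have : Full (x o) := (S.pr_full fun _ => fX.sq).of_mem (by
      have := key o o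
      rw [if_pos rfl] at this
      rw [← this]
      exact Ideal.mul_mem_left _ _ (self_mem_gen _))
    simpa using this.star.sq

theorem oz_norm (hB : Rich B) (h : ∀ χ : B →⋆ₙₐ[ℂ] ℂ, χ = 0) (o : ν) :
    ∃ E : ν → ν → B, OZ E ∧ (∃ p q : B, star p * p = ∑ a, E a a ∧ star q * q = 1 - ∑ a, E a a) ∧
      ∃ (ι : Type) (_ : Fintype ι) (T r : ι → B), (∀ k, E o o * T k = T k) ∧
        ∑ k, r k * T k = 1 := by
  obtain ⟨x, hE, hf⟩ := oz_full hB h o
  set E := fun i j => x i * star (x j) with hEd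
  set H := ∑ a, E a a with hH
  have H0 : ∀ t ∈ spectrum ℝ H, 0 ≤ t := by
    let := CStarAlgebra.spectralOrder B
    have := CStarAlgebra.spectralOrderedRing B
    exact fun t ht => spectrum_nonneg_of_nonneg (sum_nonneg fun a _ => mul_star_self_nonneg _) ht
  have Hs : IsSelfAdjoint H := hE.sa
  obtain ⟨ι, _, u, w, e⟩ := full_iff.1 hf
  set K := ∑ k, ‖u k‖ * ‖w k‖
  have K0 : 0 ≤ K := by positivity
  set ε := 1 / (2 * (‖E o o‖ * K ^ 2 + 1)) with hε
  have ε0 : 0 < ε := by positivity
  have hm : ∀ t, 0 < max t ε := fun t => lt_max_of_lt_right ε0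
  let g : ℝ → ℝ := fun t => 1 / max t ε
  have hg : Continuous g := continuous_const.div (by fun_prop) fun t => (hm t).ne'
  let p : ℝ → ℝ := fun t => max 0 (min 1 (t / ε - 1))
  have hp : Continuous p := by fun_prop
  have c : ∀ f : ℝ → ℝ, ∀ i j, Commute (cfc f H) (E i j) := fun f i j => (hE.comm i j).cfc_real f
  have cH : ∀ f : ℝ → ℝ, Continuous f → cfc f H * H = cfc (fun t => f t * t) H := fun f hf => by
    rw [cfc_mul _ _ H hf.continuousOn (by fun_prop), cfc_id' ℝ H]
  have EE : E o o * E o o = H * E o o := by simpa using hE.mul o o o o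
  have hnear : ‖1 - ∑ k, u k * (cfc p H * E o o * w k)‖ < 1 := by
    have n1 : ‖cfc (fun t => 1 - p t) H * E o o‖ * ‖cfc (fun t => 1 - p t) H * E o o‖ ≤
        2 * ε * ‖E o o‖ := by
      rw [← CStarRing.norm_star_mul_self, star_mul, hE.adj, (cfc_sa _ _).star_eq, ← (c _ _ _).eq,
        (c _ o o).symm.mul_mul_mul_comm, EE, ← mul_assoc, cfc_mul' (by fun_prop) (by fun_prop),
        cH _ (by fun_prop)]
      refine norm_mul_le_of_le (norm_cfc_le (by positivity) fun t ht => ?_) le_rfl
      have t0 := H0 t ht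
      have p0 : 0 ≤ p t := le_max_left _ _
      have p1 : p t ≤ 1 := max_le zero_le_one (min_le_left _ _)
      rw [Real.norm_eq_abs, abs_of_nonneg (mul_nonneg (mul_self_nonneg _) t0)]
      rcases le_total t (2 * ε) with h1 | h1
      · have : (1 - p t) * (1 - p t) ≤ 1 := by nlinarith
        nlinarith
      · have : 1 ≤ t / ε - 1 := by rw [le_sub_iff_add_le, le_div_iff₀ ε0]; linarith
        simp [p, this, ε0.le]
    have n2 : ‖1 - ∑ k, u k * (cfc p H * E o o * w k)‖ ≤ ‖cfc (fun t => 1 - p t) H * E o o‖ * K := by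
      conv_lhs => rw [← e]
      rw [← sum_sub_distrib, mul_sum]
      refine norm_sum_le_of_le _ fun k _ => ?_
      rw [show u k * (x o * star (x o)) * w k - u k * (cfc p H * E o o * w k) =
        u k * (cfc (fun t => 1 - p t) H * E o o) * w k by
          rw [cfc_sub _ _ H (by fun_prop) (by fun_prop), cfc_const_one ℝ H]
          simp only [hEd]; noncomm_ring]
      exact (norm_mul_le_of_le (norm_mul_le _ _) le_rfl).trans_eq (by ring)
    refine n2.trans_lt (lt_of_pow_lt_pow_left₀ 2 zero_le_one ?_)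
    have n3 : 2 * ε * (‖E o o‖ * K ^ 2 + 1) = 1 := by rw [hε]; field_simp
    nlinarith [mul_le_mul_of_nonneg_right n1 (sq_nonneg K)]
  obtain ⟨r, hr⟩ := (Submodule.mem_span_range_iff_exists_fun B).1 (one_mem_of_near
    (I := Ideal.span (Set.range fun k => cfc p H * E o o * w k))
    (Ideal.sum_mem _ fun k _ => Ideal.mul_mem_left _ _ (Ideal.subset_span ⟨k, rfl⟩)) hnear)
  refine ⟨_, hE.smul (cfc_sa g H) (c g), ⟨cfc (fun t => √(g t * t)) H,
    cfc (fun t => √(1 - g t * t)) H, ?_, ?_⟩, ι, _, _, r, fun k => ?_, hr⟩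
  · rw [← mul_sum, cH g hg, (cfc_sa _ _).star_eq, cfc_mul' (by fun_prop) (by fun_prop)]
    exact cfc_congr fun t ht => Real.mul_self_sqrt (mul_nonneg (one_div_pos.2 (hm t)).le (H0 t ht))
  · rw [← mul_sum, cH g hg, (cfc_sa _ _).star_eq, cfc_mul' (by fun_prop) (by fun_prop),
      ← cfc_const_one ℝ H, ← cfc_sub _ _ H (by fun_prop) (by fun_prop)]
    refine cfc_congr fun t _ => Real.mul_self_sqrt (sub_nonneg.2 ?_)
    simp only [g]
    rw [one_div_mul_eq_div, div_le_one (hm t)]
    exact le_max_left _ _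
  · rw [← mul_assoc, (c _ o o).symm.mul_mul_mul_comm, EE, ← mul_assoc, cfc_mul' hg hp,
      cH _ (by fun_prop)]
    congr 3
    funext t
    rcases le_total t ε with h1 | h1
    · have : t / ε - 1 ≤ 0 := by rw [sub_nonpos, div_le_one ε0]; exact h1
      simp [p, this]
    · simp only [g, max_eq_left h1]
      field_simp [(ε0.trans_le h1).ne']

end Vale.Agent.P101
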