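import Vale.Agent.P101.Copy

/-! From the absence of characters to two orthogonal full elements. -/

namespace Vale.Agent.P101
open Filter Topology TopologicalSpace Finset

universe u
variable {B : Type u} [CStarAlgebra B]

/-- finite families can be copied into commuting sites -/
def Rich (B : Type u) [CStarAlgebra B] : Prop :=
  ∀ (κ : Type) [Countable κ] (x : κ → B), ∃ (D : Type u) (_ : CStarAlgebra D) (φ : D →⋆ₐ[ℂ] B)
    (y : κ → D), Function.Injective φ ∧ (∀ k, φ (y k) = x k) ∧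
    ∀ (J : Type) [Fintype J], Nonempty (Sites D B J)

theorem rich_central {ω : Ultrafilter ℕ} {A : Type u} [CStarAlgebra A] [SeparableSpace A]
    (hω : (ω : Filter ℕ) ≤ atTop) : Rich (CentralSeq ω A) := fun κ _ x => by
  obtain ⟨D, _, _, φ, y, h1, h2⟩ := exists_sep x
  exact ⟨D, _, φ, y, h1, h2, fun J _ => sites hω φ J⟩

theorem sa_of_inj {D : Type u} [CStarAlgebra D] {φ : D →⋆ₐ[ℂ] B} (h : Function.Injective φ) {x : D}
    (hx : IsSelfAdjoint (φ x)) : IsSelfAdjoint x := h (by rw [map_star, hx.star_eq])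

theorem Rich.full (h : Rich B) {κ : Type} [Finite κ] (x : κ → B) :
    ∃ (D : Type u) (_ : CStarAlgebra D) (φ : D →⋆ₐ[ℂ] B) (y : κ → D), Function.Injective φ ∧
      (∀ k, φ (y k) = x k) ∧ (∀ k, Full (x k) → Full (y k)) ∧
      ∀ (J : Type) [Fintype J], Nonempty (Sites D B J) := by
  have : ∀ k, ∃ (ι : Type) (_ : Fintype ι) (u w : ι → B),
      Full (x k) → ∑ i, u i * x k * w i = 1 := fun k => by
    by_cases hk : Full (x k)
    · obtain ⟨ι, _, u, w, e⟩ := full_iff.1 hk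
      exact ⟨ι, _, u, w, fun _ => e⟩
    · exact ⟨Unit, inferInstance, 0, 0, fun h => (hk h).elim⟩
  choose ι hι u w e using this
  obtain ⟨D, _, φ, y, h1, h2, h3⟩ := h (κ ⊕ (Σ k, ι k) ⊕ (Σ k, ι k))
    (Sum.elim x (Sum.elim (fun i => u i.1 i.2) fun i => w i.1 i.2))
  refine ⟨D, _, φ, fun k => y (.inl k), h1, fun k => h2 _, fun k hk => full_iff.2 ⟨ι k, hι k,
    fun i => y (.inr (.inl ⟨k, i⟩)), fun i => y (.inr (.inr ⟨k, i⟩)), h1 ?_⟩, h3⟩
  simpa [h2] using e k hk

theorem comm_gen (h : ∀ χ : B →⋆ₙₐ[ℂ] ℂ, χ = 0) :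
    (1 : B) ∈ gen fun k : B × selfAdjoint B => k.1 * k.2 - k.2 * k.1 := by
  by_contra h1
  let M := (gen fun k : B × selfAdjoint B => k.1 * k.2 - k.2 * k.1).closure
  have hM : IsClosed (M : Set B) := isClosed_closure
  have := isStarIdeal_of_closed M hM
  have hc : ∀ (x : B) (z : selfAdjoint B), qmk M x * qmk M z = qmk M z * qmk M x := fun x z => by
    rw [← map_mul, ← map_mul]
    exact Ideal.Quotient.eq.2 (subset_closure (mem_gen
      (fun k : B × selfAdjoint B => k.1 * k.2 - k.2 * k.1) (x, z)))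
  let : CommCStarAlgebra (B ⧸ M) :=
    { quotCStarAlgebra M with
      mul_comm := by
        rintro ⟨x⟩ ⟨y⟩
        change qmk M x * qmk M y = qmk M y * qmk M x
        rw [← realPart_add_I_smul_imaginaryPart y, map_add, map_smul, mul_add, add_mul,
          mul_smul_comm, smul_mul_assoc, hc, hc] }
  have : Nontrivial (B ⧸ M) := ⟨1, 0, fun e =>
    one_notMem_closure h1 (Ideal.Quotient.eq_zero_iff_mem.1 e)⟩
  obtain ⟨χ⟩ : Nonempty (WeakDual.characterSpace ℂ (B ⧸ M)) := inferInstance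
  have := DFunLike.congr_fun (h (((χ : (B ⧸ M) →⋆ₐ[ℂ] ℂ).comp (qmk M) : B →⋆ₐ[ℂ] ℂ))) 1
  simp at this

theorem single_sa (hB : Rich B) (h : ∀ χ : B →⋆ₙₐ[ℂ] ℂ, χ = 0) :
    ∃ s : B, IsSelfAdjoint s ∧ (1 : B) ∈ gen fun d : B => d * s - s * d := by
  classical
  obtain ⟨ι, _, k, u, w, e⟩ := comm_gen h
  obtain ⟨D, _, φ, y, h1, h2, h3⟩ := hB (Fin 4 × ι)
    fun i => ![u i.2, (k i.2).1, (k i.2).2, w i.2] i.1
  obtain ⟨S⟩ := h3 (PairIdx ι)
  let d := fun i => y (1, i)
  let z := fun i => y (2, i)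
  have hz : ∀ i, IsSelfAdjoint (z i) := fun i => sa_of_inj h1 (by rw [h2]; exact (k i).2.2)
  let s : B := ∑ w : ι → ι, ∑ i, S.π (.inl i) (z (w i)) * S.π (.inr w) (z i)
  refine ⟨s, isSelfAdjoint_sum _ fun w _ => isSelfAdjoint_sum _ fun i _ =>
    ((hz _).map _).commute_iff ((hz _).map _) |>.1 (S.comm _ _ (by simp) _ _), ?_⟩
  refine pair_trick S (fun i => y (0, i) * (d i * z i - z i * d i) * y (3, i))
    (h1 (by simpa [h2, d, z] using e)) _ fun w i => ?_
  set I := gen fun d : B => d * s - s * d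
  have c : ∀ a b, Commute (S.π (.inl i) a) (S.π (.inr w) b) := S.comm _ _ (by simp)
  have e1 : S.π (.inr w) (d i) * s - s * S.π (.inr w) (d i) =
      ∑ i', S.π (.inl i') (z (w i')) * S.π (.inr w) (d i * z i' - z i' * d i) := by
    simp only [s, mul_sum, sum_mul, ← sum_sub_distrib]
    rw [sum_eq_single w (fun w' _ hw => sum_eq_zero fun i' _ => sub_eq_zero.2
      ((S.comm _ _ (by simp) _ _).mul_right (S.comm _ _ (by simpa using hw.symm) _ _)).eq) (by simp)]
    refine sum_congr rfl fun i' _ => ?_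
    rw [map_sub, map_mul, map_mul, ← mul_assoc, (S.comm (.inr w) (.inl i') (by simp) _ _).eq]
    noncomm_ring
  have e2 : S.π (.inl i) (d (w i)) * (S.π (.inr w) (d i) * s - s * S.π (.inr w) (d i)) -
      (S.π (.inr w) (d i) * s - s * S.π (.inr w) (d i)) * S.π (.inl i) (d (w i)) =
      S.π (.inl i) (d (w i) * z (w i) - z (w i) * d (w i)) *
        S.π (.inr w) (d i * z i - z i * d i) := by
    rw [e1, mul_sum, sum_mul, ← sum_sub_distrib, sum_eq_single i (fun i' _ hi => sub_eq_zero.2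
      ((S.comm _ _ (by simpa using hi.symm) _ _).mul_right (S.comm _ _ (by simp) _ _)).eq) (by simp),
      mul_assoc, ← (c _ _).eq, map_sub (S.π (.inl i)), map_mul, map_mul]
    noncomm_ring
  have m1 := mem_gen (fun d : B => d * s - s * d) (S.π (.inr w) (d i))
  have m2 := I.sub_mem (I.mul_mem_left (S.π (.inl i) (d (w i))) m1)
    (I.mul_mem_right (S.π (.inl i) (d (w i))) m1)
  rw [e2] at m2
  have m3 := I.mul_mem_right (S.π (.inl i) (y (3, w i)) * S.π (.inr w) (y (3, i)))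
    (I.mul_mem_left (S.π (.inl i) (y (0, w i)) * S.π (.inr w) (y (0, i))) m2)
  have mm : ∀ a b a' b', S.π (.inl i) a * S.π (.inr w) b * (S.π (.inl i) a' * S.π (.inr w) b') =
      S.π (.inl i) (a * a') * S.π (.inr w) (b * b') := fun a b a' b' => by
    rw [map_mul, map_mul, (c a' b).symm.mul_mul_mul_comm]
  rwa [mm, mm] at m3

/-- tent function -/
def tent (η θ t : ℝ) : ℝ := max 0 (η - |t - θ|)

theorem tent_cont (η θ : ℝ) : Continuous (tent η θ) := by unfold tent; fun_prop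

theorem gap_gen {s : B} (hs : IsSelfAdjoint s) (h : (1 : B) ∈ gen fun d : B => d * s - s * d) :
    ∃ δ C : ℝ, 0 < δ ∧ 0 < C ∧ ∀ η : ℝ, 0 < η → (1 : B) ∈ gen
      fun k : {k : ℝ × ℝ × B // δ ≤ k.2.1 - k.1 ∧ k.2.1 - k.1 ≤ C} =>
        cfc (tent η k.1.1) s * k.1.2.2 * cfc (tent η k.1.2.1) s := by
  obtain ⟨ι, _, d, u, w, e⟩ := h
  set K := ∑ i, ‖u i‖ * (2 * ‖d i‖) * ‖w i‖ with hK
  have K0 : 0 ≤ K := by positivity
  refine ⟨1 / (K + 1), 2 * ‖s‖ + 1, by positivity, by positivity, fun η hη => ?_⟩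
  by_contra h1
  obtain ⟨M, _, hle, h2, hM, hp⟩ := exists_prime _ h1
  have := isStarIdeal_of_closed M hM
  have : Nontrivial (B ⧸ M) := ⟨1, 0, fun e => h2 (Ideal.Quotient.eq_zero_iff_mem.1 e)⟩
  have hq : IsSelfAdjoint (qmk M s) := hs.map _
  have hc := spectrum.isCompact (𝕜 := ℝ) (qmk M s)
  have hn := ContinuousFunctionalCalculus.spectrum_nonempty (R := ℝ) (qmk M s) hq
  obtain ⟨α, hα⟩ := hc.exists_isLeast hn
  obtain ⟨β, hβ⟩ := hc.exists_isGreatest hn
  have nz : ∀ θ ∈ spectrum ℝ (qmk M s), cfc (tent η θ) s ∉ M := fun θ hθ hm => by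
    have := norm_apply_le_norm_cfc (tent η θ) (qmk M s) hθ (tent_cont _ _).continuousOn
    rw [← map_cfcR _ (tent_cont _ _) hs, qmk_apply, Ideal.Quotient.eq_zero_iff_mem.2 hm] at this
    simp [tent, hη.le, hη.ne'] at this
  have nle : ∀ x, ‖qmk M x‖ ≤ ‖x‖ := norm_mk_le M
  have n1 : ‖qmk M s - algebraMap ℝ _ α‖ ≤ β - α := by
    have e1 : qmk M s - algebraMap ℝ _ α = cfc (fun t => t - α) (qmk M s) := by
      rw [cfc_sub _ _ _ (by fun_prop) (by fun_prop), cfc_id' ℝ _, cfc_const α _]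
    rw [e1]
    exact norm_cfc_le (sub_nonneg.2 (hβ.2 hα.1)) fun t ht => by
      rw [Real.norm_eq_abs, abs_of_nonneg (sub_nonneg.2 (hα.2 ht))]; linarith [hβ.2 ht]
  have n2 : 1 ≤ K * (β - α) := by
    rw [← norm_one (α := B ⧸ M), ← map_one (qmk M), ← e, map_sum, hK, sum_mul]
    refine norm_sum_le_of_le _ fun i _ => ?_
    have : qmk M (d i * s - s * d i) = qmk M (d i) * (qmk M s - algebraMap ℝ _ α) -
        (qmk M s - algebraMap ℝ _ α) * qmk M (d i) := by
      rw [mul_sub, sub_mul, Algebra.commutes, map_sub, map_mul, map_mul]; abel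
    rw [map_mul, map_mul, this]
    refine (norm_mul_le_of_le (norm_mul_le_of_le (nle _) (norm_sub_le_of_le
      (norm_mul_le_of_le (nle _) n1) (norm_mul_le_of_le n1 (nle _)))) (nle _)).trans_eq (by ring)
  have n3 := fun t (ht : t ∈ spectrum ℝ (qmk M s)) =>
    abs_le.1 ((spectrum.norm_le_norm_of_mem ht).trans (nle s))
  have g1 : 1 / (K + 1) ≤ β - α := by
    rw [div_le_iff₀ (by positivity)]; nlinarith [hβ.2 hα.1]
  have g2 : β - α ≤ 2 * ‖s‖ + 1 := by linarith [(n3 _ hα.1).1, (n3 _ hβ.1).2]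
  have g3 := fun k => hle (mem_gen _ k)
  rcases hp (cfc (tent η α) s) (cfc (tent η β) s) fun y => g3 ⟨(α, β, y), g1, g2⟩ with h | h
  · exact nz _ hα.1 h
  · exact nz _ hβ.1 h

theorem chain (θ : ℕ → ℝ) (m : ℕ) {δ : ℝ} (h : ∀ r < m, δ ≤ θ (r + 1) - θ r ∧ θ (r + 1) - θ r ≤ 2)
    (hm : 2 * Real.pi ≤ m * δ) : ∃ r, 1 / 2 ≤ Real.cos (θ r) := by
  let k := ⌈(θ 0 - 1) / (2 * Real.pi)⌉
  have hπ : 0 < 2 * Real.pi := by positivity
  have k1 : θ 0 - 1 ≤ k * (2 * Real.pi) := (div_le_iff₀ hπ).1 (Int.le_ceil _)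
  have k2 : (k - 1) * (2 * Real.pi) < θ 0 - 1 := (lt_div_iff₀ hπ).1 (by
    linarith [Int.ceil_lt_add_one ((θ 0 - 1) / (2 * Real.pi))])
  by_contra hn
  have h1 : ∀ r, θ r ≤ k * (2 * Real.pi) + 1 → θ r < k * (2 * Real.pi) - 1 := fun r hr => by
    by_contra h2
    refine hn ⟨r, ?_⟩
    rw [← Real.cos_sub_int_mul_two_pi _ k]
    nlinarith [Real.one_sub_sq_div_two_le_cos (x := θ r - k * (2 * Real.pi))]
  have h2 : ∀ r ≤ m, θ r < k * (2 * Real.pi) - 1 ∧ θ 0 + r * δ ≤ θ r := fun r => by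
    induction r with
    | zero => exact fun _ => ⟨h1 0 (by linarith), by simp⟩
    | succ r ih =>
      intro hr
      have := ih (by omega)
      have h3 := h r (by omega)
      exact ⟨h1 _ (by linarith), by push_cast; linarith⟩
  linarith [h2 m le_rfl]

theorem Sites.mul_pr {D : Type u} [CStarAlgebra D] {J : Type} [Fintype J] [DecidableEq J]
    (S : Sites D B J) (a : J → D) (j : J) (x : D) :
    S.π j x * S.pr a = S.pr (Function.update a j (x * a j)) := by
  rw [← S.pr_single, ← map_mul]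
  congr 1
  funext i
  by_cases h : i = j
  · subst h; simp
  · simp [h]

theorem tent_mem {D : Type u} [CStarAlgebra D] {J : Type} [Fintype J] [DecidableEq J]
    (S : Sites D B J) {s : D} (hs : IsSelfAdjoint s) {η l φ : ℝ} (hη : 0 < η) (hl : 0 < l)
    (h : Fintype.card J * η < 1 / (4 * l)) (ϑ : J → ℝ)
    (hϑ : 1 / 2 ≤ Real.cos (l * ∑ j, ϑ j + φ)) : S.pr (fun j => cfc (tent η (ϑ j)) s) ∈
      gen fun _ : Unit => cfc (fun t => max 0 (Real.cos (l * t + φ))) (∑ j, S.π j s) := by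
  set T := ∑ j, S.π j s with hT
  have hT' : IsSelfAdjoint T := isSelfAdjoint_sum _ fun j _ => hs.map _
  let c : ℝ → ℝ := fun t => max 0 (Real.cos (l * t + φ))
  have hc : Continuous c := by fun_prop
  let k : ℝ → ℝ := fun t => 1 / max (c t) (1 / 4)
  have hk : Continuous k := continuous_const.div (by fun_prop) fun t =>
    (lt_max_of_lt_right (by norm_num)).ne'
  let g : J → ℝ → ℝ := fun j t => max (-η) (min η (t - ϑ j))
  have hg : ∀ j, Continuous (g j) := fun j => by fun_prop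
  have := vanish (S := T) (P := S.pr fun j => cfc (tent η (ϑ j)) s)
    (y := ∑ j, S.π j (cfc (g j) s)) hT' (θ := ∑ j, ϑ j) (ρ := 1 / (4 * l))
    (g := fun t => 1 - k t * c t) (by fun_prop) ?_ ?_ ?_ ?_
  · rw [cfc_sub _ _ T (by fun_prop) (by fun_prop), ← cfc_mul' hk hc, cfc_const_one ℝ T, sub_mul,
      one_mul, sub_eq_zero] at this
    rw [this]
    exact Ideal.mul_mem_right _ _ (Ideal.mul_mem_left _ _ (self_mem_gen _))
  · refine lt_of_le_of_lt ?_ h
    rw [← nsmul_eq_mul, ← card_univ, ← sum_const]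
    refine norm_sum_le_of_le _ fun j _ => (NonUnitalStarAlgHom.norm_apply_le _ _).trans
      (norm_cfc_le hη.le fun t _ => abs_le.2 ⟨le_max_left _ _, max_le (by linarith) (min_le_left _ _)⟩)
  · intro t ht
    have h1 : c t < 1 / 4 := by
      by_contra h1
      have h2 : 1 / 4 ≤ c t := not_lt.1 h1
      refine ht ?_
      simp only [k, max_eq_left h2]
      rw [one_div_mul_cancel (by linarith), sub_self]
    have h2 := Real.abs_cos_sub_cos_le (l * ∑ j, ϑ j + φ) (l * t + φ)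
    rw [add_sub_add_right_eq_sub, ← mul_sub, abs_mul, abs_of_pos hl, abs_sub_comm _ t] at h2
    rw [div_le_iff₀ (by positivity)]
    linarith [le_abs_self (Real.cos (l * ∑ j, ϑ j + φ) - Real.cos (l * t + φ)),
      le_max_right 0 (Real.cos (l * t + φ))]
  · refine Commute.sum_left _ _ _ fun i _ => Commute.sum_right _ _ _ fun j _ => ?_
    by_cases hij : i = j
    · subst hij; exact ((Commute.refl s).cfc_real _).symm.map _
    · exact S.comm _ _ hij _ _
  · rw [hT, map_sum, ← sum_sub_distrib, sum_mul, sum_mul]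
    refine sum_congr rfl fun j _ => ?_
    have e1 : S.π j s - algebraMap ℝ B (ϑ j) = S.π j (cfc (fun t => t - ϑ j) s) := by
      rw [map_cfcR _ (by fun_prop) hs, cfc_sub _ _ _ (by fun_prop) (by fun_prop),
        cfc_id' ℝ _ (hs.map _), cfc_const _ _ (hs.map _)]
    rw [e1, S.mul_pr, S.mul_pr, cfc_mul' (by fun_prop) (tent_cont _ _), cfc_mul' (hg j) (tent_cont _ _)]
    congr 3
    funext t
    rcases le_total η |t - ϑ j| with h1 | h1
    · simp [tent, h1]
    · have := abs_le.1 h1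
      simp only [g, min_eq_right this.2, max_eq_right this.1]

theorem orth_full (hB : Rich B) (h : ∀ χ : B →⋆ₙₐ[ℂ] ℂ, χ = 0) :
    ∃ a b : B, IsSelfAdjoint a ∧ IsSelfAdjoint b ∧ a * b = 0 ∧ Full a ∧ Full b := by
  obtain ⟨s₀, hs₀, ι₀, _, d, u₀, w₀, e₀⟩ := single_sa hB h
  obtain ⟨D, _, φ, y, h1, h2, h3⟩ := hB (Option (Fin 3 × ι₀))
    fun i => i.elim s₀ fun i => ![u₀ i.2, d i.2, w₀ i.2] i.1
  have hs : IsSelfAdjoint (y none) := sa_of_inj h1 (by rw [h2]; exact hs₀)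
  obtain ⟨δ, C, hδ, hC, hg⟩ := gap_gen hs ⟨ι₀, _, fun i => y (some (1, i)),
    fun i => y (some (0, i)), fun i => y (some (2, i)), h1 (by simpa [h2] using e₀)⟩
  set s := y none
  set l := 2 / C with hl
  have l0 : 0 < l := by positivity
  obtain ⟨m, hm⟩ := exists_nat_ge (2 * Real.pi / (l * δ))
  rw [div_le_iff₀ (by positivity)] at hm
  obtain ⟨S⟩ := h3 (Fin m)
  let η := 1 / (4 * l) / (m + 1)
  have hη : 0 < η := by positivity
  obtain ⟨ι, _, k, u, w, e⟩ := hg η hη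
  have key : ∀ ψ : ℝ, Full (cfc (fun t => max 0 (Real.cos (l * t + ψ))) (∑ j, S.π j s)) := by
    intro ψ
    have e1 := S.pr_sum fun _ i => u i * (cfc (tent η (k i).1.1) s * (k i).1.2.2 *
      cfc (tent η (k i).1.2.1) s) * w i
    rw [e, ← Pi.one_def, map_one] at e1
    rw [Full, e1]
    refine Ideal.sum_mem _ fun κ _ => ?_
    let ϑ : ℕ → Fin m → ℝ := fun r j => if j.1 < r then (k (κ j)).1.2.1 else (k (κ j)).1.1
    obtain ⟨r, hr⟩ := chain (fun r => l * ∑ j, ϑ r j + ψ) m (δ := l * δ) (fun r hr => by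
      have : ∑ j, ϑ (r + 1) j - ∑ j, ϑ r j = (k (κ ⟨r, hr⟩)).1.2.1 - (k (κ ⟨r, hr⟩)).1.1 := by
        rw [← sum_sub_distrib, sum_eq_single ⟨r, hr⟩ (fun j _ hj => by
          have : j.1 ≠ r := fun h => hj (Fin.ext h)
          simp only [ϑ, show j.1 < r + 1 ↔ j.1 < r by omega, sub_self]) (by simp)]
        simp [ϑ]
      rw [add_sub_add_right_eq_sub, ← mul_sub, this]
      refine ⟨mul_le_mul_of_nonneg_left (k _).2.1 l0.le,
        (mul_le_mul_of_nonneg_left (k _).2.2 l0.le).trans_eq ?_⟩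
      rw [hl]; field_simp) hm
    have m1 := tent_mem S hs hη l0 (by
      rw [Fintype.card_fin, mul_div_assoc', div_lt_iff₀ (by positivity)]
      have : 0 < 1 / (4 * l) := by positivity
      linarith) (ϑ r) hr
    have m2 := Ideal.mul_mem_right (S.pr fun j => if j.1 < r then w (κ j) else
      (k (κ j)).1.2.2 * cfc (tent η (k (κ j)).1.2.1) s * w (κ j)) _ (Ideal.mul_mem_left _
      (S.pr fun j => if j.1 < r then u (κ j) * cfc (tent η (k (κ j)).1.1) s * (k (κ j)).1.2.2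
        else u (κ j)) m1)
    rw [← map_mul, ← map_mul] at m2
    convert m2 using 2
    funext j
    simp only [ϑ, Pi.mul_apply]
    split_ifs <;> simp only [mul_assoc]
  refine ⟨_, _, cfc_sa _ _, cfc_sa _ _, ?_, key 0, key Real.pi⟩
  rw [cfc_mul' (by fun_prop) (by fun_prop), ← cfc_zero ℝ (∑ j, S.π j s)]
  congr 1
  funext t
  rw [Real.cos_add_pi, add_zero]
  rcases le_total 0 (Real.cos (l * t)) with h | h <;> simp [h]

end Vale.Agent.P101
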