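import Vale.Agent.P101.Merge

/-! The Rordam-Winter relations. -/

namespace Vale.Agent.P101
open Filter Topology TopologicalSpace Finset

universe u
variable {ν : Type} [Fintype ν] [DecidableEq ν] {B : Type u} [CStarAlgebra B]

theorem polar {v q : B} (hq : IsSelfAdjoint q) {C : ℝ} (hC : 0 ≤ C)
    (h : ∀ z, ‖q * z‖ ≤ C * ‖v * z‖) :
    ∃ w, star w * w = q * q ∧ ∀ e, e * v = v → e * w = w := by
  set a := star v * v with ha
  have a0 : ∀ t ∈ spectrum ℝ a, 0 ≤ t := spectrum_star_mul_self_nonneg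
  have as : IsSelfAdjoint a := .star_mul_self v
  have e1 : ∀ f : ℝ → ℝ, Continuous f → star (v * cfc f a) * (v * cfc f a) =
      cfc (fun t => f t * t * f t) a := fun f hf => by
    rw [cfc_mul _ _ a (by fun_prop) (by fun_prop), cfc_mul _ _ a (by fun_prop) (by fun_prop),
      cfc_id' ℝ a, star_mul, (cfc_sa f a).star_eq, ha]
    simp only [mul_assoc]
  have n1 : ∀ (f : ℝ → ℝ) (η : ℝ), Continuous f → 0 ≤ η → (∀ t, 0 ≤ t → f t * t * f t ≤ η * η) →
      ‖cfc f a * q‖ ≤ C * η := fun f η hf hη h1 => by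
    rw [← norm_star, star_mul, hq.star_eq, (cfc_sa f a).star_eq]
    refine (h _).trans (mul_le_mul_of_nonneg_left (le_of_not_gt fun h2 => ?_) hC)
    have : ‖cfc (fun t => f t * t * f t) a‖ ≤ η * η := norm_cfc_le (by positivity) fun t ht => by
      rw [Real.norm_eq_abs, abs_of_nonneg (by nlinarith [a0 t ht, mul_self_nonneg (f t)])]
      exact h1 t (a0 t ht)
    rw [← e1 f hf, CStarRing.norm_star_mul_self] at this
    nlinarith
  let η : ℕ → ℝ := fun n => 1 / ((n : ℝ) + 1)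
  have η0 : ∀ n, 0 < η n := fun n => Nat.one_div_pos_of_nat
  have hm : ∀ n t, 0 < max √t (η n) := fun n t => lt_max_of_lt_right (η0 n)
  let r : ℕ → ℝ → ℝ := fun n t => 1 / max √t (η n)
  have hr : ∀ n, Continuous (r n) := fun n =>
    continuous_const.div (by fun_prop) fun t => (hm n t).ne'
  have u0 : ∀ n t, 0 ≤ √t * r n t := fun n t => mul_nonneg (Real.sqrt_nonneg _) (one_div_pos.2 (hm n t)).le
  have u1 : ∀ n t, √t * r n t ≤ 1 := fun n t => by
    rw [mul_one_div, div_le_one (hm n t)]; exact le_max_left _ _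
  have u2 : ∀ n t, η n ≤ √t → √t * r n t = 1 := fun n t h => by
    simp only [r, max_eq_left h]; exact mul_one_div_cancel ((η0 n).trans_le h).ne'
  have small : ∀ (n : ℕ) (t x : ℝ), 0 ≤ t → x * x ≤ 1 → (η n ≤ √t → x = 0) → x * t * x ≤ η n * η n :=
    fun n t x ht h1 h2 => by
      rcases le_total (η n) √t with h3 | h3
      · rw [h2 h3]; simpa using mul_self_nonneg _
      · have := Real.mul_self_sqrt ht
        nlinarith [Real.sqrt_nonneg t]
  have e2 : ∀ f g : ℝ → ℝ, Continuous f → Continuous g → (∀ t, 0 ≤ t → g t * g t = f t) →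
      q * cfc f a * q = star (cfc g a * q) * (cfc g a * q) := fun f g hf hg h => by
    rw [star_mul, hq.star_eq, (cfc_sa g a).star_eq, mul_assoc q (cfc g a), ← mul_assoc (cfc g a),
      cfc_mul' hg hg, mul_assoc, cfc_congr fun t ht => h t (a0 t ht)]
  have e3 : ∀ f : ℝ → ℝ, Continuous f → star (v * cfc f a * q) * (v * cfc f a * q) =
      q * cfc (fun t => f t * t * f t) a * q := fun f hf => by
    rw [← e1 f hf, star_mul, hq.star_eq]; simp only [mul_assoc]
  have ηt : Tendsto (fun n => C * η n) atTop (𝓝 0) := by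
    simpa only [mul_zero] using tendsto_one_div_add_atTop_nhds_zero_nat.const_mul C
  have hy : CauchySeq fun n => v * cfc (r n) a * q := by
    refine cauchySeq_of_le_tendsto_0' (fun n => C * η n) (fun n m hnm => ?_) ηt
    have := hr n
    have := hr m
    rw [dist_eq_norm, ← sub_mul, ← mul_sub, ← cfc_sub _ _ a (by fun_prop) (by fun_prop)]
    have h1 := e3 (fun t => r n t - r m t) (by fun_prop)
    rw [e2 _ (fun t => √t * r n t - √t * r m t) (by fun_prop) (by fun_prop) fun t ht => by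
      linear_combination (r n t - r m t) ^ 2 * Real.mul_self_sqrt ht] at h1
    have h2 := congrArg norm h1
    rw [CStarRing.norm_star_mul_self, CStarRing.norm_star_mul_self,
      mul_self_inj (norm_nonneg _) (norm_nonneg _)] at h2
    rw [h2]
    refine n1 _ _ (by fun_prop) (η0 n).le fun t ht => small n t _ ht
      (by nlinarith [u0 n t, u0 m t, u1 n t, u1 m t]) fun h3 => ?_
    rw [u2 n t h3, u2 m t (le_trans (Nat.one_div_le_one_div hnm) h3), sub_self]
  obtain ⟨w, hw⟩ := cauchySeq_tendsto_of_complete hy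
  refine ⟨w, tendsto_nhds_unique (hw.star.mul hw) (tendsto_iff_norm_sub_tendsto_zero.2
    (squeeze_zero (fun _ => norm_nonneg _) (fun n => ?_) (by simpa using ηt.mul ηt))), fun e he =>
    tendsto_nhds_unique (hw.const_mul e) (hw.congr fun n => by rw [← mul_assoc, ← mul_assoc, he])⟩
  have := hr n
  have p0 : ∀ t, 0 ≤ t → 0 ≤ 1 - r n t * t * r n t := fun t ht => by
    have := Real.mul_self_sqrt ht
    have e : r n t * t * r n t = √t * r n t * (√t * r n t) := by
      linear_combination (-r n t ^ 2) * this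
    rw [e]; nlinarith [u0 n t, u1 n t]
  rw [norm_sub_rev, e3 _ (hr n), show ∀ x, q * q - q * x * q = q * (1 - x) * q from fun x => by
    noncomm_ring, ← cfc_const_one ℝ a, ← cfc_sub _ _ a (by fun_prop) (by fun_prop),
    e2 _ (fun t => √(1 - r n t * t * r n t)) (by fun_prop) (by fun_prop) fun t ht =>
      Real.mul_self_sqrt (p0 t ht), CStarRing.norm_star_mul_self]
  refine mul_self_le_mul_self (norm_nonneg _) (n1 _ _ (by fun_prop) (η0 n).le fun t ht =>
    small n t _ ht ?_ fun h3 => ?_)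
  · rw [Real.mul_self_sqrt (p0 t ht)]; nlinarith [mul_self_nonneg (r n t)]
  · rw [Real.sqrt_eq_zero', sub_nonpos]
    have := Real.mul_self_sqrt ht
    have h4 := u2 n t h3
    exact le_of_eq (by linear_combination (r n t ^ 2) * this - (√t * r n t + 1) * h4)

variable [PartialOrder B] [StarOrderedRing B]

theorem kill_low {t H : B} (t0 : 0 ≤ t) (t1 : t ≤ 1) (H0 : 0 ≤ H) (H1 : H ≤ 1) (hc : Commute H t)
    {N : ℕ} (h : t ^ N ≤ H) {g : ℝ → ℝ} (hg : Continuous g)
    (h0 : ∀ x, g x ≠ 0 → x ≤ (1 / 2) ^ (N + 1)) : cfc g H * (1 - cfc gam t) = 0 := by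
  have gc := gam_cont
  let m := cfc (fun x : ℝ => max x (1 / 2) ^ N) t
  have m1 : m ≤ 1 := cfc_le_one _ _ fun x hx => pow_le_one₀ (le_max_of_le_right (by norm_num))
    (max_le ((CFC.le_one_iff (R := ℝ) t).1 t1 x hx) (by norm_num))
  have m2 : algebraMap ℝ B ((1 / 2) ^ N) ≤ m := algebraMap_le_cfc _ _ _ fun x _ =>
    pow_le_pow_left₀ (by norm_num) (le_max_right _ _) _
  have e1 : m * (1 - cfc gam t) = t ^ N * (1 - cfc gam t) := by
    rw [← cfc_pow_id (R := ℝ) t N, ← cfc_const_one ℝ t, ← cfc_sub _ _ t (by fun_prop) (by fun_prop),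
      cfc_mul' (by fun_prop) (by fun_prop), cfc_mul' (by fun_prop) (by fun_prop)]
    congr 1
    funext x
    rcases le_total x (1 / 2) with h | h
    · simp [gam_small h]
    · rw [max_eq_left h]
  have hp : (0 : ℝ) < (1 / 2) ^ (N + 1) := by positivity
  have hp1 : (1 / 2 : ℝ) ^ N ≤ 1 := pow_le_one₀ (by norm_num) (by norm_num)
  have e2 : algebraMap ℝ B 2 = 1 + 1 := by rw [← one_add_one_eq_two, map_add, map_one]
  refine vanish (θ := 2) (ρ := 2 - (1 / 2) ^ (N + 1)) (y := -(algebraMap ℝ B 2 - (m + (H - t ^ N))))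
    H0.isSelfAdjoint hg ?_ (fun x hx => ?_) ?_ ?_
  · rw [norm_neg]
    refine ((CStarAlgebra.norm_le_iff_le_algebraMap _ (r := 2 - (1 / 2) ^ N) (by linarith) ?_).2
      ?_).trans_lt (by rw [pow_succ] at hp ⊢; linarith)
    · rw [e2, show 1 + 1 - (m + (H - t ^ N)) = (1 - m) + (1 - H) + t ^ N by abel]
      exact add_nonneg (add_nonneg (sub_nonneg.2 m1) (sub_nonneg.2 H1)) (CStarAlgebra.pow_nonneg t0 N)
    · rw [map_sub]
      exact sub_le_sub_left (m2.trans (le_add_of_nonneg_right (sub_nonneg.2 h))) _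
  · have := h0 x hx
    exact le_abs.2 (Or.inr (by linarith))
  · exact ((Algebra.commute_algebraMap_right _ _).sub_right ((hc.symm.cfc_real _).symm.add_right
      ((Commute.refl H).sub_right (hc.pow_right N)))).neg_right
  · rw [neg_sub, sub_mul, sub_mul, add_mul, e1, ← add_mul, add_sub_cancel]

theorem merge_all {J : Type} (F : J → ν → ν → B) (hF : ∀ l, OZ (F l))
    (hc : ∀ l l', l ≠ l' → ∀ a b c d, Commute (F l a b) (F l' c d))
    (t0 : ∀ l, 0 ≤ ∑ a, F l a a) (t1 : ∀ l, ∑ a, F l a a ≤ 1) (o : ν) (s : Finset J) :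
    ∃ E : ν → ν → B, OZ E ∧ 0 ≤ ∑ a, E a a ∧ ∑ a, E a a ≤ 1 ∧
      (∀ b, (∀ l ∈ s, ∀ i j, Commute b (F l i j)) → ∀ i j, Commute b (E i j)) ∧
      (∃ N, ∀ l ∈ s, (∑ a, F l a a) ^ (N + 1) ≤ ∑ a, E a a) ∧
      ∀ ξ, (∀ l ∈ s, F l o o * ξ = ξ ∨ cfc gam (∑ a, F l a a) * ξ = ξ) →
        (∃ l ∈ s, F l o o * ξ = ξ) → E o o * ξ = ξ := by
  classical
  induction s using Finset.induction_on with
  | empty => exact ⟨0, ⟨by simp, by simp⟩, by simp, by simp, by simp, ⟨0, by simp⟩, by simp⟩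
  | insert k s hk ih =>
    obtain ⟨E, hE, H0, H1, c1, ⟨N, hN⟩, c2⟩ := ih
    obtain ⟨M, hM, M1, M2, M3, M4, M5, M6⟩ := merge_step hE (hF k) (fun a b => c1 _ fun l hl =>
      hc k l (fun h => hk (h ▸ hl)) a b) H0 H1 (t0 k) (t1 k) o
    refine ⟨M, hM, hE.sa.mul_self_nonneg.trans M2, M1, fun b hb => M4 b
      (c1 b fun l hl => hb l (mem_insert_of_mem hl)) (hb k (mem_insert_self _ _)),
      ⟨2 * N + 1, fun l hl => ?_⟩, fun ξ h1 h2 => ?_⟩
    · rcases mem_insert.1 hl with rfl | hl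
      · rw [← sq] at M3
        exact (CStarAlgebra.pow_antitone (t0 l) (t1 l) (by omega)).trans M3
      · refine le_trans ?_ M2
        have cc : Commute ((∑ a, F l a a) ^ (N + 1)) (∑ a, E a a) :=
          (Commute.sum_right _ _ _ fun a _ => c1 _ (fun l' _ i j => by
            by_cases h : l = l'
            · subst h; exact (hF l).comm i j
            · exact .sum_left _ _ _ fun _ _ => hc _ _ h _ _ _ _) a a).pow_left _
        have p0 := CStarAlgebra.pow_nonneg (t0 l) (N + 1)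
        rw [show 2 * N + 1 + 1 = (N + 1) + (N + 1) by ring, pow_add, ← sub_nonneg,
          cc.symm.mul_self_sub_mul_self_eq']
        exact Commute.mul_nonneg (sub_nonneg.2 (hN l hl)) (add_nonneg H0 p0)
          (((Commute.refl _).add_right cc.symm).sub_left (cc.add_right (.refl _)))
    · by_cases h3 : F k o o * ξ = ξ
      · exact M5 ξ h3
      · refine M6 ξ ((h1 k (mem_insert_self _ _)).resolve_left h3)
          (c2 ξ (fun l hl => h1 l (mem_insert_of_mem hl)) ?_)
        obtain ⟨l, hl, h4⟩ := h2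
        exact ⟨l, (mem_insert.1 hl).resolve_left fun h => h3 (h ▸ h4), h4⟩

theorem rw_fin {E : ν → ν → B} (hE : OZ E) (H0 : 0 ≤ ∑ a, E a a) {δ : ℝ} (δ0 : 0 < δ) (δ1 : δ ≤ 1)
    {v : B} {o : ν} (hv : star v * v = cfc (fun x => √(1 - x / δ)) (∑ a, E a a) *
      cfc (fun x => √(1 - x / δ)) (∑ a, E a a)) (Ev : E o o * v = v) :
    ∃ (E : ν → ν → B) (v q : B), OZ E ∧ 0 ≤ ∑ a, E a a ∧ star v * v = 1 - ∑ a, E a a ∧
      E o o * v = v ∧ IsSelfAdjoint q ∧ q * q = 1 - ∑ a, E a a ∧ ∀ a b, Commute q (E a b) := by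
  set H := ∑ a, E a a with hH
  have Hs : IsSelfAdjoint H := hE.sa
  set q := cfc (fun x => √(1 - x / δ)) H
  have hm : ∀ t, 0 < max t δ := fun t => lt_max_of_lt_right δ0
  let g : ℝ → ℝ := fun t => 1 / max t δ
  have hg : Continuous g := continuous_const.div (by fun_prop) fun t => (hm t).ne'
  have cg : ∀ f : ℝ → ℝ, ∀ i j, Commute (cfc f H) (E i j) := fun f i j => (hE.comm i j).cfc_real f
  have qq : q * q = 1 - ∑ a, cfc g H * E a a := by
    rw [← mul_sum, ← hH, cfc_mul' (by fun_prop) (by fun_prop), ← cfc_const_one ℝ H]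
    conv_rhs => arg 2; arg 2; rw [← cfc_id' ℝ H]
    rw [cfc_mul' hg (by fun_prop), ← cfc_sub _ _ H (by fun_prop) (by fun_prop)]
    congr 1
    funext x
    rcases le_total x δ with h4 | h4
    · rw [Real.mul_self_sqrt (by rw [sub_nonneg, div_le_one δ0]; exact h4)]
      simp only [g, max_eq_right h4]; ring
    · rw [Real.sqrt_eq_zero'.2 (by rw [sub_nonpos, one_le_div δ0]; exact h4)]
      simp only [g, max_eq_left h4]
      field_simp [(δ0.trans_le h4).ne']; ring
  refine ⟨_, v, q, hE.smul (cfc_sa g H) (cg g), ?_, hv.trans qq, ?_, cfc_sa _ _, qq, fun a b =>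
    ((Commute.refl H).cfc_real _).symm.cfc_real _ |>.mul_right (cg _ a b)⟩
  · rw [← mul_sum]
    exact Commute.mul_nonneg (cfc_nonneg fun t _ => (one_div_pos.2 (hm t)).le) H0
      ((Commute.refl H).cfc_real _)
  · rw [mul_assoc, Ev, cfc_eig hE.sa hg (hE.fix Ev)]
    simp [g, δ1]

theorem rw_rel (hB : Rich B) (h : ∀ χ : B →⋆ₙₐ[ℂ] ℂ, χ = 0) (o : ν) :
    ∃ (E : ν → ν → B) (v q : B), OZ E ∧ 0 ≤ ∑ a, E a a ∧ star v * v = 1 - ∑ a, E a a ∧
      E o o * v = v ∧ IsSelfAdjoint q ∧ q * q = 1 - ∑ a, E a a ∧ ∀ a b, Commute q (E a b) := by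
  classical
  obtain ⟨E₀, hE₀, ⟨p₀, q₀, hp₀, hq₀⟩, ι, _, T₀, r₀, hT₀, hr₀⟩ := oz_norm hB h o
  obtain ⟨D, _, φ, y, h1, h2, h3⟩ := hB ((ν × ν) ⊕ Bool ⊕ ι ⊕ ι) (Sum.elim (fun i => E₀ i.1 i.2)
    (Sum.elim (fun b => cond b p₀ q₀) (Sum.elim T₀ r₀)))
  let e : ν → ν → D := fun a b => y (.inl (a, b))
  let T : ι → D := fun k => y (.inr (.inr (.inl k)))
  have he : OZ e := ⟨fun a b => h1 (by simp [map_star, e, h2, hE₀.adj]), fun a b c d => h1 (by
    split_ifs with h <;> simp [e, h2, hE₀.mul, h])⟩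
  have hp : star (y (.inr (.inl true))) * y (.inr (.inl true)) = ∑ a, e a a :=
    h1 (by simp [map_star, e, h2, hp₀])
  have hq : star (y (.inr (.inl false))) * y (.inr (.inl false)) = 1 - ∑ a, e a a :=
    h1 (by simp [map_star, e, h2, hq₀])
  have hT : ∀ k, e o o * T k = T k := fun k => h1 (by simp [e, T, h2, hT₀])
  have hr : ∑ k, y (.inr (.inr (.inr k))) * T k = 1 := h1 (by simp [T, h2, hr₀])
  obtain ⟨S⟩ := h3 (PairIdx ι)
  have gc := gam_cont
  have t0 : ∀ l, 0 ≤ ∑ a, S.π l (e a a) := fun l => by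
    rw [← map_sum, ← hp, map_mul, map_star]; exact star_mul_self_nonneg _
  have t1 : ∀ l, ∑ a, S.π l (e a a) ≤ 1 := fun l => by
    rw [← sub_nonneg, ← map_sum, ← map_one (S.π l), ← map_sub, ← hq, map_mul, map_star]
    exact star_mul_self_nonneg _
  obtain ⟨E, hE, H0, H1, c1, ⟨N, hN⟩, c2⟩ := merge_all (fun l a b => S.π l (e a b))
    (fun l => he.map _) (fun l l' h a b c d => S.comm l l' h _ _) t0 t1 o univ
  set H := ∑ a, E a a with hH
  set δ : ℝ := (1 / 2) ^ (N + 1 + 1) with hδ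
  have δ0 : 0 < δ := by positivity
  have δ1 : δ ≤ 1 := pow_le_one₀ (by norm_num) (by norm_num)
  let q := cfc (fun x => √(1 - x / δ)) H
  let γ := fun l => cfc gam (∑ a, S.π l (e a a))
  have γe : ∀ l, γ l = S.π l (cfc gam (∑ a, e a a)) := fun l => by
    rw [map_cfcR _ gc he.sa, map_sum]
  have γq : ∀ l, γ l * q = q := fun l => by
    have := kill_low (t0 l) (t1 l) H0 H1 (Commute.sum_right _ _ _ fun a _ => c1 _ (fun l' _ i j => by
      by_cases h : l = l'
      · subst h; exact (he.map (S.π l)).comm i j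
      · exact .sum_left _ _ _ fun _ _ => S.comm _ _ h _ _) a a).symm (hN l (mem_univ _))
      (g := fun x => √(1 - x / δ)) (by fun_prop) fun x hx => by
        rw [Real.sqrt_ne_zero', sub_pos, div_lt_one δ0] at hx; exact hx.le
    have h4 := congrArg star this
    rw [star_mul, star_sub, star_one, (cfc_sa _ _).star_eq, (cfc_sa _ _).star_eq, star_zero, sub_mul,
      one_mul, sub_eq_zero] at h4
    exact h4.symm
  have γT : ∀ k, cfc gam (∑ a, e a a) * T k = 0 := fun k => by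
    rw [cfc_eig he.sa gc (he.fix (hT k))]; simp [gam]
  let Z : (ι → ι) × ι → B := fun p => S.π (.inl p.2) (T (p.1 p.2)) * S.π (.inr p.1) (T p.2)
  have cZ : ∀ p : (ι → ι) × ι, ∀ a b, Commute (S.π (.inl p.2) a) (S.π (.inr p.1) b) := fun p =>
    S.comm _ _ (by simp)
  have Z0 : ∀ p l, l ≠ .inl p.2 → l ≠ .inr p.1 → γ l * (Z p * q) = Z p * q := fun p l h4 h5 => by
    rw [← mul_assoc, γe, ((S.comm _ _ h4 _ _).mul_right (S.comm _ _ h5 _ _)).eq, mul_assoc, ← γe, γq]
  have Z1 : ∀ p a, S.π (.inl p.2) a * (Z p * q) =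
      S.π (.inl p.2) (a * T (p.1 p.2)) * S.π (.inr p.1) (T p.2) * q := fun p a => by
    simp only [Z, map_mul, mul_assoc]
  have Z2 : ∀ p a, S.π (.inr p.1) a * (Z p * q) =
      S.π (.inl p.2) (T (p.1 p.2)) * S.π (.inr p.1) (a * T p.2) * q := fun p a => by
    simp only [Z, map_mul, ← mul_assoc, ← (cZ p _ a).eq]
  have fx : ∀ p, E o o * (Z p * q) = Z p * q := fun p => c2 _ (fun l _ => by
    by_cases h4 : l = .inl p.2
    · left; rw [h4, Z1, hT]
    · by_cases h5 : l = .inr p.1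
      · left; rw [h5, Z2, hT]
      · exact Or.inr (Z0 p l h4 h5)) ⟨.inl p.2, mem_univ _, by rw [Z1, hT]⟩
  have orth : ∀ p p', p ≠ p' → star (Z p * q) * (Z p' * q) = 0 := fun p p' hp => by
    obtain ⟨l, h4, h5⟩ : ∃ l, γ l * (Z p * q) = 0 ∧ γ l * (Z p' * q) = Z p' * q := by
      by_cases h6 : p.2 = p'.2
      · exact ⟨.inr p.1, by rw [γe, Z2, γT]; simp, Z0 _ _ (by simp)
          (by simpa using fun h => hp (Prod.ext h h6))⟩
      · exact ⟨.inl p.2, by rw [γe, Z1, γT]; simp, Z0 _ _ (by simpa using h6) (by simp)⟩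
    have h6 : IsSelfAdjoint (γ l) := cfc_sa _ _
    rw [← h5, ← mul_assoc, ← h6.star_eq, ← star_mul, h4]; simp
  obtain ⟨c, hc⟩ := (Submodule.mem_span_range_iff_exists_fun B).1 (pair_trick S _ hr
    (Ideal.span (Set.range Z)) fun w i => by
      rw [map_mul, map_mul, (cZ (w, i) _ _).mul_mul_mul_comm]
      exact Ideal.mul_mem_left _ _ (Ideal.subset_span ⟨(w, i), rfl⟩))
  obtain ⟨v, hv, hv'⟩ := polar (v := ∑ p, Z p * q) (q := q) (cfc_sa _ _) (C := ∑ p, ‖c p‖)
    (by positivity) fun z => by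
      rw [← one_mul (q * z), ← hc, sum_mul, sum_mul]
      refine norm_sum_le_of_le _ fun p _ => ?_
      rw [smul_eq_mul, mul_assoc, ← mul_assoc (Z p)]
      refine norm_mul_le_of_le le_rfl (le_of_not_gt fun h4 => ?_)
      have h5 : star (Z p * q) * (Z p * q) ≤ star (∑ p, Z p * q) * ∑ p, Z p * q := by
        rw [star_sum, sum_mul_sum, sum_congr rfl fun p _ => sum_eq_single p
          (fun p' _ h => orth _ _ h.symm) (by simp)]
        exact single_le_sum (f := fun p => star (Z p * q) * (Z p * q))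
          (fun p _ => star_mul_self_nonneg _) (mem_univ p)
      have h6 := CStarAlgebra.norm_le_norm_of_nonneg_of_le
        (star_left_conjugate_nonneg (star_mul_self_nonneg _) z) (star_left_conjugate_le_conjugate h5 z)
      simp only [← mul_assoc (star z), ← star_mul] at h6
      rw [mul_assoc, mul_assoc (star _), CStarRing.norm_star_mul_self,
        CStarRing.norm_star_mul_self] at h6
      nlinarith [norm_nonneg ((∑ p, Z p * q) * z)]
  have Ev : E o o * v = v := hv' _ (by rw [mul_sum]; exact sum_congr rfl fun p _ => fx p)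
  exact rw_fin hE H0 δ0 δ1 hv Ev

end Vale.Agent.P101
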