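import Vale.Agent.P101.Tools

/-! The ultrapower and the central sequence algebra as C*-algebras. -/

namespace Vale.Agent.P101
open Filter Topology
open scoped BoundedContinuousFunction

universe u v
variable (ω : Ultrafilter ℕ) (A : Type u) [CStarAlgebra A]

theorem mem_null {x : ℕ →ᵇ A} : x ∈ nullIdeal ω A ↔ Tendsto (fun n => ‖x n‖) ω (𝓝 0) := Iff.rfl

instance nullIdeal_closed : IsClosed (nullIdeal ω A : Set (ℕ →ᵇ A)) := by
  refine isClosed_of_closure_subset fun x hx => (mem_null ω A).2 ?_
  refine Metric.tendsto_nhds.2 fun ε hε => ?_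
  obtain ⟨y, hy, h⟩ := Metric.mem_closure_iff.1 hx (ε / 2) (half_pos hε)
  filter_upwards [Metric.tendsto_nhds.1 ((mem_null ω A).1 hy) (ε / 2) (half_pos hε)] with n hn
  rw [dist_zero_right, norm_norm] at hn ⊢
  have h1 := (x - y).norm_coe_le_norm n
  rw [dist_eq_norm] at h
  have h2 : ‖x n‖ ≤ ‖x n - y n‖ + ‖y n‖ := by simpa using norm_add_le (x n - y n) (y n)
  simp only [BoundedContinuousFunction.coe_sub, Pi.sub_apply] at h1
  linarith

noncomputable instance ultraCStar : CStarAlgebra (UltraPower ω A) := quotCStarAlgebra _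

/-- the class of a bounded sequence -/
noncomputable def cls : (ℕ →ᵇ A) →⋆ₐ[ℂ] UltraPower ω A := qmk (nullIdeal ω A)

variable {ω A}

theorem cls_surj (y : UltraPower ω A) : ∃ x, cls ω A x = y := Ideal.Quotient.mk_surjective y

theorem cls_eq {x y : ℕ →ᵇ A} :
    cls ω A x = cls ω A y ↔ Tendsto (fun n => ‖x n - y n‖) ω (𝓝 0) := Ideal.Quotient.eq

theorem norm_cls_le {x : ℕ →ᵇ A} {c : ℝ} (h : ∀ᶠ n in ω, ‖x n‖ ≤ c) : ‖cls ω A x‖ ≤ c := by
  classical
  obtain ⟨n, hn⟩ := h.exists
  have hc : 0 ≤ c := (norm_nonneg _).trans hn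
  let y : ℕ →ᵇ A := BoundedContinuousFunction.ofNormedAddCommGroupDiscrete
    (fun n => if ‖x n‖ ≤ c then x n else 0) c fun n => by split_ifs with h <;> simp [h, hc]
  have e : cls ω A x = cls ω A y := cls_eq.2 (tendsto_const_nhds.congr' (by
    filter_upwards [h] with n hn
    simp [y, hn]))
  rw [e]
  refine (norm_mk_le _ y).trans ((BoundedContinuousFunction.norm_le hc).2 fun n => ?_)
  change ‖(if ‖x n‖ ≤ c then x n else 0)‖ ≤ c
  split_ifs with h <;> simp [h, hc]

theorem ev_norm_le (x : ℕ →ᵇ A) {ε : ℝ} (hε : 0 < ε) :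
    ∀ᶠ n in ω, ‖x n‖ ≤ ‖cls ω A x‖ + ε := by
  obtain ⟨y, hy, h⟩ := norm_mk_lt (cls ω A x) (half_pos hε)
  have := cls_eq.1 (show cls ω A x = cls ω A y from hy.symm)
  filter_upwards [Metric.tendsto_nhds.1 this (ε / 2) (half_pos hε)] with n hn
  rw [dist_zero_right, norm_norm] at hn
  have h1 := y.norm_coe_le_norm n
  have h2 : ‖x n‖ ≤ ‖x n - y n‖ + ‖y n‖ := by simpa using norm_add_le (x n - y n) (y n)
  linarith

variable (ω A) in
/-- the constant sequences -/
noncomputable def constHom : A →⋆ₐ[ℂ] UltraPower ω A :=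
  (cls ω A).comp
    { toFun := BoundedContinuousFunction.const ℕ
      map_one' := rfl
      map_mul' := fun _ _ => rfl
      map_zero' := rfl
      map_add' := fun _ _ => rfl
      commutes' := fun c => by ext; simp [Algebra.algebraMap_eq_smul_one]
      map_star' := fun _ => rfl }

theorem constHom_apply (a : A) : constHom ω A a = constSeq ω A a := rfl

theorem mem_central {y : UltraPower ω A} :
    y ∈ CentralSeq ω A ↔ ∀ a, Commute (constHom ω A a) y := by
  rw [CentralSeq, StarSubalgebra.mem_centralizer_iff]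
  constructor
  · exact fun h a => (h _ ⟨a, rfl⟩).1
  · rintro h _ ⟨a, rfl⟩
    exact ⟨h a, by rw [← constHom_apply, ← map_star]; exact h _⟩

variable (ω A) in
instance central_closed : IsClosed (CentralSeq ω A : Set (UltraPower ω A)) := by
  have : (CentralSeq ω A : Set (UltraPower ω A)) =
      ⋂ a, {y | constHom ω A a * y = y * constHom ω A a} := by
    ext y; simp [mem_central, Commute, SemiconjBy]
  rw [this]
  exact isClosed_iInter fun a => isClosed_eq (by fun_prop) (by fun_prop)

variable (ω A) in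
noncomputable instance centralCStar : CStarAlgebra (CentralSeq ω A) :=
  StarSubalgebra.cstarAlgebra _

end Vale.Agent.P101
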